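import Mathlib

set_option autoImplicit false

open Complex MeasureTheory Metric Set Filter Topology
open Real (pi)

local notation "π" => Real.pi

namespace Crest.Agent.R300.Contour

/-- Rotation of a ray: for an entire function with Gaussian decay on the sector spanned by
`ω₀, ω₁` the ray integrals in the directions `ω₀` and `ω₁` agree. -/
theorem ray_rotate {f : ℂ → ℂ} (hf : Differentiable ℂ f) (s ω₀ ω₁ : ℂ) {K c : ℝ} (hc : 0 < c)
    (hb : ∀ t ∈ Icc (0:ℝ) 1, ∀ τ : ℝ, 0 ≤ τ →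
      ‖f (s + ((1 - t : ℂ) * ω₀ + t * ω₁) * τ)‖ ≤ K * Real.exp (-c * τ ^ 2)) :
    IntegrableOn (fun τ : ℝ => ω₀ * f (s + ω₀ * τ)) (Ioi 0) ∧
    IntegrableOn (fun τ : ℝ => ω₁ * f (s + ω₁ * τ)) (Ioi 0) ∧
    ∫ τ in Ioi (0:ℝ), ω₀ * f (s + ω₀ * τ) = ∫ τ in Ioi (0:ℝ), ω₁ * f (s + ω₁ * τ) := by
  have hK : 0 ≤ K := by
    have := hb 0 (by simp) 0 le_rfl
    have h2 := (norm_nonneg _).trans this
    simpa using h2
  have hb0 : ∀ τ : ℝ, 0 ≤ τ → ‖f (s + ω₀ * τ)‖ ≤ K * Real.exp (-c * τ ^ 2) := by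
    intro τ hτ
    have := hb 0 (by simp) τ hτ
    simpa using this
  have hb1 : ∀ τ : ℝ, 0 ≤ τ → ‖f (s + ω₁ * τ)‖ ≤ K * Real.exp (-c * τ ^ 2) := by
    intro τ hτ
    have := hb 1 (by simp) τ hτ
    simpa using this
  have hgi : Integrable (fun τ : ℝ => K * Real.exp (-c * τ ^ 2)) :=
    (integrable_exp_neg_mul_sq hc).const_mul K
  have hcont : ∀ ω : ℂ, Continuous (fun τ : ℝ => ω * f (s + ω * τ)) := by
    intro ω
    exact continuous_const.mul (hf.continuous.comp (by fun_prop))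
  have hint : ∀ ω : ℂ, (∀ τ : ℝ, 0 ≤ τ → ‖f (s + ω * τ)‖ ≤ K * Real.exp (-c * τ ^ 2)) →
      IntegrableOn (fun τ : ℝ => ω * f (s + ω * τ)) (Ioi 0) := by
    intro ω h
    refine Integrable.mono' ((hgi.const_mul ‖ω‖).integrableOn) (hcont ω).aestronglyMeasurable ?_
    filter_upwards [ae_restrict_mem measurableSet_Ioi] with τ hτ
    rw [norm_mul]
    exact mul_le_mul_of_nonneg_left (h τ (le_of_lt hτ)) (norm_nonneg _)
  refine ⟨hint _ hb0, hint _ hb1, ?_⟩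
  obtain ⟨g, hg⟩ := hf.isExactOn_univ
  have hg' : ∀ z, HasDerivAt g (f z) z := fun z => hg z (mem_univ z)
  -- finite integrals
  have hfin : ∀ (ω : ℂ) (T : ℝ), ∫ τ in (0:ℝ)..T, ω * f (s + ω * τ) = g (s + ω * T) - g s := by
    intro ω T
    have hd : ∀ τ ∈ Set.uIcc (0:ℝ) T, HasDerivAt (fun τ : ℝ => g (s + ω * τ)) (ω * f (s + ω * τ)) τ := by
      intro τ _
      have h1 : HasDerivAt (fun z : ℂ => s + ω * z) ω (τ:ℂ) := by
        simpa using ((hasDerivAt_id (τ:ℂ)).const_mul ω).const_add s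
      have h2 : HasDerivAt (fun z : ℂ => g (s + ω * z)) (f (s + ω * τ) * ω) (τ:ℂ) :=
        (hg' (s + ω * τ)).comp (τ:ℂ) h1
      have h3 := h2.comp_ofReal
      rw [mul_comm ω]
      exact h3
    have := intervalIntegral.integral_eq_sub_of_hasDerivAt hd ((hcont ω).intervalIntegrable _ _)
    rw [this]
    simp
  -- difference tends to zero
  have hdiff : ∀ T : ℝ, 0 ≤ T → ‖g (s + ω₁ * T) - g (s + ω₀ * T)‖
      ≤ K * Real.exp (-c * T ^ 2) * (‖ω₁ - ω₀‖ * T) := by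
    intro T hT
    have hd : ∀ t : ℝ, HasDerivAt (fun t : ℝ => g (s + ((1 - t : ℂ) * ω₀ + t * ω₁) * T))
        (((ω₁ - ω₀) * T) * f (s + ((1 - t : ℂ) * ω₀ + t * ω₁) * T)) t := by
      intro t
      have h1 : HasDerivAt (fun z : ℂ => s + ((1 - z) * ω₀ + z * ω₁) * T) ((ω₁ - ω₀) * T) (t:ℂ) := by
        have e : (fun z : ℂ => s + ((1 - z) * ω₀ + z * ω₁) * T)
            = fun z : ℂ => (s + ω₀ * T) + z * ((ω₁ - ω₀) * T) := by
          funext z; ring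
        rw [e]
        simpa using ((hasDerivAt_id (t:ℂ)).mul_const ((ω₁ - ω₀) * T)).const_add (s + ω₀ * T)
      have h2 : HasDerivAt (fun z : ℂ => g (s + ((1 - z) * ω₀ + z * ω₁) * T))
          (f (s + ((1 - t : ℂ) * ω₀ + t * ω₁) * T) * ((ω₁ - ω₀) * T)) (t:ℂ) :=
        (hg' (s + ((1 - t : ℂ) * ω₀ + t * ω₁) * T)).comp (t:ℂ) h1
      have h3 := h2.comp_ofReal
      rw [mul_comm ((ω₁ - ω₀) * (T:ℂ))]
      exact h3
    have hmv := (convex_Icc (0:ℝ) 1).norm_image_sub_le_of_norm_hasDerivWithin_le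
      (f := fun t : ℝ => g (s + ((1 - t : ℂ) * ω₀ + t * ω₁) * T))
      (f' := fun t : ℝ => (((ω₁ - ω₀) * T) * f (s + ((1 - t : ℂ) * ω₀ + t * ω₁) * T)))
      (C := K * Real.exp (-c * T ^ 2) * (‖ω₁ - ω₀‖ * T)) (x := 0) (y := 1)
      (fun t _ => (hd t).hasDerivWithinAt)
      (fun t ht => by
        rw [norm_mul, norm_mul, Complex.norm_real, Real.norm_eq_abs, abs_of_nonneg hT]
        have h0 : 0 ≤ ‖ω₁ - ω₀‖ * T := mul_nonneg (norm_nonneg _) hT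
        have := mul_le_mul_of_nonneg_left (hb t ht T hT) h0
        linarith)
      (by simp) (by simp)
    simpa using hmv
  have hlim : Tendsto (fun T : ℝ => K * Real.exp (-c * T ^ 2) * (‖ω₁ - ω₀‖ * T)) atTop (𝓝 0) := by
    have h1 : Tendsto (fun T : ℝ => T ^ (1:ℝ) * Real.exp (-c * T ^ (2:ℕ))) atTop (𝓝 0) := by
      have := rpow_mul_exp_neg_mul_sq_isLittleO_exp_neg hc 1
      have h2 : Tendsto (fun T : ℝ => Real.exp (-(1/2) * T)) atTop (𝓝 0) := by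
        apply Real.tendsto_exp_atBot.comp
        exact tendsto_id.const_mul_atTop_of_neg (by norm_num)
      exact this.trans_tendsto h2
    have h2 := h1.const_mul (K * ‖ω₁ - ω₀‖)
    rw [mul_zero] at h2
    refine h2.congr (fun T => ?_)
    rw [Real.rpow_one]
    ring
  have hT0 : Tendsto (fun T : ℝ => ∫ τ in (0:ℝ)..T, ω₀ * f (s + ω₀ * τ)) atTop
      (𝓝 (∫ τ in Ioi (0:ℝ), ω₀ * f (s + ω₀ * τ))) :=
    intervalIntegral_tendsto_integral_Ioi 0 (hint _ hb0) tendsto_id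
  have hT1 : Tendsto (fun T : ℝ => ∫ τ in (0:ℝ)..T, ω₁ * f (s + ω₁ * τ)) atTop
      (𝓝 (∫ τ in Ioi (0:ℝ), ω₁ * f (s + ω₁ * τ))) :=
    intervalIntegral_tendsto_integral_Ioi 0 (hint _ hb1) tendsto_id
  have hsub := hT1.sub hT0
  have hzero : Tendsto (fun T : ℝ => (∫ τ in (0:ℝ)..T, ω₁ * f (s + ω₁ * τ))
      - ∫ τ in (0:ℝ)..T, ω₀ * f (s + ω₀ * τ)) atTop (𝓝 0) := by
    refine squeeze_zero_norm' ?_ hlim
    filter_upwards [eventually_ge_atTop (0:ℝ)] with T hT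
    rw [hfin, hfin]
    have := hdiff T hT
    have e : g (s + ω₁ * T) - g s - (g (s + ω₀ * T) - g s) = g (s + ω₁ * T) - g (s + ω₀ * T) := by
      ring
    rw [e]
    exact this
  have := tendsto_nhds_unique hsub hzero
  exact (sub_eq_zero.mp this).symm

/-- the Gaussian exponential `exp(π A (S+b)² - 2 π S z)` -/
noncomputable def gf (A : ℝ) (b z S : ℂ) : ℂ :=
  cexp (π * A * (S + b) ^ 2 - 2 * π * S * z)

theorem gf_differentiable (A : ℝ) (b z : ℂ) : Differentiable ℂ (gf A b z) := by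
  unfold gf; fun_prop


/-- Gaussian decay along rays of direction `ω` with `Re ω² ≤ -δ`. -/
theorem gf_decay {A : ℝ} (hA : 0 < A) (b z : ℂ) (s : ℝ) {δ : ℝ} (hδ : 0 < δ) {ω : ℂ}
    (h2 : (ω ^ 2).re ≤ -δ) (h1 : ‖ω‖ ≤ 2) {τ : ℝ} (hτ : 0 ≤ τ) :
    ‖gf A b z (s + ω * τ)‖ ≤
      Real.exp (π * A * ‖(s:ℂ) + b‖ ^ 2 + 2 * π * |s| * ‖z‖
        + (4 * π * A * ‖(s:ℂ) + b‖ + 4 * π * ‖z‖) ^ 2 / (2 * (π * A * δ)))
        * Real.exp (-(π * A * δ / 2) * τ ^ 2) := by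
  have hpi := Real.pi_pos
  unfold gf
  rw [Complex.norm_exp, ← Real.exp_add]
  apply Real.exp_le_exp.mpr
  set β : ℂ := (s:ℂ) + b with hβ
  set B : ℝ := 4 * π * A * ‖β‖ + 4 * π * ‖z‖ with hB
  have e1 : (π * A * ((s:ℂ) + ω * τ + b) ^ 2 - 2 * π * ((s:ℂ) + ω * τ) * z).re
      = π * A * ((β ^ 2).re + 2 * τ * (β * ω).re + τ ^ 2 * (ω ^ 2).re)
        - 2 * π * (s * z.re + τ * (ω * z).re) := by
    have : (π * A * ((s:ℂ) + ω * τ + b) ^ 2 - 2 * π * ((s:ℂ) + ω * τ) * z : ℂ)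
        = ((π * A : ℝ) : ℂ) * (β ^ 2 + ((2 * τ : ℝ) : ℂ) * (β * ω) + ((τ ^ 2 : ℝ) : ℂ) * ω ^ 2)
          - ((2 * π : ℝ) : ℂ) * ((s : ℂ) * z + (τ : ℂ) * (ω * z)) := by
      rw [hβ]; push_cast; ring
    rw [this]
    simp only [Complex.sub_re, Complex.re_ofReal_mul, Complex.add_re]
  rw [e1]
  have b1 : (β ^ 2).re ≤ ‖β‖ ^ 2 := by
    calc (β ^ 2).re ≤ ‖β ^ 2‖ := Complex.re_le_norm _
      _ = ‖β‖ ^ 2 := by rw [norm_pow]
  have b2 : (β * ω).re ≤ 2 * ‖β‖ := by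
    calc (β * ω).re ≤ ‖β * ω‖ := Complex.re_le_norm _
      _ = ‖β‖ * ‖ω‖ := norm_mul _ _
      _ ≤ ‖β‖ * 2 := mul_le_mul_of_nonneg_left h1 (norm_nonneg _)
      _ = 2 * ‖β‖ := by ring
  have b3 : -(s * z.re) ≤ |s| * ‖z‖ := by
    calc -(s * z.re) ≤ |s * z.re| := neg_le_abs _
      _ = |s| * |z.re| := abs_mul _ _
      _ ≤ |s| * ‖z‖ := mul_le_mul_of_nonneg_left (Complex.abs_re_le_norm z) (abs_nonneg _)
  have b4 : -(ω * z).re ≤ 2 * ‖z‖ := by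
    calc -(ω * z).re ≤ |(ω * z).re| := neg_le_abs _
      _ ≤ ‖ω * z‖ := Complex.abs_re_le_norm _
      _ = ‖ω‖ * ‖z‖ := norm_mul _ _
      _ ≤ 2 * ‖z‖ := mul_le_mul_of_nonneg_right h1 (norm_nonneg _)
  have hpA : 0 < π * A := mul_pos hpi hA
  have hpAd : 0 < π * A * δ := mul_pos hpA hδ
  have c1 : π * A * ((β ^ 2).re + 2 * τ * (β * ω).re + τ ^ 2 * (ω ^ 2).re)
      ≤ π * A * (‖β‖ ^ 2 + 2 * τ * (2 * ‖β‖) + τ ^ 2 * (-δ)) := by
    apply mul_le_mul_of_nonneg_left _ hpA.le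
    have := mul_le_mul_of_nonneg_left b2 (by linarith : (0:ℝ) ≤ 2 * τ)
    have := mul_le_mul_of_nonneg_left h2 (sq_nonneg τ)
    linarith
  have c2 : -(2 * π * (s * z.re + τ * (ω * z).re)) ≤ 2 * π * |s| * ‖z‖ + 4 * π * ‖z‖ * τ := by
    have h3 := mul_le_mul_of_nonneg_left b3 (by positivity : (0:ℝ) ≤ 2 * π)
    have h4 := mul_le_mul_of_nonneg_left b4 (by positivity : (0:ℝ) ≤ 2 * π * τ)
    nlinarith
  have c3 : B * τ ≤ (π * A * δ / 2) * τ ^ 2 + B ^ 2 / (2 * (π * A * δ)) := by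
    have hq : 0 ≤ (π * A * δ * τ - B) ^ 2 / (2 * (π * A * δ)) := by positivity
    have e : (π * A * δ * τ - B) ^ 2 / (2 * (π * A * δ))
        = (π * A * δ / 2) * τ ^ 2 - B * τ + B ^ 2 / (2 * (π * A * δ)) := by
      field_simp
      ring
    linarith
  have e2 : B * τ = π * A * (2 * τ * (2 * ‖β‖)) + 4 * π * ‖z‖ * τ := by
    rw [hB]; ring
  nlinarith

/-- the kinked contour -/
noncomputable def ctr (σ κ τ : ℝ) : ℂ := σ + κ * |τ| + τ * I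

/-- `dS / i` along the kinked contour -/
noncomputable def dctr (κ τ : ℝ) : ℂ := 1 - I * (κ * Real.sign τ)

theorem ctr_pos {σ κ τ : ℝ} (h : 0 ≤ τ) : ctr σ κ τ = σ + (κ + I) * τ := by
  unfold ctr; rw [abs_of_nonneg h]; ring

theorem ctr_neg {σ κ τ : ℝ} (h : 0 ≤ τ) : ctr σ κ (-τ) = σ + (κ - I) * τ := by
  unfold ctr; rw [abs_neg, abs_of_nonneg h]; push_cast; ring

/-- splitting of the contour integral into two rays. -/
theorem split {f : ℂ → ℂ} (σ κ : ℝ)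
    (hp : IntegrableOn (fun τ : ℝ => ((κ:ℂ) + I) * f (σ + ((κ:ℂ) + I) * τ)) (Ioi 0))
    (hm : IntegrableOn (fun τ : ℝ => ((κ:ℂ) - I) * f (σ + ((κ:ℂ) - I) * τ)) (Ioi 0)) :
    Integrable (fun τ : ℝ => f (ctr σ κ τ) * dctr κ τ) ∧
    ∫ τ : ℝ, f (ctr σ κ τ) * dctr κ τ =
      -I * (∫ τ in Ioi (0:ℝ), ((κ:ℂ) + I) * f (σ + ((κ:ℂ) + I) * τ))
      + I * ∫ τ in Ioi (0:ℝ), ((κ:ℂ) - I) * f (σ + ((κ:ℂ) - I) * τ) := by
  set G : ℝ → ℂ := fun τ => f (ctr σ κ τ) * dctr κ τ with hG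
  have gp : ∀ τ ∈ Ioi (0:ℝ), G τ = -I * (((κ:ℂ) + I) * f (σ + ((κ:ℂ) + I) * τ)) := by
    intro τ hτ
    have hτ' : (0:ℝ) < τ := hτ
    simp only [hG, dctr, ctr_pos hτ'.le, Real.sign_of_pos hτ']
    push_cast
    linear_combination (f (σ + ((κ:ℂ) + I) * τ)) * Complex.I_sq
  have gm : ∀ τ ∈ Ioi (0:ℝ), G (-τ) = I * (((κ:ℂ) - I) * f (σ + ((κ:ℂ) - I) * τ)) := by
    intro τ hτ
    have hτ' : (0:ℝ) < τ := hτ
    simp only [hG, dctr, ctr_neg hτ'.le, Real.sign_of_neg (neg_lt_zero.mpr hτ')]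
    push_cast
    linear_combination (f (σ + ((κ:ℂ) - I) * τ)) * Complex.I_sq
  have ip : IntegrableOn G (Ioi 0) := by
    have h : IntegrableOn (fun τ : ℝ => -I * (((κ:ℂ) + I) * f (σ + ((κ:ℂ) + I) * τ))) (Ioi 0) :=
      hp.const_mul (-I)
    exact h.congr_fun (fun τ hτ => (gp τ hτ).symm) measurableSet_Ioi
  have im' : IntegrableOn (fun τ => G (-τ)) (Ioi 0) := by
    have h : IntegrableOn (fun τ : ℝ => I * (((κ:ℂ) - I) * f (σ + ((κ:ℂ) - I) * τ))) (Ioi 0) :=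
      hm.const_mul I
    exact h.congr_fun (fun τ hτ => (gm τ hτ).symm) measurableSet_Ioi
  have im : IntegrableOn G (Iic 0) := by
    have h1 : IntegrableOn (fun τ => G (-τ)) (Ici 0) :=
      (integrableOn_Ici_iff_integrableOn_Ioi).mpr im'
    have h2 := (Measure.measurePreserving_neg (volume : Measure ℝ)).integrableOn_comp_preimage
      (MeasurableEquiv.neg ℝ).measurableEmbedding (f := G) (s := Iic 0)
    have h3 : (Neg.neg ⁻¹' Iic (0:ℝ)) = Ici 0 := by ext x; simp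
    rw [h3] at h2
    exact h2.mp h1
  constructor
  · rw [← integrableOn_univ, ← Iic_union_Ioi (a := (0:ℝ))]
    exact im.union ip
  · rw [← intervalIntegral.integral_Iic_add_Ioi im ip]
    have e1 : ∫ τ in Iic (0:ℝ), G τ = ∫ τ in Ioi (0:ℝ), G (-τ) := by
      rw [integral_comp_neg_Ioi, neg_zero]
    have e2 : ∫ τ in Ioi (0:ℝ), -I * (((κ:ℂ) + I) * f (σ + ((κ:ℂ) + I) * τ))
        = -I * ∫ τ in Ioi (0:ℝ), (((κ:ℂ) + I) * f (σ + ((κ:ℂ) + I) * τ)) := integral_const_mul _ _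
    have e3 : ∫ τ in Ioi (0:ℝ), I * (((κ:ℂ) - I) * f (σ + ((κ:ℂ) - I) * τ))
        = I * ∫ τ in Ioi (0:ℝ), (((κ:ℂ) - I) * f (σ + ((κ:ℂ) - I) * τ)) := integral_const_mul _ _
    rw [e1, setIntegral_congr_fun measurableSet_Ioi gp, setIntegral_congr_fun measurableSet_Ioi gm,
      e2, e3, add_comm]

theorem vertical {A : ℝ} (hA : 0 < A) (b z : ℂ) (σ : ℝ) :
    ∫ τ : ℝ, gf A b z (σ + I * τ) = ((1 / Real.sqrt A : ℝ) : ℂ) * cexp (2 * π * b * z - π * z ^ 2 / A) := by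
  have hpi := Real.pi_pos
  have hAC : (A:ℂ) ≠ 0 := by exact_mod_cast hA.ne'
  have hpiC : (π:ℂ) ≠ 0 := by exact_mod_cast hpi.ne'
  have h1 : ∀ τ : ℝ, gf A b z (σ + I * τ) = cexp ((-(π * A) : ℂ) * τ ^ 2
      + (2 * π * I * (A * (σ + b) - z)) * τ + (π * A * (σ + b) ^ 2 - 2 * π * σ * z)) := by
    intro τ
    unfold gf
    congr 1
    linear_combination (π * A * τ ^ 2 : ℂ) * Complex.I_sq
  simp_rw [h1]
  rw [integral_cexp_quadratic (by
    have : (-((π:ℂ) * A)).re = -(π * A) := by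
      rw [← Complex.ofReal_mul, ← Complex.ofReal_neg, Complex.ofReal_re]
    rw [this]
    have := mul_pos hpi hA
    linarith)]
  have e1 : ((π:ℂ) / -(-(π * A))) ^ (1 / 2 : ℂ) = ((1 / Real.sqrt A : ℝ) : ℂ) := by
    have : (π:ℂ) / -(-(π * A)) = ((1 / A : ℝ) : ℂ) := by
      rw [neg_neg]; push_cast; field_simp
    rw [this]
    have h2 : (1 / 2 : ℂ) = ((1 / 2 : ℝ) : ℂ) := by push_cast; ring
    rw [h2, ← Complex.ofReal_cpow (by positivity)]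
    congr 1
    rw [← Real.sqrt_eq_rpow, Real.sqrt_div zero_le_one, Real.sqrt_one]
  rw [e1]
  congr 2
  have hI : (2 * π * I * (A * (σ + b) - z)) ^ 2 = -(4 * π ^ 2 * (A * (σ + b) - z) ^ 2) := by
    linear_combination (4 * π ^ 2 * (A * (σ + b) - z) ^ 2 : ℂ) * Complex.I_sq
  rw [hI]
  field_simp
  ring

/-- **Kinked-contour Gaussian identity.** For `S(τ) = σ + κ|τ| + iτ`, `0 ≤ κ < 1`,
`∫ exp(π A (S+b)² - 2 π S z) (1 - i κ sgn τ) dτ = A^(-1/2) exp(2 π b z - π z²/A)`. -/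
theorem kink {A : ℝ} (hA : 0 < A) (b z : ℂ) (σ : ℝ) {κ : ℝ} (hκ0 : 0 ≤ κ) (hκ1 : κ < 1) :
    Integrable (fun τ : ℝ => gf A b z (ctr σ κ τ) * dctr κ τ) ∧
    ∫ τ : ℝ, gf A b z (ctr σ κ τ) * dctr κ τ
      = ((1 / Real.sqrt A : ℝ) : ℂ) * cexp (2 * π * b * z - π * z ^ 2 / A) := by
  have hδ : 0 < 1 - κ ^ 2 := by nlinarith
  have hpi := Real.pi_pos
  have hc : 0 < π * A * (1 - κ ^ 2) / 2 := by positivity
  -- decay on both sectors
  have key : ∀ (ε : ℝ), ε ^ 2 = 1 → ∀ t ∈ Icc (0:ℝ) 1, ∀ τ : ℝ, 0 ≤ τ →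
      ‖gf A b z (σ + ((1 - t : ℂ) * ((0:ℝ) + ε * I) + t * (κ + ε * I)) * τ)‖ ≤
      Real.exp (π * A * ‖(σ:ℂ) + b‖ ^ 2 + 2 * π * |σ| * ‖z‖
        + (4 * π * A * ‖(σ:ℂ) + b‖ + 4 * π * ‖z‖) ^ 2 / (2 * (π * A * (1 - κ ^ 2))))
        * Real.exp (-(π * A * (1 - κ ^ 2) / 2) * τ ^ 2) := by
    intro ε hε t ht τ hτ
    apply gf_decay hA b z σ hδ _ _ hτ
    · have e : ((1 - t : ℂ) * ((0:ℝ) + ε * I) + t * (κ + ε * I)) = ((t * κ : ℝ) : ℂ) + (ε : ℂ) * I := by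
        push_cast; ring
      rw [e]
      have : ((((t * κ : ℝ) : ℂ) + (ε:ℂ) * I) ^ 2).re = (t * κ) ^ 2 - ε ^ 2 := by
        rw [sq, Complex.mul_re]
        simp only [Complex.add_re, Complex.add_im, Complex.ofReal_re, Complex.ofReal_im,
          Complex.mul_re, Complex.mul_im, Complex.I_re, Complex.I_im]
        ring
      rw [this, hε]
      have h1 : (t * κ) ^ 2 ≤ κ ^ 2 := by
        have h0 : t * κ ≤ κ := by nlinarith [ht.2]
        have h00 : 0 ≤ t * κ := mul_nonneg ht.1 hκ0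
        nlinarith
      linarith
    · have e : ((1 - t : ℂ) * ((0:ℝ) + ε * I) + t * (κ + ε * I)) = ((t * κ : ℝ) : ℂ) + (ε : ℂ) * I := by
        push_cast; ring
      rw [e]
      refine (norm_add_le _ _).trans ?_
      rw [norm_mul, Complex.norm_I, Complex.norm_real, Complex.norm_real, Real.norm_eq_abs,
        Real.norm_eq_abs, mul_one]
      have h1 : |t * κ| ≤ 1 := by
        rw [abs_of_nonneg (mul_nonneg ht.1 hκ0)]
        nlinarith [ht.1, ht.2]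
      have h2 : |ε| ≤ 1 := by
        rw [← Real.sqrt_sq_eq_abs, hε, Real.sqrt_one]
      linarith
  have up := ray_rotate (gf_differentiable A b z) (σ:ℂ) ((0:ℝ) + (1:ℝ) * I) (κ + (1:ℝ) * I) hc
    (key 1 (by norm_num))
  have dn := ray_rotate (gf_differentiable A b z) (σ:ℂ) ((0:ℝ) + (-1:ℝ) * I) (κ + (-1:ℝ) * I) hc
    (key (-1) (by norm_num))
  have eu : ∀ x : ℝ, ((x:ℂ) + ((1:ℝ):ℂ) * I) = x + I := by intro x; push_cast; ring
  have ed : ∀ x : ℝ, ((x:ℂ) + ((-1:ℝ):ℂ) * I) = x - I := by intro x; push_cast; ring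
  simp only [eu] at up
  simp only [ed] at dn
  have s1 := split (f := gf A b z) σ κ up.2.1 dn.2.1
  have s0 := split (f := gf A b z) σ 0 up.1 dn.1
  refine ⟨s1.1, ?_⟩
  rw [s1.2, ← up.2.2, ← dn.2.2, ← s0.2, ← vertical hA b z σ]
  apply integral_congr_ae
  refine Filter.Eventually.of_forall fun τ => ?_
  simp only [ctr, dctr]
  push_cast
  rw [zero_mul, zero_mul, mul_zero, sub_zero, mul_one, add_zero, mul_comm (τ:ℂ) I]

end Crest.Agent.R300.Contour
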