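import Mathlib

-- ▼ part R300/Perceptron
section

/-!
# Row 300: the perceptron / Kaczmarz solver (mathematical part)

Real linear constraints `|⟨row, u⟩ - t| ≤ β` with rational rows; unknown `u ∈ [-M, M]^K`.
The solver projects on a violated constraint, clips and rounds to `D` bits, `T` times.
-/

set_option autoImplicit false

namespace Crest.Agent.R300

open Finset

/-- a constraint: (row, target, tolerance) -/
abbrev PCon := List ℚ × ℚ × ℚ

/-- scalar product of lists -/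
def dotQ (a b : List ℚ) : ℚ := (List.zipWith (fun x y => x * y) a b).sum

/-- residual of a constraint -/
def residQ (u : List ℚ) (c : PCon) : ℚ := dotQ c.1 u - c.2.1

/-- clip to `[-M, M]` -/
def clipQ (M : ℕ) (x : ℚ) : ℚ := max (-(M : ℚ)) (min (M : ℚ) x)

/-- round down to a multiple of `2 ^ (-D)` -/
def rndQ (D : ℕ) (x : ℚ) : ℚ := (⌊x * 2 ^ D⌋ : ℚ) / 2 ^ D

/-- projection on the hyperplane of a constraint, clipped and rounded -/
def updQ (D M : ℕ) (u : List ℚ) (c : PCon) : List ℚ :=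
  List.zipWith (fun x r => rndQ D (clipQ M (x - r * (residQ u c / dotQ c.1 c.1)))) u c.1



/-! ### elementary facts -/

theorem dotQ_eq {K : ℕ} {a b : List ℚ} (ha : a.length = K) (hb : b.length = K) :
    dotQ a b = ∑ k ∈ range K, a.getD k 0 * b.getD k 0 := by
  subst ha
  unfold dotQ
  induction a generalizing b with
  | nil => simp
  | cons x a ih =>
    cases b with
    | nil => simp at hb
    | cons y b =>
      simp only [List.length_cons, add_left_inj] at hb
      rw [List.zipWith_cons_cons, List.sum_cons, ih hb, List.length_cons, Finset.sum_range_succ']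
      simp [add_comm]

theorem clipQ_abs_le (M : ℕ) (x : ℚ) : |clipQ M x| ≤ M := by
  unfold clipQ
  have h0 : (0 : ℚ) ≤ M := Nat.cast_nonneg M
  rw [abs_le]
  exact ⟨le_max_left _ _, max_le (by linarith) (min_le_left _ _)⟩

theorem clipQ_dist {M : ℕ} {x : ℚ} {u : ℝ} (hu : |u| ≤ M) :
    ((clipQ M x : ℚ) - u : ℝ) ^ 2 ≤ ((x : ℝ) - u) ^ 2 := by
  rw [abs_le] at hu
  unfold clipQ
  push_cast
  rcases le_total (M : ℝ) (x : ℝ) with h | h
  · rw [min_eq_left h, max_eq_right (by linarith)]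
    apply pow_le_pow_left₀ <;> linarith
  · rw [min_eq_right h]
    rcases le_total (-(M : ℝ)) (x : ℝ) with h' | h'
    · rw [max_eq_right h']
    · rw [max_eq_left h']
      have : (u - -(M : ℝ)) ^ 2 ≤ (u - x) ^ 2 := by
        apply pow_le_pow_left₀ <;> linarith
      nlinarith

theorem rndQ_le (D : ℕ) (x : ℚ) : rndQ D x ≤ x := by
  unfold rndQ
  rw [div_le_iff₀ (by positivity)]
  exact Int.floor_le _

theorem lt_rndQ (D : ℕ) (x : ℚ) : x - 1 / 2 ^ D ≤ rndQ D x := by
  unfold rndQ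
  have h : (0 : ℚ) < 2 ^ D := by positivity
  rw [le_div_iff₀ h, sub_mul, one_div, inv_mul_cancel₀ h.ne']
  exact (Int.sub_one_lt_floor _).le

theorem rndQ_abs_le {D M : ℕ} {x : ℚ} (hx : |x| ≤ M) : |rndQ D x| ≤ M := by
  rw [abs_le] at *
  refine ⟨?_, (rndQ_le D x).trans hx.2⟩
  unfold rndQ
  have h : (0 : ℚ) < 2 ^ D := by positivity
  rw [le_div_iff₀ h]
  have : ((-(M : ℤ) * 2 ^ D : ℤ) : ℚ) ≤ (⌊x * 2 ^ D⌋ : ℤ) := by
    rw [Int.cast_le, Int.le_floor]
    push_cast
    exact mul_le_mul_of_nonneg_right hx.1 h.le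
  push_cast at this
  exact this

theorem rndQ_dist {D M : ℕ} {x : ℚ} {u : ℝ} (hx : |x| ≤ M) (hu : |u| ≤ M) :
    ((rndQ D x : ℚ) - u : ℝ) ^ 2 ≤ ((x : ℝ) - u) ^ 2 + (4 * M / 2 ^ D + (1 / 2 ^ D) ^ 2) := by
  rw [abs_le] at hx hu
  have h1 : ((rndQ D x : ℚ) : ℝ) ≤ x := by exact_mod_cast rndQ_le D x
  have h2 : (x : ℝ) - 1 / 2 ^ D ≤ ((rndQ D x : ℚ) : ℝ) := by
    have h := (Rat.cast_le (K := ℝ)).2 (lt_rndQ D x)
    push_cast at h
    exact h
  have hx1 : -(M : ℝ) ≤ x := by exact_mod_cast hx.1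
  have hx2 : (x : ℝ) ≤ M := by exact_mod_cast hx.2
  have hD : (0 : ℝ) < 1 / 2 ^ D := by positivity
  have e : 4 * (M : ℝ) / 2 ^ D = 4 * M * (1 / 2 ^ D) := by ring
  rw [e]
  set δ : ℝ := 1 / 2 ^ D
  set y : ℝ := ((rndQ D x : ℚ) : ℝ)
  set t : ℝ := x - y
  have ht0 : 0 ≤ t := by simp only [t]; linarith
  have ht1 : t ≤ δ := by simp only [t]; linarith
  have ey : y = x - t := by simp only [t]; ring
  rw [ey]
  have hM : (0 : ℝ) ≤ M := Nat.cast_nonneg M
  nlinarith [mul_le_mul_of_nonneg_left ht1 hM, mul_nonneg ht0 (sub_nonneg.2 ht1)]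

/-- the projection step decreases the distance to a solution -/
theorem proj_decrease {K : ℕ} (r v u : ℕ → ℝ) (t β N : ℝ) (hβ : 0 < β)
    (hN : ∑ k ∈ range K, r k ^ 2 ≤ N)
    (hu : |∑ k ∈ range K, r k * u k - t| ≤ β)
    (hv : 3 * β < |∑ k ∈ range K, r k * v k - t|) :
    ∑ k ∈ range K, (v k - r k * ((∑ k ∈ range K, r k * v k - t) / ∑ k ∈ range K, r k * r k)
      - u k) ^ 2 ≤ ∑ k ∈ range K, (v k - u k) ^ 2 - 3 * β ^ 2 / N := by
  set S := ∑ k ∈ range K, r k * v k - t with hS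
  set Su := ∑ k ∈ range K, r k * u k - t with hSu
  have e2 : ∑ k ∈ range K, r k * r k = ∑ k ∈ range K, r k ^ 2 :=
    Finset.sum_congr rfl fun k _ => by ring
  rw [e2]
  set R := ∑ k ∈ range K, r k ^ 2 with hR
  have hR0 : 0 ≤ R := Finset.sum_nonneg fun k _ => sq_nonneg _
  have hRpos : 0 < R := by
    rcases hR0.lt_or_eq with h | h
    · exact h
    · exfalso
      have hz : ∀ k ∈ range K, r k = 0 := by
        intro k hk
        have := (Finset.sum_eq_zero_iff_of_nonneg (fun k _ => sq_nonneg (r k))).1 (hR.symm.trans h.symm) k hk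
        exact pow_eq_zero_iff (two_ne_zero) |>.1 this
      have h1 : ∑ k ∈ range K, r k * v k = ∑ k ∈ range K, r k * u k :=
        Finset.sum_congr rfl fun k hk => by rw [hz k hk]; ring
      rw [hS, h1] at hv
      rw [hSu] at hu
      linarith
  have hNpos : 0 < N := hRpos.trans_le hN
  have hdiff : S - Su = ∑ k ∈ range K, r k * (v k - u k) := by
    simp only [hS, hSu, mul_sub, Finset.sum_sub_distrib]; ring
  have e1 : ∑ k ∈ range K, (v k - r k * (S / R) - u k) ^ 2
      = ∑ k ∈ range K, (v k - u k) ^ 2 - 2 * (S / R) * (S - Su) + (S / R) ^ 2 * R := by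
    rw [hdiff, hR, Finset.mul_sum, Finset.mul_sum, ← Finset.sum_sub_distrib,
      ← Finset.sum_add_distrib]
    exact Finset.sum_congr rfl fun k _ => by ring
  rw [e1]
  have e3 : 2 * (S / R) * (S - Su) - (S / R) ^ 2 * R = (S ^ 2 - 2 * S * Su) / R := by
    field_simp
    ring
  have h4 : 3 * β ^ 2 ≤ S ^ 2 - 2 * S * Su := by
    have a1 : S * Su ≤ |S| * |Su| := by rw [← abs_mul]; exact le_abs_self _
    have a2 : |S| * |Su| ≤ |S| * β := mul_le_mul_of_nonneg_left hu (abs_nonneg _)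
    have a3 : S ^ 2 = |S| ^ 2 := (sq_abs S).symm
    nlinarith
  have h5 : 3 * β ^ 2 / N ≤ (S ^ 2 - 2 * S * Su) / R := by
    calc 3 * β ^ 2 / N ≤ 3 * β ^ 2 / R := by
          apply div_le_div_of_nonneg_left (by positivity) hRpos hN
      _ ≤ _ := div_le_div_of_nonneg_right h4 hRpos.le
  linarith

/-- invariants of the state -/
structure PInv (D M K : ℕ) (v : List ℚ) : Prop where
  len : v.length = K
  bd : ∀ x ∈ v, |x| ≤ M
  grid : ∀ x ∈ v, ∃ z : ℤ, x = z / 2 ^ D

theorem PInv.zero (D M K : ℕ) : PInv D M K (List.replicate K 0) where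
  len := by simp
  bd := by
    intro x hx
    rw [List.eq_of_mem_replicate hx]
    simp
  grid := by
    intro x hx
    rw [List.eq_of_mem_replicate hx]
    exact ⟨0, by simp⟩

theorem updQ_getElem {D M : ℕ} {v : List ℚ} {c : PCon} {k : ℕ} (hk : k < (updQ D M v c).length)
    (hkv : k < v.length) (hkc : k < c.1.length) :
    (updQ D M v c)[k] = rndQ D (clipQ M (v[k] - c.1[k] * (residQ v c / dotQ c.1 c.1))) :=
  List.getElem_zipWith ..

theorem PInv.updQ {D M K : ℕ} {v : List ℚ} (hv : PInv D M K v) {c : PCon}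
    (hc : c.1.length = K) : PInv D M K (updQ D M v c) where
  len := by
    unfold R300.updQ
    rw [List.length_zipWith, hv.len, hc, min_self]
  bd := by
    intro x hx
    unfold R300.updQ at hx
    obtain ⟨i, hi, rfl⟩ := List.mem_iff_getElem.1 hx
    rw [List.getElem_zipWith]
    exact rndQ_abs_le (clipQ_abs_le _ _)
  grid := by
    intro x hx
    unfold R300.updQ at hx
    obtain ⟨i, hi, rfl⟩ := List.mem_iff_getElem.1 hx
    rw [List.getElem_zipWith]
    exact ⟨_, rfl⟩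



/-- squared distance to a real vector -/
noncomputable def distQ (K : ℕ) (v : List ℚ) (u : ℕ → ℝ) : ℝ :=
  ∑ k ∈ range K, ((v.getD k 0 : ℚ) - u k : ℝ) ^ 2



end Crest.Agent.R300
end

-- ▼ part R300/SdpSolve
section

/-!
# Row 300: perceptron with an additional one-sided cut oracle
-/

set_option autoImplicit false

namespace Crest.Agent.R300

open Finset

/-- one step: violated linear constraint, else cut of the oracle -/
def ostepQ (D M : ℕ) (cons : List PCon) (orc : List ℚ → Option (List ℚ)) (u : List ℚ) : List ℚ :=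
  match cons.find? (fun c => decide (3 * c.2.2 < |residQ u c|)) with
  | none => match orc u with
    | none => u
    | some P => updQ D M u (P, 0, 0)
  | some c => updQ D M u c

/-- solver with oracle -/
def osolveQ (T D M K : ℕ) (cons : List PCon) (orc : List ℚ → Option (List ℚ)) : List ℚ :=
  (ostepQ D M cons orc)^[T] (List.replicate K 0)

theorem PInv.ostepQ {D M K : ℕ} {v : List ℚ} (hv : PInv D M K v) {cons : List PCon}
    (hc : ∀ c ∈ cons, c.1.length = K) {orc : List ℚ → Option (List ℚ)}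
    (ho : ∀ v, PInv D M K v → ∀ P, orc v = some P → P.length = K) :
    PInv D M K (ostepQ D M cons orc v) := by
  unfold R300.ostepQ
  split
  · split
    · exact hv
    · rename_i P h
      exact hv.updQ (c := (P, 0, 0)) (ho v hv P h)
  · rename_i c h
    exact hv.updQ (hc c (List.mem_of_find?_eq_some h))

theorem PInv.oiterate {D M K : ℕ} {v : List ℚ} (hv : PInv D M K v) {cons : List PCon}
    (hc : ∀ c ∈ cons, c.1.length = K) {orc : List ℚ → Option (List ℚ)}
    (ho : ∀ v, PInv D M K v → ∀ P, orc v = some P → P.length = K) (T : ℕ) :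
    PInv D M K ((R300.ostepQ D M cons orc)^[T] v) := by
  induction T with
  | zero => exact hv
  | succ T ih =>
    rw [Function.iterate_succ_apply']
    exact ih.ostepQ hc ho

/-- effect of clipping and rounding -/
theorem updQ_dist {D M K : ℕ} {v : List ℚ} (hv : PInv D M K v) {c : PCon}
    (hc : c.1.length = K) {u : ℕ → ℝ} (hu : ∀ k < K, |u k| ≤ M) :
    distQ K (updQ D M v c) u ≤ ∑ k ∈ range K,
      (((v.getD k 0 : ℚ) : ℝ) - (c.1.getD k 0 : ℚ) * ((residQ v c : ℚ) / (dotQ c.1 c.1 : ℚ)) - u k) ^ 2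
        + K * (4 * M / 2 ^ D + (1 / 2 ^ D) ^ 2) := by
  have h1 : distQ K (updQ D M v c) u ≤ ∑ k ∈ range K,
      ((((v.getD k 0 : ℚ) : ℝ) - (c.1.getD k 0 : ℚ) * ((residQ v c : ℚ) / (dotQ c.1 c.1 : ℚ)) - u k) ^ 2
        + (4 * M / 2 ^ D + (1 / 2 ^ D) ^ 2)) := by
    unfold distQ
    refine Finset.sum_le_sum fun k hk => ?_
    have hk' : k < K := Finset.mem_range.1 hk
    have hkv : k < v.length := by rw [hv.len]; exact hk'
    have hkc : k < c.1.length := by rw [hc]; exact hk'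
    have hku : k < (updQ D M v c).length := by rw [(hv.updQ hc).len]; exact hk'
    have e : (updQ D M v c).getD k 0 = rndQ D (clipQ M (v.getD k 0 - c.1.getD k 0 * (residQ v c / dotQ c.1 c.1))) := by
      rw [List.getD_eq_getElem _ _ hku, List.getD_eq_getElem _ _ hkv, List.getD_eq_getElem _ _ hkc,
        updQ_getElem hku hkv hkc]
    rw [e]
    refine (rndQ_dist (clipQ_abs_le _ _) (hu k hk')).trans ?_
    refine add_le_add_left ?_ _ |>.trans_eq rfl
    refine (clipQ_dist (hu k hk')).trans_eq ?_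
    push_cast
    rfl
  rw [Finset.sum_add_distrib, Finset.sum_const, Finset.card_range, nsmul_eq_mul] at h1
  exact h1

/-- one-sided projection -/
theorem proj_decrease_one {K : ℕ} (r v u : ℕ → ℝ) {L : ℝ}
    (hu : 0 ≤ ∑ k ∈ range K, r k * u k) (hv : ∑ k ∈ range K, r k * v k < 0)
    (hL : ∑ k ∈ range K, r k ^ 2 ≤ L * (∑ k ∈ range K, r k * v k) ^ 2) (hL0 : 0 < L) :
    ∑ k ∈ range K, (v k - r k * ((∑ k ∈ range K, r k * v k) / ∑ k ∈ range K, r k * r k)
      - u k) ^ 2 ≤ ∑ k ∈ range K, (v k - u k) ^ 2 - 1 / L := by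
  set S := ∑ k ∈ range K, r k * v k with hS
  set Su := ∑ k ∈ range K, r k * u k with hSu
  have e2 : ∑ k ∈ range K, r k * r k = ∑ k ∈ range K, r k ^ 2 :=
    Finset.sum_congr rfl fun k _ => by ring
  rw [e2]
  set R := ∑ k ∈ range K, r k ^ 2 with hR
  have hR0 : 0 ≤ R := Finset.sum_nonneg fun k _ => sq_nonneg _
  have hRpos : 0 < R := by
    rcases hR0.lt_or_eq with h | h
    · exact h
    · exfalso
      have hz : ∀ k ∈ range K, r k = 0 := by
        intro k hk
        have := (Finset.sum_eq_zero_iff_of_nonneg (fun k _ => sq_nonneg (r k))).1 (hR.symm.trans h.symm) k hk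
        exact pow_eq_zero_iff (two_ne_zero) |>.1 this
      have h1 : S = 0 := by
        rw [hS]; exact Finset.sum_eq_zero fun k hk => by rw [hz k hk]; ring
      linarith
  have hdiff : S - Su = ∑ k ∈ range K, r k * (v k - u k) := by
    simp only [hS, hSu, mul_sub, Finset.sum_sub_distrib]
  have e1 : ∑ k ∈ range K, (v k - r k * (S / R) - u k) ^ 2
      = ∑ k ∈ range K, (v k - u k) ^ 2 - 2 * (S / R) * (S - Su) + (S / R) ^ 2 * R := by
    rw [hdiff, hR, Finset.mul_sum, Finset.mul_sum, ← Finset.sum_sub_distrib,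
      ← Finset.sum_add_distrib]
    exact Finset.sum_congr rfl fun k _ => by ring
  rw [e1]
  have e3 : 2 * (S / R) * (S - Su) - (S / R) ^ 2 * R = (S ^ 2 - 2 * S * Su) / R := by
    field_simp
    ring
  have h4 : S ^ 2 ≤ S ^ 2 - 2 * S * Su := by
    nlinarith [mul_nonneg hu (neg_nonneg.2 hv.le)]
  have h5 : 1 / L ≤ S ^ 2 / R := by
    rw [div_le_div_iff₀ hL0 hRpos]; linarith
  have h6 : S ^ 2 / R ≤ (S ^ 2 - 2 * S * Su) / R := div_le_div_of_nonneg_right h4 hRpos.le
  linarith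

/-- the properties required from the oracle (relative to the true solution `u`) -/
structure OrcOK (D M K : ℕ) (L : ℝ) (u : ℕ → ℝ) (v P : List ℚ) : Prop where
  len : P.length = K
  sol : 0 ≤ ∑ k ∈ range K, (P.getD k 0 : ℝ) * u k
  neg : ∑ k ∈ range K, (P.getD k 0 : ℝ) * (v.getD k 0 : ℝ) < 0
  big : ∑ k ∈ range K, (P.getD k 0 : ℝ) ^ 2 ≤ L * (∑ k ∈ range K, (P.getD k 0 : ℝ) * (v.getD k 0 : ℝ)) ^ 2

theorem updQ_decrease_one {D M K : ℕ} {v P : List ℚ} (hv : PInv D M K v) {u : ℕ → ℝ} {L : ℝ}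
    (hL : 0 < L) (hu : ∀ k < K, |u k| ≤ M) (ho : OrcOK D M K L u v P) :
    distQ K (updQ D M v (P, 0, 0)) u ≤ distQ K v u - 1 / L + K * (4 * M / 2 ^ D + (1 / 2 ^ D) ^ 2) := by
  have h1 := updQ_dist hv (c := (P, 0, 0)) ho.len hu
  have h2 := proj_decrease_one (K := K) (fun k => ((P.getD k 0 : ℚ) : ℝ))
    (fun k => ((v.getD k 0 : ℚ) : ℝ)) u ho.sol ho.neg ho.big hL
  have e3 : ((residQ v (P, 0, 0) : ℚ) : ℝ) / ((dotQ P P : ℚ) : ℝ)
      = (∑ k ∈ range K, ((P.getD k 0 : ℚ) : ℝ) * ((v.getD k 0 : ℚ) : ℝ))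
        / ∑ k ∈ range K, ((P.getD k 0 : ℚ) : ℝ) * ((P.getD k 0 : ℚ) : ℝ) := by
    unfold residQ
    rw [dotQ_eq ho.len hv.len, dotQ_eq ho.len ho.len]; push_cast; rw [sub_zero]
  rw [e3] at h1
  unfold distQ at *
  linarith

theorem updQ_decrease_two {D M K : ℕ} {v : List ℚ} (hv : PInv D M K v) {c : PCon}
    (hc : c.1.length = K) {u : ℕ → ℝ} {β N : ℝ} (hβ : 0 < β) (hβc : β ≤ c.2.2)
    (hu : ∀ k < K, |u k| ≤ M) (hN : ((dotQ c.1 c.1 : ℚ) : ℝ) ≤ N)
    (hsol : |∑ k ∈ range K, (c.1.getD k 0 : ℝ) * u k - c.2.1| ≤ c.2.2)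
    (hviol : 3 * c.2.2 < |residQ v c|) :
    distQ K (updQ D M v c) u ≤ distQ K v u - 3 * β ^ 2 / N
      + K * (4 * M / 2 ^ D + (1 / 2 ^ D) ^ 2) := by
  have hdot : dotQ c.1 c.1 = ∑ k ∈ range K, c.1.getD k 0 * c.1.getD k 0 := dotQ_eq hc hc
  have hres : residQ v c = ∑ k ∈ range K, c.1.getD k 0 * v.getD k 0 - c.2.1 := by
    unfold residQ; rw [dotQ_eq hc hv.len]
  have hcβ : (0 : ℝ) < c.2.2 := hβ.trans_le hβc
  have h1 := updQ_dist hv hc hu
  have h2 := proj_decrease (K := K) (fun k => ((c.1.getD k 0 : ℚ) : ℝ))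
    (fun k => ((v.getD k 0 : ℚ) : ℝ)) u c.2.1 c.2.2 N hcβ (by
      have : (∑ k ∈ range K, (((c.1.getD k 0 : ℚ) : ℝ)) ^ 2) = ((dotQ c.1 c.1 : ℚ) : ℝ) := by
        rw [hdot]; push_cast
        exact Finset.sum_congr rfl fun k _ => by ring
      rw [this]; exact hN) hsol (by
      have : ((residQ v c : ℚ) : ℝ) = ∑ k ∈ range K, ((c.1.getD k 0 : ℚ) : ℝ) * ((v.getD k 0 : ℚ) : ℝ) - c.2.1 := by
        rw [hres]; push_cast; rfl
      rw [← this]
      exact_mod_cast hviol)
  have e3 : ((residQ v c : ℚ) : ℝ) / ((dotQ c.1 c.1 : ℚ) : ℝ)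
      = (∑ k ∈ range K, ((c.1.getD k 0 : ℚ) : ℝ) * ((v.getD k 0 : ℚ) : ℝ) - c.2.1)
        / ∑ k ∈ range K, ((c.1.getD k 0 : ℚ) : ℝ) * ((c.1.getD k 0 : ℚ) : ℝ) := by
    rw [hres, hdot]; push_cast; rfl
  rw [e3] at h1
  have h6 : 3 * β ^ 2 / N ≤ 3 * (c.2.2 : ℝ) ^ 2 / N := by
    have hN0 : 0 ≤ N := le_trans (by
      rw [hdot]; push_cast
      exact Finset.sum_nonneg fun k _ => mul_self_nonneg _) hN
    apply div_le_div_of_nonneg_right _ hN0
    have : β ^ 2 ≤ (c.2.2 : ℝ) ^ 2 := pow_le_pow_left₀ hβ.le hβc 2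
    linarith
  unfold distQ at *
  linarith

/-- **correctness of the solver with oracle** -/
theorem osolveQ_spec {T D M K : ℕ} {cons : List PCon} {orc : List ℚ → Option (List ℚ)}
    (hlen : ∀ c ∈ cons, c.1.length = K)
    {u : ℕ → ℝ} {β N L γ : ℝ} (hβ : 0 < β) (hL : 0 < L)
    (hβc : ∀ c ∈ cons, β ≤ c.2.2) (hN : ∀ c ∈ cons, ((dotQ c.1 c.1 : ℚ) : ℝ) ≤ N)
    (hu : ∀ k < K, |u k| ≤ M)
    (hsol : ∀ c ∈ cons, |∑ k ∈ range K, (c.1.getD k 0 : ℝ) * u k - c.2.1| ≤ c.2.2)
    (ho' : ∀ v, PInv D M K v → ∀ P, orc v = some P → OrcOK D M K L u v P)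
    (hγ1 : γ + K * (4 * M / 2 ^ D + (1 / 2 ^ D) ^ 2) ≤ 3 * β ^ 2 / N)
    (hγ2 : γ + K * (4 * M / 2 ^ D + (1 / 2 ^ D) ^ 2) ≤ 1 / L)
    (hT : K * (M : ℝ) ^ 2 < T * γ) :
    PInv D M K (osolveQ T D M K cons orc) ∧
      (∀ c ∈ cons, |residQ (osolveQ T D M K cons orc) c| ≤ 3 * c.2.2) ∧
      orc (osolveQ T D M K cons orc) = none := by
  have ho : ∀ v, PInv D M K v → ∀ P, orc v = some P → P.length = K :=
    fun v hv P hP => (ho' v hv P hP).len
  refine ⟨(PInv.zero D M K).oiterate hlen ho T, ?_⟩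
  -- a fixed point is reached
  have key : ∀ i ≤ T, (∃ j ≤ i, ostepQ D M cons orc ((ostepQ D M cons orc)^[j] (List.replicate K 0))
        = (ostepQ D M cons orc)^[j] (List.replicate K 0)
        ∧ (∀ c ∈ cons, |residQ ((ostepQ D M cons orc)^[j] (List.replicate K 0)) c| ≤ 3 * c.2.2)
        ∧ orc ((ostepQ D M cons orc)^[j] (List.replicate K 0)) = none) ∨
      distQ K ((ostepQ D M cons orc)^[i] (List.replicate K 0)) u ≤ K * (M : ℝ) ^ 2 - i * γ := by
    intro i
    induction i with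
    | zero =>
      intro _
      right
      simp only [Function.iterate_zero, id_eq, CharP.cast_eq_zero, zero_mul, sub_zero]
      unfold distQ
      have : ∀ k ∈ range K, (((List.replicate K (0:ℚ)).getD k 0 : ℚ) - u k : ℝ) ^ 2 ≤ (M : ℝ) ^ 2 := by
        intro k hk
        have hk' := Finset.mem_range.1 hk
        have : (List.replicate K (0:ℚ)).getD k 0 = 0 := by simp
        rw [this]
        simp only [Rat.cast_zero, zero_sub, even_two, Even.neg_pow]
        rw [← sq_abs]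
        exact pow_le_pow_left₀ (abs_nonneg _) (hu k hk') 2
      refine (Finset.sum_le_sum this).trans ?_
      simp
    | succ i ih =>
      intro hi
      rcases ih (by omega) with ⟨j, hj, hfix⟩ | hi'
      · exact Or.inl ⟨j, by omega, hfix⟩
      · set v := (ostepQ D M cons orc)^[i] (List.replicate K 0) with hv
        have hinv : PInv D M K v := (PInv.zero D M K).oiterate hlen ho i
        rcases hfind : cons.find? (fun c => decide (3 * c.2.2 < |residQ v c|)) with _ | c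
        · have hall : ∀ c ∈ cons, |residQ v c| ≤ 3 * c.2.2 := by
            intro c hc
            rw [List.find?_eq_none] at hfind
            have := hfind c hc
            simp only [decide_eq_true_eq, not_lt] at this
            exact this
          rcases horc : orc v with _ | P
          · left
            refine ⟨i, by omega, ?_, hall, horc⟩
            rw [← hv]
            unfold ostepQ
            rw [hfind, horc]
          · right
            have hstep : ostepQ D M cons orc v = updQ D M v (P, 0, 0) := by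
              unfold ostepQ; rw [hfind, horc]
            rw [Function.iterate_succ_apply', ← hv, hstep]
            have := updQ_decrease_one hinv hL hu (ho' v hinv P horc)
            push_cast
            linarith
        · right
          have hmem := List.mem_of_find?_eq_some hfind
          have hvi : 3 * c.2.2 < |residQ v c| := by
            have := List.find?_some hfind
            simpa using this
          have hstep : ostepQ D M cons orc v = updQ D M v c := by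
            unfold ostepQ; rw [hfind]
          rw [Function.iterate_succ_apply', ← hv, hstep]
          have := updQ_decrease_two hinv (hlen c hmem) hβ (hβc c hmem) hu (hN c hmem) (hsol c hmem) hvi
          push_cast
          linarith
  have h2 : 0 ≤ distQ K ((ostepQ D M cons orc)^[T] (List.replicate K 0)) u :=
    Finset.sum_nonneg fun k _ => sq_nonneg _
  rcases key T le_rfl with ⟨j, hj, hfix, hall, hnone⟩ | h
  · have hit : ∀ s, (ostepQ D M cons orc)^[s] ((ostepQ D M cons orc)^[j] (List.replicate K 0))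
        = (ostepQ D M cons orc)^[j] (List.replicate K 0) := by
      intro s
      induction s with
      | zero => rfl
      | succ s ihs => rw [Function.iterate_succ_apply', ihs, hfix]
    have : osolveQ T D M K cons orc = (ostepQ D M cons orc)^[j] (List.replicate K 0) := by
      unfold osolveQ
      have e : T = (T - j) + j := by omega
      rw [e, Function.iterate_add_apply, hit]
    rw [this]
    exact ⟨hall, hnone⟩
  · exfalso
    linarith

end Crest.Agent.R300
end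

-- ▼ part R300/SdpCut
section

/-!
# Row 300: the separating functional of a non-PSD matrix

For a real symmetric matrix `Y` with eigenvalues `≤ c` and smallest eigenvalue `< -ε`, the matrix
`W = (c - Y) ^ m`, `m` even, is PSD and satisfies `tr (Y W) ≤ -(ε / (2 (d + 1))) * ‖W‖_F` as soon as
`d c ^ (m + 1) ≤ (ε / 2) (c + ε) ^ m`.
-/

set_option autoImplicit false

namespace Crest.Agent.R300

open Finset Matrix

/-- scalar inequality behind the cut -/
theorem cut_scalar {d : ℕ} (b : Fin d → ℝ) (hb : ∀ i, 0 ≤ b i) {c ε : ℝ} (hc : 0 ≤ c) (hε : 0 < ε)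
    (m : ℕ) (hex : ∃ i, c + ε < b i) (hm : d * c ^ (m + 1) ≤ ε / 2 * (c + ε) ^ m) :
    ∑ i, (c - b i) * b i ^ m ≤ -(ε / (2 * (d + 1))) * ∑ i, b i ^ m := by
  classical
  set I : Finset (Fin d) := univ.filter fun i => c + ε < b i with hI
  set Z : ℝ := ∑ i ∈ I, b i ^ m with hZ
  have hcε : 0 < c + ε := by linarith
  obtain ⟨i₀, hi₀⟩ := hex
  have hi₀I : i₀ ∈ I := by simp [hI, hi₀]
  have hZ1 : (c + ε) ^ m ≤ Z := by
    calc (c + ε) ^ m ≤ b i₀ ^ m := pow_le_pow_left₀ hcε.le hi₀.le m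
      _ ≤ Z := Finset.single_le_sum (f := fun i => b i ^ m) (fun i _ => pow_nonneg (hb i) m) hi₀I
  have hZ0 : 0 < Z := (pow_pos hcε m).trans_le hZ1
  -- the sum of all powers
  have hS : ∑ i, b i ^ m ≤ (d + 1) * Z := by
    have h1 : ∑ i, b i ^ m = Z + ∑ i ∈ univ.filter (fun i => ¬ (c + ε < b i)), b i ^ m :=
      (Finset.sum_filter_add_sum_filter_not _ _ _).symm
    have h2 : ∑ i ∈ univ.filter (fun i => ¬ (c + ε < b i)), b i ^ m ≤ d * (c + ε) ^ m := by
      calc ∑ i ∈ univ.filter (fun i => ¬ (c + ε < b i)), b i ^ m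
          ≤ ∑ i ∈ univ.filter (fun i => ¬ (c + ε < b i)), (c + ε) ^ m := by
            refine Finset.sum_le_sum fun i hi => ?_
            rw [Finset.mem_filter] at hi
            exact pow_le_pow_left₀ (hb i) (not_lt.1 hi.2) m
        _ = ((univ.filter (fun i => ¬ (c + ε < b i))).card : ℝ) * (c + ε) ^ m := by
            rw [Finset.sum_const, nsmul_eq_mul]
        _ ≤ d * (c + ε) ^ m := by
            refine mul_le_mul_of_nonneg_right ?_ (pow_pos hcε m).le
            have : (univ.filter (fun i => ¬ (c + ε < b i))).card ≤ Fintype.card (Fin d) :=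
              Finset.card_le_univ _
            rw [Fintype.card_fin] at this
            exact_mod_cast this
    have h3 : (d : ℝ) * (c + ε) ^ m ≤ d * Z := mul_le_mul_of_nonneg_left hZ1 (Nat.cast_nonneg d)
    rw [h1]; linarith
  have hT : ∑ i, (c - b i) * b i ^ m ≤ -ε * Z + d * c ^ (m + 1) := by
    have h1 : ∑ i, (c - b i) * b i ^ m = ∑ i ∈ I, (c - b i) * b i ^ m
        + ∑ i ∈ univ.filter (fun i => ¬ (c + ε < b i)), (c - b i) * b i ^ m :=
      (Finset.sum_filter_add_sum_filter_not _ _ _).symm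
    have h2 : ∑ i ∈ I, (c - b i) * b i ^ m ≤ -ε * Z := by
      rw [hZ, Finset.mul_sum]
      refine Finset.sum_le_sum fun i hi => ?_
      rw [hI, Finset.mem_filter] at hi
      exact mul_le_mul_of_nonneg_right (by linarith [hi.2]) (pow_nonneg (hb i) m)
    have h3 : ∑ i ∈ univ.filter (fun i => ¬ (c + ε < b i)), (c - b i) * b i ^ m
        ≤ d * c ^ (m + 1) := by
      calc ∑ i ∈ univ.filter (fun i => ¬ (c + ε < b i)), (c - b i) * b i ^ m
          ≤ ∑ i ∈ univ.filter (fun i => ¬ (c + ε < b i)), c ^ (m + 1) := by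
            refine Finset.sum_le_sum fun i _ => ?_
            rcases le_total (b i) c with h | h
            · calc (c - b i) * b i ^ m ≤ c * c ^ m :=
                    mul_le_mul (by linarith [hb i]) (pow_le_pow_left₀ (hb i) h m)
                      (pow_nonneg (hb i) m) hc
                _ = c ^ (m + 1) := by ring
            · have : (c - b i) * b i ^ m ≤ 0 :=
                mul_nonpos_of_nonpos_of_nonneg (by linarith) (pow_nonneg (hb i) m)
              have h' : 0 ≤ c ^ (m + 1) := by positivity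
              linarith
        _ = ((univ.filter (fun i => ¬ (c + ε < b i))).card : ℝ) * c ^ (m + 1) := by
            rw [Finset.sum_const, nsmul_eq_mul]
        _ ≤ d * c ^ (m + 1) := by
            refine mul_le_mul_of_nonneg_right ?_ (by positivity)
            have : (univ.filter (fun i => ¬ (c + ε < b i))).card ≤ Fintype.card (Fin d) :=
              Finset.card_le_univ _
            rw [Fintype.card_fin] at this
            exact_mod_cast this
    rw [h1]; linarith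
  have h5 : d * c ^ (m + 1) ≤ ε / 2 * Z := hm.trans (mul_le_mul_of_nonneg_left hZ1 (by positivity))
  have h6 : ε / (2 * (d + 1)) * ∑ i, b i ^ m ≤ ε / 2 * Z := by
    have hd : (0 : ℝ) < d + 1 := by positivity
    calc ε / (2 * (d + 1)) * ∑ i, b i ^ m ≤ ε / (2 * (d + 1)) * ((d + 1) * Z) :=
          mul_le_mul_of_nonneg_left hS (by positivity)
      _ = ε / 2 * Z := by field_simp
  linarith

/-- real orthogonal diagonalisation, packaged -/
theorem exists_diag {d : ℕ} {Y : Matrix (Fin d) (Fin d) ℝ} (hY : Yᵀ = Y) :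
    ∃ (U : Matrix (Fin d) (Fin d) ℝ) (l : Fin d → ℝ), Uᵀ * U = 1 ∧ U * Uᵀ = 1 ∧
      Y = U * diagonal l * Uᵀ := by
  have hH : Y.IsHermitian := by
    rw [Matrix.IsHermitian, Matrix.conjTranspose_eq_transpose_of_trivial, hY]
  refine ⟨(hH.eigenvectorUnitary : Matrix (Fin d) (Fin d) ℝ), hH.eigenvalues, ?_, ?_, ?_⟩
  · have := (Matrix.mem_unitaryGroup_iff'.1 hH.eigenvectorUnitary.2)
    rwa [Matrix.star_eq_conjTranspose, Matrix.conjTranspose_eq_transpose_of_trivial] at this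
  · have := (Matrix.mem_unitaryGroup_iff.1 hH.eigenvectorUnitary.2)
    rwa [Matrix.star_eq_conjTranspose, Matrix.conjTranspose_eq_transpose_of_trivial] at this
  · have := hH.spectral_theorem
    rw [Unitary.conjStarAlgAut_apply] at this
    rw [← Matrix.conjTranspose_eq_transpose_of_trivial, ← Matrix.star_eq_conjTranspose]
    exact this

/-- the functional calculus of `c - Y` -/
theorem pow_diag {d : ℕ} {Y U : Matrix (Fin d) (Fin d) ℝ} {l : Fin d → ℝ} (h1 : Uᵀ * U = 1)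
    (h2 : U * Uᵀ = 1) (hY : Y = U * diagonal l * Uᵀ) (c : ℝ) (m : ℕ) :
    (c • (1 : Matrix (Fin d) (Fin d) ℝ) - Y) ^ m = U * diagonal (fun i => (c - l i) ^ m) * Uᵀ := by
  have hB : c • (1 : Matrix (Fin d) (Fin d) ℝ) - Y = U * diagonal (fun i => c - l i) * Uᵀ := by
    have : diagonal (fun i => c - l i) = c • (1 : Matrix (Fin d) (Fin d) ℝ) - diagonal l := by
      ext i j
      by_cases h : i = j
      · subst h; simp
      · simp [h]
    rw [this, Matrix.mul_sub, Matrix.sub_mul, hY, Matrix.mul_smul, Matrix.smul_mul, Matrix.mul_one, h2]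
  induction m with
  | zero => simp [h2]
  | succ m ih =>
    rw [pow_succ, ih, hB]
    calc U * diagonal (fun i => (c - l i) ^ m) * Uᵀ * (U * diagonal (fun i => c - l i) * Uᵀ)
        = U * diagonal (fun i => (c - l i) ^ m) * (Uᵀ * U) * diagonal (fun i => c - l i) * Uᵀ := by
          simp only [Matrix.mul_assoc]
      _ = U * (diagonal (fun i => (c - l i) ^ m) * diagonal (fun i => c - l i)) * Uᵀ := by
          rw [h1, Matrix.mul_one, Matrix.mul_assoc U]
      _ = _ := by rw [Matrix.diagonal_mul_diagonal]; simp only [pow_succ]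

theorem trace_conj {d : ℕ} {U : Matrix (Fin d) (Fin d) ℝ} (h1 : Uᵀ * U = 1) (f : Fin d → ℝ) :
    trace (U * diagonal f * Uᵀ) = ∑ i, f i := by
  rw [Matrix.trace_mul_comm, ← Matrix.mul_assoc, h1, Matrix.one_mul, Matrix.trace_diagonal]

/-- quadratic forms in the eigenbasis -/
theorem quad_conj {d : ℕ} {U : Matrix (Fin d) (Fin d) ℝ} (f : Fin d → ℝ) (w : Fin d → ℝ) :
    w ⬝ᵥ ((U * diagonal f * Uᵀ) *ᵥ w) = ∑ i, f i * (Uᵀ *ᵥ w) i ^ 2 := by
  rw [← Matrix.mulVec_mulVec, ← Matrix.mulVec_mulVec, Matrix.dotProduct_mulVec,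
    ← Matrix.mulVec_transpose, dotProduct]
  refine Finset.sum_congr rfl fun i _ => ?_
  rw [Matrix.mulVec_diagonal]
  ring

theorem norm_conj {d : ℕ} {U : Matrix (Fin d) (Fin d) ℝ} (h2 : U * Uᵀ = 1) (w : Fin d → ℝ) :
    w ⬝ᵥ w = ∑ i, (Uᵀ *ᵥ w) i ^ 2 := by
  have h := quad_conj (U := U) (fun _ => (1 : ℝ)) w
  have e : diagonal (fun _ : Fin d => (1 : ℝ)) = 1 := Matrix.diagonal_one
  rw [e, Matrix.mul_one, h2, Matrix.one_mulVec] at h
  rw [h]
  exact Finset.sum_congr rfl fun i _ => one_mul _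

/-- **the cut**: separating functional of a symmetric matrix with an eigenvalue `< -ε` -/
theorem psd_cut {d : ℕ} {Y : Matrix (Fin d) (Fin d) ℝ} (hY : Yᵀ = Y) {c ε : ℝ} (hc : 0 ≤ c)
    (hε : 0 < ε) (hle : ∀ w : Fin d → ℝ, w ⬝ᵥ (Y *ᵥ w) ≤ c * (w ⬝ᵥ w)) (m : ℕ)
    (hm : d * c ^ (m + 1) ≤ ε / 2 * (c + ε) ^ m)
    (hneg : ∃ w : Fin d → ℝ, w ⬝ᵥ (Y *ᵥ w) < -ε * (w ⬝ᵥ w)) :
    trace (Y * (c • (1 : Matrix (Fin d) (Fin d) ℝ) - Y) ^ m)
        ≤ -(ε / (2 * (d + 1))) * trace ((c • (1 : Matrix (Fin d) (Fin d) ℝ) - Y) ^ m) ∧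
      0 < trace ((c • (1 : Matrix (Fin d) (Fin d) ℝ) - Y) ^ m) ∧
      ∑ i, ∑ j, ((c • (1 : Matrix (Fin d) (Fin d) ℝ) - Y) ^ m) i j ^ 2
        ≤ trace ((c • (1 : Matrix (Fin d) (Fin d) ℝ) - Y) ^ m) ^ 2 := by
  obtain ⟨U, l, h1, h2, hd⟩ := exists_diag hY
  have hl : ∀ i, l i ≤ c := by
    intro i
    have h := hle (U *ᵥ Pi.single i 1)
    have e1 : Uᵀ *ᵥ (U *ᵥ Pi.single i (1 : ℝ)) = Pi.single i 1 := by
      rw [Matrix.mulVec_mulVec, h1, Matrix.one_mulVec]
    rw [norm_conj h2, e1] at h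
    rw [hd, quad_conj, e1] at h
    simpa [Pi.single_apply] using h
  have hb : ∀ i, 0 ≤ c - l i := fun i => sub_nonneg.2 (hl i)
  have hex : ∃ i, c + ε < c - l i := by
    by_contra hcon
    push Not at hcon
    obtain ⟨w, hw⟩ := hneg
    rw [norm_conj h2, hd, quad_conj, Finset.mul_sum] at hw
    have : ∑ i, -ε * (Uᵀ *ᵥ w) i ^ 2 ≤ ∑ i, l i * (Uᵀ *ᵥ w) i ^ 2 :=
      Finset.sum_le_sum fun i _ =>
        mul_le_mul_of_nonneg_right (by linarith [hcon i]) (sq_nonneg _)
    linarith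
  have hpow := fun k => pow_diag h1 h2 hd c k
  have hmul : Y * (c • (1 : Matrix (Fin d) (Fin d) ℝ) - Y) ^ m
      = U * diagonal (fun i => l i * (c - l i) ^ m) * Uᵀ := by
    rw [hpow m]
    calc Y * (U * diagonal (fun i => (c - l i) ^ m) * Uᵀ)
        = U * diagonal l * (Uᵀ * U) * diagonal (fun i => (c - l i) ^ m) * Uᵀ := by
          conv_lhs => rw [hd]
          simp only [Matrix.mul_assoc]
      _ = U * (diagonal l * diagonal (fun i => (c - l i) ^ m)) * Uᵀ := by
          rw [h1, Matrix.mul_one, Matrix.mul_assoc U]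
      _ = _ := by rw [Matrix.diagonal_mul_diagonal]
  have hscal := cut_scalar (fun i => c - l i) hb hc hε m hex hm
  have ht : trace ((c • (1 : Matrix (Fin d) (Fin d) ℝ) - Y) ^ m) = ∑ i, (c - l i) ^ m := by
    rw [hpow m, trace_conj h1]
  refine ⟨?_, ?_, ?_⟩
  · rw [hmul, trace_conj h1, ht]
    refine le_trans (le_of_eq ?_) hscal
    exact Finset.sum_congr rfl fun i _ => by ring
  · rw [ht]
    obtain ⟨i, hi⟩ := hex
    have hpos : 0 < (c - l i) ^ m := pow_pos (by linarith) m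
    exact hpos.trans_le (Finset.single_le_sum (f := fun i => (c - l i) ^ m)
      (fun i _ => pow_nonneg (hb i) m) (Finset.mem_univ i))
  · have hsymm : ((c • (1 : Matrix (Fin d) (Fin d) ℝ) - Y) ^ m)ᵀ
        = (c • (1 : Matrix (Fin d) (Fin d) ℝ) - Y) ^ m := by
      rw [Matrix.transpose_pow, Matrix.transpose_sub, Matrix.transpose_smul,
        Matrix.transpose_one, hY]
    have hF : ∑ i, ∑ j, ((c • (1 : Matrix (Fin d) (Fin d) ℝ) - Y) ^ m) i j ^ 2
        = trace ((c • (1 : Matrix (Fin d) (Fin d) ℝ) - Y) ^ (m + m)) := by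
      rw [pow_add]
      simp only [Matrix.trace, Matrix.diag_apply, Matrix.mul_apply]
      refine Finset.sum_congr rfl fun i _ => Finset.sum_congr rfl fun j _ => ?_
      have : ((c • (1 : Matrix (Fin d) (Fin d) ℝ) - Y) ^ m) j i
          = ((c • (1 : Matrix (Fin d) (Fin d) ℝ) - Y) ^ m) i j := by
        conv_lhs => rw [← hsymm]
        rfl
      rw [this]; ring
    rw [hF, hpow (m + m), trace_conj h1, ht]
    calc ∑ i, (c - l i) ^ (m + m) = ∑ i, ((c - l i) ^ m) ^ 2 :=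
          Finset.sum_congr rfl fun i _ => by ring
      _ ≤ (∑ i, (c - l i) ^ m) ^ 2 :=
          Finset.sum_sq_le_sq_sum_of_nonneg fun i _ => pow_nonneg (hb i) m

/-- even powers are positive functionals on PSD matrices -/
theorem trace_mul_even_pow_nonneg {d : ℕ} {Y B : Matrix (Fin d) (Fin d) ℝ}
    (hB : Bᵀ = B) (hY : ∀ w : Fin d → ℝ, 0 ≤ w ⬝ᵥ (Y *ᵥ w)) (k : ℕ) :
    0 ≤ trace (Y * B ^ (2 * k)) := by
  have hV : (B ^ k)ᵀ = B ^ k := by rw [Matrix.transpose_pow, hB]
  set V := B ^ k with hVdef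
  have e : trace (Y * B ^ (2 * k)) = ∑ i, V i ⬝ᵥ (Y *ᵥ V i) := by
    rw [two_mul, pow_add, ← hVdef, ← Matrix.mul_assoc, Matrix.trace_mul_comm, ← Matrix.mul_assoc]
    simp only [Matrix.trace, Matrix.diag_apply]
    refine Finset.sum_congr rfl fun i _ => ?_
    rw [Matrix.mul_apply, Matrix.dotProduct_mulVec, dotProduct]
    refine Finset.sum_congr rfl fun j _ => ?_
    have h1 : (V * Y) i j = (V i ᵥ* Y) j := by
      rw [Matrix.mul_apply, Matrix.vecMul, dotProduct]
    have h2 : V j i = V i j := by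
      conv_lhs => rw [← hV]
      rfl
    rw [h1, h2]
  rw [e]
  exact Finset.sum_nonneg fun i _ => hY _

end Crest.Agent.R300
end

-- ▼ part R300/Sdp

/-!
# Row 300: feasibility solver with a PSD block (integer arithmetic for the cut)
-/

set_option autoImplicit false

namespace Crest.Agent.R300

open Finset Matrix

/-! ### programs -/

/-- entry of the index table -/
def idxf (idx : List (List ℕ)) (i j : ℕ) : ℕ := (idx.getD i []).getD j 0

/-- entry of an integer matrix given by rows -/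
def entZ (A : List (List ℤ)) (i j : ℕ) : ℤ := (A.getD i []).getD j 0

/-- tabulated integer matrix -/
def tabZ (d : ℕ) (f : ℕ → ℕ → ℤ) : List (List ℤ) :=
  (List.range d).map fun i => (List.range d).map fun j => f i j

/-- `2 ^ D * (d - Y(u))` -/
def matB (D : ℕ) (idx : List (List ℕ)) (u : List ℚ) : List (List ℤ) :=
  tabZ idx.length fun i j => (if i = j then (idx.length : ℤ) * 2 ^ D else 0)
    - ⌊u.getD (idxf idx i j) 0 * 2 ^ D⌋

/-- multiplication on the right by `N` -/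
def mulZ (d : ℕ) (N A : List (List ℤ)) : List (List ℤ) :=
  tabZ d fun i j => ∑ l ∈ range d, entZ A i l * entZ N l j

/-- `m`-th power of `matB` -/
def matW (D m : ℕ) (idx : List (List ℕ)) (u : List ℚ) : List (List ℤ) :=
  (mulZ idx.length (matB D idx u))^[m] (tabZ idx.length fun i j => if i = j then 1 else 0)

/-- functional `u ↦ ∑ W i j * u (idx i j)` as a row -/
def rowP (W : List (List ℤ)) (K : ℕ) (idx : List (List ℕ)) : List ℤ :=
  (List.range K).map fun k => ∑ i ∈ range idx.length, ∑ j ∈ range idx.length,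
    if idxf idx i j = k then entZ W i j else 0

/-- value of the functional at the state (times `2 ^ D`) -/
def valS (D K : ℕ) (P : List ℤ) (u : List ℚ) : ℤ :=
  ∑ k ∈ range K, P.getD k 0 * ⌊u.getD k 0 * 2 ^ D⌋

/-- squared norm of the functional -/
def nrmP (K : ℕ) (P : List ℤ) : ℤ := ∑ k ∈ range K, P.getD k 0 * P.getD k 0

/-- the oracle -/
def psdOrc (D m K L : ℕ) (idx : List (List ℕ)) (u : List ℚ) : Option (List ℚ) :=
  if valS D K (rowP (matW D m idx u) K idx) u < 0 ∧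
      4 ^ D * nrmP K (rowP (matW D m idx u) K idx)
        ≤ L * (valS D K (rowP (matW D m idx u) K idx) u * valS D K (rowP (matW D m idx u) K idx) u) then
    some ((rowP (matW D m idx u) K idx).map (fun z : ℤ => (z : ℚ)))
  else none

/-- the solver -/
def sdpRun (G K : ℕ) (idx : List (List ℕ)) (cons : List PCon) : List ℚ :=
  osolveQ (8 * G ^ 5 * (G + 1) ^ 2 + 1) (10 * G + 10) 1 K cons
    (psdOrc (10 * G + 10) (2 * (G * G * (3 * G + 1))) K ((2 * G * G * (G + 1)) ^ 2) idx)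

/-! ### entries -/

theorem getD_map_range {α : Type*} (f : ℕ → α) (d i : ℕ) (a : α) (hi : i < d) :
    ((List.range d).map f).getD i a = f i := by
  rw [List.getD_eq_getElem _ _ (by simpa using hi)]
  simp

theorem entZ_tab {d : ℕ} (f : ℕ → ℕ → ℤ) {i j : ℕ} (hi : i < d) (hj : j < d) :
    entZ (tabZ d f) i j = f i j := by
  unfold entZ tabZ
  rw [getD_map_range _ _ _ _ hi, getD_map_range _ _ _ _ hj]

/-- the real matrix of a state -/
noncomputable def matY (idx : List (List ℕ)) (u : ℕ → ℝ) : Matrix (Fin idx.length) (Fin idx.length) ℝ :=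
  fun i j => u (idxf idx i j)

theorem matY_apply (idx : List (List ℕ)) (u : ℕ → ℝ) (i j : Fin idx.length) :
    matY idx u i j = u (idxf idx i j) := rfl

/-- the real function of a state -/
noncomputable def stf (v : List ℚ) : ℕ → ℝ := fun k => ((v.getD k 0 : ℚ) : ℝ)

theorem floor_grid {D M K : ℕ} {v : List ℚ} (hv : PInv D M K v) (k : ℕ) :
    ((⌊v.getD k 0 * 2 ^ D⌋ : ℤ) : ℝ) = 2 ^ D * stf v k := by
  have h : ∃ z : ℤ, v.getD k 0 = z / 2 ^ D := by
    rcases lt_or_ge k v.length with h | h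
    · rw [List.getD_eq_getElem _ _ h]
      exact hv.grid _ (List.getElem_mem h)
    · rw [List.getD_eq_default _ _ h]
      exact ⟨0, by simp⟩
  obtain ⟨z, hz⟩ := h
  unfold stf
  have h2 : (2 : ℚ) ^ D ≠ 0 := by positivity
  have h3 : (2 : ℝ) ^ D ≠ 0 := by positivity
  rw [hz, div_mul_cancel₀ _ h2, Int.floor_intCast]
  push_cast
  field_simp

theorem matB_entry {D M K : ℕ} {v : List ℚ} (hv : PInv D M K v) (idx : List (List ℕ))
    (i j : Fin idx.length) :
    ((entZ (matB D idx v) i j : ℤ) : ℝ)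
      = (2 ^ D : ℝ) * (((idx.length : ℝ) • (1 : Matrix (Fin idx.length) (Fin idx.length) ℝ)
          - matY idx (stf v)) i j) := by
  unfold matB
  rw [entZ_tab _ i.2 j.2]
  push_cast
  rw [floor_grid hv, Matrix.sub_apply, Matrix.smul_apply, smul_eq_mul, mul_sub]
  congr 1
  by_cases h : i = j
  · subst h
    simp
    ring
  · have h' : (i : ℕ) ≠ j := fun e => h (Fin.ext e)
    simp [h, h']

theorem matW_entry {D M K : ℕ} {v : List ℚ} (hv : PInv D M K v) (idx : List (List ℕ)) (m : ℕ)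
    (i j : Fin idx.length) :
    ((entZ (matW D m idx v) i j : ℤ) : ℝ)
      = (2 ^ D : ℝ) ^ m * ((((idx.length : ℝ) • (1 : Matrix (Fin idx.length) (Fin idx.length) ℝ)
          - matY idx (stf v)) ^ m) i j) := by
  induction m generalizing i j with
  | zero =>
    unfold matW
    rw [Function.iterate_zero, id_eq, entZ_tab _ i.2 j.2]
    by_cases h : i = j
    · subst h; simp
    · have h' : (i : ℕ) ≠ j := fun e => h (Fin.ext e)
      simp [h, h']
  | succ m ih =>
    have e : matW D (m + 1) idx v = mulZ idx.length (matB D idx v) (matW D m idx v) := by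
      unfold matW
      rw [Function.iterate_succ_apply']
    rw [e]
    unfold mulZ
    rw [entZ_tab _ i.2 j.2, pow_succ, pow_succ, Matrix.mul_apply, Finset.mul_sum]
    push_cast
    rw [← Fin.sum_univ_eq_sum_range
      (fun l => ((entZ (matW D m idx v) i l : ℤ) : ℝ) * ((entZ (matB D idx v) l j : ℤ) : ℝ))]
    refine Finset.sum_congr rfl fun l _ => ?_
    rw [ih i l, matB_entry hv idx l j]
    ring

/-- a double sum over the table -/
theorem sum_rowP {K : ℕ} {idx : List (List ℕ)}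
    (hidx : ∀ i < idx.length, ∀ j < idx.length, idxf idx i j < K) (W : List (List ℤ))
    (g : ℕ → ℝ) :
    ∑ k ∈ range K, (((rowP W K idx).getD k 0 : ℤ) : ℝ) * g k
      = ∑ i ∈ range idx.length, ∑ j ∈ range idx.length, ((entZ W i j : ℤ) : ℝ) * g (idxf idx i j) := by
  have h1 : ∀ k ∈ range K, (((rowP W K idx).getD k 0 : ℤ) : ℝ) * g k
      = ∑ i ∈ range idx.length, ∑ j ∈ range idx.length,
        if idxf idx i j = k then ((entZ W i j : ℤ) : ℝ) * g k else 0 := by
    intro k hk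
    unfold rowP
    rw [getD_map_range _ _ _ _ (Finset.mem_range.1 hk)]
    push_cast
    rw [Finset.sum_mul]
    refine Finset.sum_congr rfl fun i _ => ?_
    rw [Finset.sum_mul]
    refine Finset.sum_congr rfl fun j _ => ?_
    split_ifs <;> simp
  rw [Finset.sum_congr rfl h1, Finset.sum_comm]
  refine Finset.sum_congr rfl fun i hi => ?_
  rw [Finset.sum_comm]
  refine Finset.sum_congr rfl fun j hj => ?_
  rw [Finset.sum_ite_eq]
  rw [if_pos (Finset.mem_range.2 (hidx i (Finset.mem_range.1 hi) j (Finset.mem_range.1 hj)))]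

/-! ### real versions -/

/-- the real power matrix -/
noncomputable def powY (idx : List (List ℕ)) (m : ℕ) (u : ℕ → ℝ) :
    Matrix (Fin idx.length) (Fin idx.length) ℝ :=
  ((idx.length : ℝ) • (1 : Matrix (Fin idx.length) (Fin idx.length) ℝ) - matY idx u) ^ m

theorem matY_symm {K : ℕ} {idx : List (List ℕ)}
    (hidx : ∀ i < idx.length, ∀ j < idx.length, idxf idx i j < K ∧ idxf idx i j = idxf idx j i)
    (u : ℕ → ℝ) : (matY idx u)ᵀ = matY idx u := by
  ext i j
  rw [Matrix.transpose_apply, matY_apply, matY_apply, (hidx j j.2 i i.2).2]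

theorem base_symm {K : ℕ} {idx : List (List ℕ)}
    (hidx : ∀ i < idx.length, ∀ j < idx.length, idxf idx i j < K ∧ idxf idx i j = idxf idx j i)
    (u : ℕ → ℝ) :
    ((idx.length : ℝ) • (1 : Matrix (Fin idx.length) (Fin idx.length) ℝ) - matY idx u)ᵀ
      = (idx.length : ℝ) • (1 : Matrix (Fin idx.length) (Fin idx.length) ℝ) - matY idx u := by
  rw [Matrix.transpose_sub, Matrix.transpose_smul, Matrix.transpose_one, matY_symm hidx]

theorem powY_symm {K : ℕ} {idx : List (List ℕ)}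
    (hidx : ∀ i < idx.length, ∀ j < idx.length, idxf idx i j < K ∧ idxf idx i j = idxf idx j i)
    (m : ℕ) (u : ℕ → ℝ) (i j : Fin idx.length) : powY idx m u i j = powY idx m u j i := by
  have h : (powY idx m u)ᵀ = powY idx m u := by
    unfold powY
    rw [Matrix.transpose_pow, base_symm hidx]
  conv_lhs => rw [← h]
  rfl

/-- the functional of the row is a trace -/
theorem sum_rowP_eq_trace {D M K : ℕ} {v : List ℚ} (hv : PInv D M K v) {idx : List (List ℕ)}
    (hidx : ∀ i < idx.length, ∀ j < idx.length, idxf idx i j < K ∧ idxf idx i j = idxf idx j i)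
    (m : ℕ) (g : ℕ → ℝ) :
    ∑ k ∈ range K, (((rowP (matW D m idx v) K idx).getD k 0 : ℤ) : ℝ) * g k
      = (2 ^ D : ℝ) ^ m * trace (matY idx g * powY idx m (stf v)) := by
  rw [sum_rowP (fun i hi j hj => (hidx i hi j hj).1)]
  rw [← Fin.sum_univ_eq_sum_range (fun i => ∑ j ∈ range idx.length,
    ((entZ (matW D m idx v) i j : ℤ) : ℝ) * g (idxf idx i j))]
  unfold Matrix.trace
  rw [Finset.mul_sum]
  refine Finset.sum_congr rfl fun i _ => ?_
  rw [← Fin.sum_univ_eq_sum_range (fun j => ((entZ (matW D m idx v) i j : ℤ) : ℝ) * g (idxf idx i j)),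
    Matrix.diag_apply, Matrix.mul_apply, Finset.mul_sum]
  refine Finset.sum_congr rfl fun j _ => ?_
  rw [matW_entry hv idx m i j]
  have := powY_symm hidx m (stf v) i j
  change (2 ^ D : ℝ) ^ m * powY idx m (stf v) i j * g (idxf idx i j) = _
  rw [this, matY_apply]
  ring

/-- norm of the row -/
theorem sum_rowP_sq_le {D M K : ℕ} {v : List ℚ} (hv : PInv D M K v) {idx : List (List ℕ)}
    (hidx : ∀ i < idx.length, ∀ j < idx.length, idxf idx i j < K ∧ idxf idx i j = idxf idx j i)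
    (m : ℕ) :
    ∑ k ∈ range K, (((rowP (matW D m idx v) K idx).getD k 0 : ℤ) : ℝ) ^ 2
      ≤ (idx.length : ℝ) ^ 2 * (((2 ^ D : ℝ) ^ m) ^ 2 * ∑ i, ∑ j, powY idx m (stf v) i j ^ 2) := by
  set P : ℕ → ℝ := fun k => (((rowP (matW D m idx v) K idx).getD k 0 : ℤ) : ℝ) with hP
  set S := ∑ k ∈ range K, P k ^ 2 with hS
  set d := idx.length with hd
  set w : ℕ → ℕ → ℝ := fun i j => ((entZ (matW D m idx v) i j : ℤ) : ℝ) with hw
  have hS0 : 0 ≤ S := Finset.sum_nonneg fun k _ => sq_nonneg _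
  have h1 : S = ∑ i ∈ range d, ∑ j ∈ range d, w i j * P (idxf idx i j) := by
    have := sum_rowP (fun i hi j hj => (hidx i hi j hj).1) (matW D m idx v) P
    rw [← this, hS]
    exact Finset.sum_congr rfl fun k _ => by rw [hP]; ring
  have hW : ∑ i ∈ range d, ∑ j ∈ range d, w i j ^ 2
      = ((2 ^ D : ℝ) ^ m) ^ 2 * ∑ i, ∑ j, powY idx m (stf v) i j ^ 2 := by
    rw [← Fin.sum_univ_eq_sum_range (fun i => ∑ j ∈ range d, w i j ^ 2), Finset.mul_sum]
    refine Finset.sum_congr rfl fun i _ => ?_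
    rw [← Fin.sum_univ_eq_sum_range (fun j => w i j ^ 2), Finset.mul_sum]
    refine Finset.sum_congr rfl fun j _ => ?_
    rw [hw]
    simp only
    rw [matW_entry hv idx m i j]
    unfold powY
    ring
  rw [← hW]
  set Q := ∑ i ∈ range d, ∑ j ∈ range d, w i j ^ 2 with hQ
  have hcs : S ^ 2 ≤ Q * (∑ i ∈ range d, ∑ j ∈ range d, P (idxf idx i j) ^ 2) := by
    rw [h1, hQ]
    simp only [← Finset.sum_product']
    exact Finset.sum_mul_sq_le_sq_mul_sq _ _ _
  have hQ0 : 0 ≤ Q := Finset.sum_nonneg fun i _ => Finset.sum_nonneg fun j _ => sq_nonneg _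
  have h2 : ∑ i ∈ range d, ∑ j ∈ range d, P (idxf idx i j) ^ 2 ≤ (d : ℝ) ^ 2 * S := by
    calc ∑ i ∈ range d, ∑ j ∈ range d, P (idxf idx i j) ^ 2
        ≤ ∑ i ∈ range d, ∑ j ∈ range d, S := by
          refine Finset.sum_le_sum fun i hi => Finset.sum_le_sum fun j hj => ?_
          exact Finset.single_le_sum (f := fun k => P k ^ 2) (fun k _ => sq_nonneg _)
            (Finset.mem_range.2 (hidx i (Finset.mem_range.1 hi) j (Finset.mem_range.1 hj)).1)
      _ = (d : ℝ) ^ 2 * S := by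
          simp only [Finset.sum_const, Finset.card_range, nsmul_eq_mul]; ring
  have h3 : S ^ 2 ≤ Q * ((d : ℝ) ^ 2 * S) := hcs.trans (mul_le_mul_of_nonneg_left h2 hQ0)
  rcases hS0.lt_or_eq with hpos | hzero
  · have : S * S ≤ ((d : ℝ) ^ 2 * Q) * S := by nlinarith
    exact le_of_mul_le_mul_right this hpos
  · rw [← hzero]
    exact mul_nonneg (sq_nonneg _) hQ0

theorem valS_eq {D M K : ℕ} {v : List ℚ} (hv : PInv D M K v) (P : List ℤ) :
    ((valS D K P v : ℤ) : ℝ) = 2 ^ D * ∑ k ∈ range K, ((P.getD k 0 : ℤ) : ℝ) * stf v k := by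
  unfold valS
  push_cast
  rw [Finset.mul_sum]
  refine Finset.sum_congr rfl fun k _ => ?_
  rw [floor_grid hv]
  ring

theorem nrmP_eq (K : ℕ) (P : List ℤ) :
    ((nrmP K P : ℤ) : ℝ) = ∑ k ∈ range K, ((P.getD k 0 : ℤ) : ℝ) ^ 2 := by
  unfold nrmP
  push_cast
  exact Finset.sum_congr rfl fun k _ => by ring

theorem getD_map_cast (P : List ℤ) (k : ℕ) :
    (((P.map (fun z : ℤ => (z : ℚ))).getD k 0 : ℚ) : ℝ) = ((P.getD k 0 : ℤ) : ℝ) := by
  rcases lt_or_ge k P.length with h | h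
  · rw [List.getD_eq_getElem _ _ (by simpa using h), List.getD_eq_getElem _ _ h, List.getElem_map]
    push_cast
    rfl
  · rw [List.getD_eq_default _ _ (by simpa using h), List.getD_eq_default _ _ h]
    simp

theorem rowP_length (W : List (List ℤ)) (K : ℕ) (idx : List (List ℕ)) : (rowP W K idx).length = K := by
  simp [rowP]

/-- quadratic form of `matY` -/
theorem quad_matY (idx : List (List ℕ)) (u : ℕ → ℝ) (w : ℕ → ℝ) :
    (fun i : Fin idx.length => w i) ⬝ᵥ (matY idx u *ᵥ fun i => w i)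
      = ∑ i ∈ range idx.length, ∑ j ∈ range idx.length, w i * w j * u (idxf idx i j) := by
  rw [← Fin.sum_univ_eq_sum_range (fun i => ∑ j ∈ range idx.length, w i * w j * u (idxf idx i j)),
    dotProduct]
  refine Finset.sum_congr rfl fun i _ => ?_
  rw [← Fin.sum_univ_eq_sum_range (fun j => w i * w j * u (idxf idx i j)), Matrix.mulVec, dotProduct,
    Finset.mul_sum]
  refine Finset.sum_congr rfl fun j _ => ?_
  unfold matY
  ring

/-- extension of a vector by zero -/
theorem exists_ext {d : ℕ} (w : Fin d → ℝ) : ∃ w' : ℕ → ℝ, (fun i : Fin d => w' i) = w := by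
  refine ⟨fun k => if h : k < d then w ⟨k, h⟩ else 0, ?_⟩
  funext i
  simp

/-- **soundness of the oracle** -/
theorem psdOrc_ok {D K k L : ℕ} {idx : List (List ℕ)}
    (hidx : ∀ i < idx.length, ∀ j < idx.length, idxf idx i j < K ∧ idxf idx i j = idxf idx j i)
    {u : ℕ → ℝ} (hpsd : ∀ w : ℕ → ℝ, 0 ≤ ∑ i ∈ range idx.length, ∑ j ∈ range idx.length,
      w i * w j * u (idxf idx i j)) {v : List ℚ} (hv : PInv D 1 K v) {P : List ℚ}
    (hP : psdOrc D (2 * k) K L idx v = some P) : OrcOK D 1 K L u v P := by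
  unfold psdOrc at hP
  split_ifs at hP with hcond
  simp only [Option.some.injEq] at hP
  subst hP
  set R := rowP (matW D (2 * k) idx v) K idx with hR
  have hcast : ∀ g : ℕ → ℝ, ∑ i ∈ range K, (((R.map (fun z : ℤ => (z : ℚ))).getD i 0 : ℚ) : ℝ) * g i
      = ∑ i ∈ range K, ((R.getD i 0 : ℤ) : ℝ) * g i := fun g =>
    Finset.sum_congr rfl fun i _ => by rw [getD_map_cast]
  have hneg' : ∑ i ∈ range K, ((R.getD i 0 : ℤ) : ℝ) * stf v i < 0 := by
    have h1 : ((valS D K R v : ℤ) : ℝ) < 0 := by exact_mod_cast hcond.1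
    rw [valS_eq hv] at h1
    have h2 : (0 : ℝ) < 2 ^ D := by positivity
    by_contra hcon
    push Not at hcon
    have := mul_nonneg h2.le hcon
    linarith
  refine ⟨?_, ?_, ?_, ?_⟩
  · rw [List.length_map, hR, rowP_length]
  · rw [hcast, hR, sum_rowP_eq_trace hv hidx]
    refine mul_nonneg (by positivity) ?_
    refine trace_mul_even_pow_nonneg (base_symm hidx _) ?_ k
    intro w
    obtain ⟨w', rfl⟩ := exists_ext w
    rw [quad_matY]
    exact hpsd w'
  · have := hcast (stf v)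
    unfold stf at this
    rw [this]
    exact hneg'
  · have h3 : (4 : ℝ) ^ D * ((nrmP K R : ℤ) : ℝ) ≤ L * (((valS D K R v : ℤ) : ℝ) * ((valS D K R v : ℤ) : ℝ)) := by
      exact_mod_cast hcond.2
    rw [nrmP_eq, valS_eq hv] at h3
    have e4 : (4 : ℝ) ^ D = 2 ^ D * 2 ^ D := by
      rw [← mul_pow]; norm_num
    have h5 : (0 : ℝ) < 2 ^ D * 2 ^ D := by positivity
    have h6 := hcast (stf v)
    unfold stf at h6 h3
    rw [h6]
    have e7 : ∑ i ∈ range K, (((R.map (fun z : ℤ => (z : ℚ))).getD i 0 : ℚ) : ℝ) ^ 2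
        = ∑ i ∈ range K, ((R.getD i 0 : ℤ) : ℝ) ^ 2 :=
      Finset.sum_congr rfl fun i _ => by rw [getD_map_cast]
    rw [e7]
    rw [e4] at h3
    refine le_of_mul_le_mul_left (h3.trans (le_of_eq ?_)) h5
    ring

theorem quad_le {d : ℕ} (Y : Matrix (Fin d) (Fin d) ℝ) (hY : ∀ i j, |Y i j| ≤ 1) (w : Fin d → ℝ) :
    w ⬝ᵥ (Y *ᵥ w) ≤ d * (w ⬝ᵥ w) := by
  have h1 : w ⬝ᵥ (Y *ᵥ w) ≤ (∑ i, |w i|) ^ 2 := by
    rw [sq, Finset.sum_mul_sum, dotProduct]
    refine Finset.sum_le_sum fun i _ => ?_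
    rw [Matrix.mulVec, dotProduct, Finset.mul_sum]
    refine Finset.sum_le_sum fun j _ => ?_
    calc w i * (Y i j * w j) ≤ |w i * (Y i j * w j)| := le_abs_self _
      _ = |w i| * |w j| * |Y i j| := by rw [abs_mul, abs_mul]; ring
      _ ≤ |w i| * |w j| * 1 := mul_le_mul_of_nonneg_left (hY i j) (by positivity)
      _ = |w i| * |w j| := mul_one _
  have h2 : (∑ i, |w i|) ^ 2 ≤ d * ∑ i, |w i| ^ 2 := by
    have := sq_sum_le_card_mul_sum_sq (s := (univ : Finset (Fin d))) (f := fun i => |w i|)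
    simpa using this
  have h3 : ∑ i, |w i| ^ 2 = w ⬝ᵥ w := by
    rw [dotProduct]
    exact Finset.sum_congr rfl fun i _ => by rw [sq_abs]; ring
  rw [h3] at h2
  exact h1.trans h2

/-- **completeness of the oracle** -/
theorem psdOrc_none {D K k L : ℕ} {idx : List (List ℕ)}
    (hidx : ∀ i < idx.length, ∀ j < idx.length, idxf idx i j < K ∧ idxf idx i j = idxf idx j i)
    {v : List ℚ} (hv : PInv D 1 K v) {ε : ℝ} (hε : 0 < ε)
    (hm : (idx.length : ℝ) * (idx.length : ℝ) ^ (2 * k + 1)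
      ≤ ε / 2 * ((idx.length : ℝ) + ε) ^ (2 * k))
    (hL : (2 * idx.length * (idx.length + 1)) ^ 2 ≤ (L : ℝ) * ε ^ 2)
    (hnone : psdOrc D (2 * k) K L idx v = none) (w : ℕ → ℝ) :
    -ε * ∑ i ∈ range idx.length, w i ^ 2
      ≤ ∑ i ∈ range idx.length, ∑ j ∈ range idx.length, w i * w j * stf v (idxf idx i j) := by
  by_contra hcon
  push Not at hcon
  set d := idx.length with hd
  have hw1 : (fun i : Fin d => w i) ⬝ᵥ (fun i : Fin d => w i) = ∑ i ∈ range d, w i ^ 2 := by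
    rw [dotProduct, ← Fin.sum_univ_eq_sum_range (fun i => w i ^ 2)]
    exact Finset.sum_congr rfl fun i _ => by ring
  have hneg : ∃ w : Fin d → ℝ, w ⬝ᵥ (matY idx (stf v) *ᵥ w) < -ε * (w ⬝ᵥ w) := by
    refine ⟨fun i => w i, ?_⟩
    rw [quad_matY, hw1]
    exact hcon
  have hYb : ∀ i j, |matY idx (stf v) i j| ≤ 1 := by
    intro i j
    unfold matY stf
    have hk : idxf idx i j < v.length := by rw [hv.len]; exact (hidx i i.2 j j.2).1
    rw [List.getD_eq_getElem _ _ hk]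
    have := hv.bd _ (List.getElem_mem hk)
    exact_mod_cast this
  have hcut := psd_cut (matY_symm hidx (stf v)) (c := (d : ℝ)) (Nat.cast_nonneg d) hε
    (quad_le _ hYb) (2 * k) hm hneg
  obtain ⟨c1, c2, c3⟩ := hcut
  change trace (matY idx (stf v) * powY idx (2 * k) (stf v)) ≤
    -(ε / (2 * (d + 1))) * trace (powY idx (2 * k) (stf v)) at c1
  change 0 < trace (powY idx (2 * k) (stf v)) at c2
  change ∑ i, ∑ j, (powY idx (2 * k) (stf v)) i j ^ 2 ≤ trace (powY idx (2 * k) (stf v)) ^ 2 at c3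
  set t := trace (powY idx (2 * k) (stf v)) with ht
  set R := rowP (matW D (2 * k) idx v) K idx with hR
  have hS := sum_rowP_eq_trace hv hidx (2 * k) (stf v)
  rw [← hR] at hS
  set s := ∑ i ∈ range K, ((R.getD i 0 : ℤ) : ℝ) * stf v i with hs
  set q : ℝ := (2 ^ D : ℝ) ^ (2 * k) with hq
  have hq0 : 0 < q := by positivity
  have hδ : 0 < ε / (2 * ((d : ℝ) + 1)) := by positivity
  have hs1 : s ≤ -(q * (ε / (2 * (d + 1)) * t)) := by
    rw [hS]
    calc q * trace (matY idx (stf v) * powY idx (2 * k) (stf v))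
        ≤ q * (-(ε / (2 * (d + 1))) * t) := mul_le_mul_of_nonneg_left c1 hq0.le
      _ = _ := by ring
  have hpos : 0 < q * (ε / (2 * (d + 1)) * t) := by positivity
  have hs0 : s < 0 := by linarith
  have hn := sum_rowP_sq_le hv hidx (2 * k)
  rw [← hR] at hn
  have h2D : (0 : ℝ) < 2 ^ D := by positivity
  have hval : valS D K R v < 0 := by
    have : ((valS D K R v : ℤ) : ℝ) < 0 := by
      rw [valS_eq hv]; exact mul_neg_of_pos_of_neg h2D hs0
    exact_mod_cast this
  have hbig : 4 ^ D * nrmP K R ≤ L * (valS D K R v * valS D K R v) := by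
    have : (4 : ℝ) ^ D * ((nrmP K R : ℤ) : ℝ) ≤ L * (((valS D K R v : ℤ) : ℝ) * ((valS D K R v : ℤ) : ℝ)) := by
      rw [nrmP_eq, valS_eq hv]
      have e4 : (4 : ℝ) ^ D = 2 ^ D * 2 ^ D := by
        rw [← mul_pow]; norm_num
      have h5 : (0 : ℝ) < 2 ^ D * 2 ^ D := by positivity
      have h6 : ∑ i ∈ range K, ((R.getD i 0 : ℤ) : ℝ) ^ 2 ≤ L * s ^ 2 := by
        refine hn.trans ?_
        have h7 : (q * (ε / (2 * (d + 1)) * t)) ^ 2 ≤ s ^ 2 := by
          nlinarith
        calc (d : ℝ) ^ 2 * (q ^ 2 * ∑ i, ∑ j, powY idx (2 * k) (stf v) i j ^ 2)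
            ≤ (d : ℝ) ^ 2 * (q ^ 2 * t ^ 2) := by
              refine mul_le_mul_of_nonneg_left ?_ (sq_nonneg _)
              exact mul_le_mul_of_nonneg_left c3 (sq_nonneg _)
          _ ≤ L * (q * (ε / (2 * (d + 1)) * t)) ^ 2 := by
              have e8 : (L : ℝ) * (q * (ε / (2 * (d + 1)) * t)) ^ 2
                  = ((L : ℝ) * ε ^ 2) * ((q * t) ^ 2 / (2 * (d + 1)) ^ 2) := by
                field_simp
              have e9 : (d : ℝ) ^ 2 * (q ^ 2 * t ^ 2)
                  = (2 * d * (d + 1)) ^ 2 * ((q * t) ^ 2 / (2 * (d + 1)) ^ 2) := by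
                field_simp
              rw [e8, e9]
              exact mul_le_mul_of_nonneg_right hL (by positivity)
          _ ≤ L * s ^ 2 := mul_le_mul_of_nonneg_left h7 (Nat.cast_nonneg L)
      rw [e4]
      calc 2 ^ D * 2 ^ D * ∑ i ∈ range K, ((R.getD i 0 : ℤ) : ℝ) ^ 2
          ≤ 2 ^ D * 2 ^ D * (L * s ^ 2) := mul_le_mul_of_nonneg_left h6 h5.le
        _ = _ := by ring
    exact_mod_cast this
  unfold psdOrc at hnone
  rw [if_pos ⟨hval, hbig⟩] at hnone
  exact absurd hnone (by simp)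

theorem sdp_num1 {G d : ℕ} (hG : 1 ≤ G) (hd : d ≤ G) :
    (d : ℝ) * (d : ℝ) ^ (2 * (G * G * (3 * G + 1)) + 1)
      ≤ 1 / (G : ℝ) / 2 * ((d : ℝ) + 1 / (G : ℝ)) ^ (2 * (G * G * (3 * G + 1))) := by
  have hG0 : (0 : ℝ) < G := by exact_mod_cast hG
  rcases Nat.eq_zero_or_pos d with h0 | hpos
  · subst h0
    simp only [CharP.cast_eq_zero, zero_mul]
    positivity
  have hd0 : (1 : ℝ) ≤ d := by exact_mod_cast hpos
  have hdG : (d : ℝ) ≤ G := by exact_mod_cast hd
  set k := G * G * (3 * G + 1) with hk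
  have h1 : (d : ℝ) * (1 + 1 / (G : ℝ) ^ 2) ≤ d + 1 / G := by
    have : (d : ℝ) * (1 / (G : ℝ) ^ 2) ≤ 1 / G := by
      rw [mul_one_div, div_le_div_iff₀ (by positivity) hG0]
      nlinarith
    linarith
  have h2 : (2 : ℝ) ≤ (1 + 1 / (G : ℝ) ^ 2) ^ (G * G) := by
    have := one_add_mul_le_pow (a := 1 / (G : ℝ) ^ 2) (by
      have : (0 : ℝ) ≤ 1 / (G : ℝ) ^ 2 := by positivity
      linarith) (G * G)
    refine le_trans (le_of_eq ?_) this
    push_cast
    field_simp
    norm_num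
  have h3 : (2 : ℝ) * G ^ 3 ≤ (1 + 1 / (G : ℝ) ^ 2) ^ (2 * k) := by
    have e : 2 * k = (G * G) * (2 * (3 * G + 1)) := by rw [hk]; ring
    rw [e, pow_mul]
    have hbase : (0 : ℝ) ≤ 2 := by norm_num
    refine le_trans ?_ (pow_le_pow_left₀ hbase h2 (2 * (3 * G + 1)))
    have h4 : (G : ℝ) ≤ 2 ^ G := by exact_mod_cast (Nat.lt_two_pow_self (n := G)).le
    have h5 : (1 : ℝ) ≤ 2 ^ G := one_le_pow₀ (by norm_num)
    have e2 : (2 : ℝ) ^ (2 * (3 * G + 1)) = 4 * ((2 ^ G) ^ 3 * (2 ^ G) ^ 3) := by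
      rw [← pow_mul, ← pow_add]
      have : 2 * (3 * G + 1) = 2 + (G * 3 + G * 3) := by ring
      rw [this, pow_add]
      norm_num
    rw [e2]
    have h6 : (G : ℝ) ^ 3 ≤ (2 ^ G) ^ 3 := pow_le_pow_left₀ hG0.le h4 3
    have h7 : (1 : ℝ) ≤ (2 ^ G) ^ 3 := one_le_pow₀ h5
    have h8 : (G : ℝ) ^ 3 ≤ (2 ^ G) ^ 3 * (2 ^ G) ^ 3 := by
      calc (G : ℝ) ^ 3 ≤ (2 ^ G) ^ 3 * 1 := by rw [mul_one]; exact h6
        _ ≤ _ := mul_le_mul_of_nonneg_left h7 (by positivity)
    have h9 : (0 : ℝ) ≤ (2 ^ G) ^ 3 * (2 ^ G) ^ 3 := by positivity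
    linarith
  calc (d : ℝ) * (d : ℝ) ^ (2 * k + 1) = (d : ℝ) ^ (2 * k) * (d * d) := by ring
    _ ≤ (d : ℝ) ^ (2 * k) * (G * G) := by
        refine mul_le_mul_of_nonneg_left ?_ (by positivity)
        nlinarith
    _ = 1 / (G : ℝ) / 2 * ((d : ℝ) ^ (2 * k) * (2 * G ^ 3)) := by
        field_simp
    _ ≤ 1 / (G : ℝ) / 2 * ((d : ℝ) ^ (2 * k) * (1 + 1 / (G : ℝ) ^ 2) ^ (2 * k)) := by
        refine mul_le_mul_of_nonneg_left ?_ (by positivity)
        exact mul_le_mul_of_nonneg_left h3 (by positivity)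
    _ = 1 / (G : ℝ) / 2 * ((d : ℝ) * (1 + 1 / (G : ℝ) ^ 2)) ^ (2 * k) := by rw [mul_pow]
    _ ≤ _ := by
        refine mul_le_mul_of_nonneg_left ?_ (by positivity)
        exact pow_le_pow_left₀ (by positivity) h1 _

theorem sdp_num2 {G K : ℕ} (hG : 1 ≤ G) (hK : K ≤ G) :
    (K : ℝ) * (4 * ((1 : ℕ) : ℝ) / 2 ^ (10 * G + 10) + (1 / 2 ^ (10 * G + 10)) ^ 2)
      ≤ 1 / (8 * (G : ℝ) ^ 4 * (G + 1) ^ 2) := by
  have hG0 : (1 : ℝ) ≤ G := by exact_mod_cast hG
  have hKG : (K : ℝ) ≤ G := by exact_mod_cast hK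
  have hK0 : (0 : ℝ) ≤ K := Nat.cast_nonneg K
  set δ : ℝ := 1 / 2 ^ (10 * G + 10) with hδ
  have hδ0 : 0 < δ := by positivity
  have hδ1 : δ ≤ 1 := by
    rw [hδ, div_le_one (by positivity)]
    exact one_le_pow₀ (by norm_num)
  have h1 : 4 * ((1 : ℕ) : ℝ) / 2 ^ (10 * G + 10) + δ ^ 2 ≤ 5 * δ := by
    have e : 4 * ((1 : ℕ) : ℝ) / 2 ^ (10 * G + 10) = 4 * δ := by rw [hδ]; push_cast; ring
    rw [e]
    nlinarith
  have h2 : (K : ℝ) * (4 * ((1 : ℕ) : ℝ) / 2 ^ (10 * G + 10) + δ ^ 2) ≤ G * (5 * δ) := by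
    calc _ ≤ (K : ℝ) * (5 * δ) := mul_le_mul_of_nonneg_left h1 hK0
      _ ≤ _ := mul_le_mul_of_nonneg_right hKG (by positivity)
  refine h2.trans ?_
  rw [le_div_iff₀ (by positivity), hδ]
  have h3 : (G : ℝ) + 1 ≤ 2 ^ G := by exact_mod_cast (Nat.lt_two_pow_self (n := G))
  have h4 : (G : ℝ) ^ 5 * (G + 1) ^ 2 ≤ (2 ^ G) ^ 10 := by
    calc (G : ℝ) ^ 5 * (G + 1) ^ 2 ≤ (2 ^ G) ^ 5 * (2 ^ G) ^ 2 := by
          apply mul_le_mul
          · exact pow_le_pow_left₀ (by positivity) (by linarith) 5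
          · exact pow_le_pow_left₀ (by positivity) h3 2
          · positivity
          · positivity
      _ = (2 ^ G) ^ 7 := by ring
      _ ≤ (2 ^ G) ^ 10 := pow_le_pow_right₀ (one_le_pow₀ (by norm_num)) (by norm_num)
  have e5 : (2 : ℝ) ^ (10 * G + 10) = (2 ^ G) ^ 10 * 1024 := by
    rw [pow_add, mul_comm 10 G, pow_mul]; norm_num
  rw [e5]
  have h6 : (0 : ℝ) < (2 ^ G) ^ 10 * 1024 := by positivity
  rw [show (G : ℝ) * (5 * (1 / ((2 ^ G) ^ 10 * 1024))) * (8 * G ^ 4 * (G + 1) ^ 2)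
    = (40 * (G ^ 5 * (G + 1) ^ 2)) / ((2 ^ G) ^ 10 * 1024) by field_simp; ring]
  rw [div_le_one h6]
  nlinarith

/-- **Specification of the solver.** -/
theorem sdpRun_spec {G K : ℕ} {idx : List (List ℕ)} {cons : List PCon} (hG : 1 ≤ G) (hK : K ≤ G)
    (hd : idx.length ≤ G) (hlen : ∀ c ∈ cons, c.1.length = K)
    (hN : ∀ c ∈ cons, dotQ c.1 c.1 ≤ G) (htol : ∀ c ∈ cons, 1 / (G : ℚ) ≤ c.2.2)
    (hidx : ∀ i < idx.length, ∀ j < idx.length, idxf idx i j < K ∧ idxf idx i j = idxf idx j i)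
    {u : ℕ → ℝ} (hu : ∀ k < K, |u k| ≤ 1)
    (hsol : ∀ c ∈ cons, |∑ k ∈ range K, (c.1.getD k 0 : ℝ) * u k - c.2.1| ≤ c.2.2)
    (hpsd : ∀ w : ℕ → ℝ, 0 ≤ ∑ i ∈ range idx.length, ∑ j ∈ range idx.length,
      w i * w j * u (idxf idx i j)) :
    (sdpRun G K idx cons).length = K ∧
    (∀ k < K, |((sdpRun G K idx cons).getD k 0 : ℝ)| ≤ 1) ∧
    (∀ c ∈ cons, |residQ (sdpRun G K idx cons) c| ≤ 3 * c.2.2) ∧
    ∀ w : ℕ → ℝ, -(1 / (G : ℝ)) * ∑ i ∈ range idx.length, w i ^ 2
      ≤ ∑ i ∈ range idx.length, ∑ j ∈ range idx.length,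
        w i * w j * ((sdpRun G K idx cons).getD (idxf idx i j) 0 : ℝ) := by
  have hG0 : (0 : ℝ) < G := by exact_mod_cast hG
  have hG1 : (1 : ℝ) ≤ G := by exact_mod_cast hG
  have hdG : (idx.length : ℝ) ≤ G := by exact_mod_cast hd
  have hdn : (0 : ℝ) ≤ idx.length := Nat.cast_nonneg _
  have hr := sdp_num2 hG hK
  set γ : ℝ := 1 / (8 * (G : ℝ) ^ 4 * (G + 1) ^ 2) with hγ
  have hγ0 : 0 < γ := by positivity
  have hLr : (((2 * G * G * (G + 1)) ^ 2 : ℕ) : ℝ) = 4 * (G : ℝ) ^ 4 * (G + 1) ^ 2 := by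
    push_cast; ring
  have e2γ : γ + γ = 1 / (((2 * G * G * (G + 1)) ^ 2 : ℕ) : ℝ) := by
    rw [hLr, hγ]; field_simp; norm_num
  obtain ⟨r1, r2, r3⟩ := osolveQ_spec (T := 8 * G ^ 5 * (G + 1) ^ 2 + 1) (D := 10 * G + 10) (M := 1)
    (K := K) (cons := cons) (orc := psdOrc (10 * G + 10) (2 * (G * G * (3 * G + 1))) K
      ((2 * G * G * (G + 1)) ^ 2) idx) hlen (u := u) (β := 1 / G) (N := G)
    (L := (((2 * G * G * (G + 1)) ^ 2 : ℕ) : ℝ)) (γ := γ) (by positivity) (by
      rw [hLr]; positivity)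
    (fun c hc => by
      have := (Rat.cast_le (K := ℝ)).2 (htol c hc)
      push_cast at this
      exact this)
    (fun c hc => by
      have := (Rat.cast_le (K := ℝ)).2 (hN c hc)
      push_cast at this
      exact this)
    (fun k hk => by simpa using hu k hk) hsol
    (fun v hv P hP => psdOrc_ok hidx hpsd hv hP)
    (by
      have h1 : γ + γ ≤ 3 * (1 / (G : ℝ)) ^ 2 / G := by
        rw [hγ]
        have e : 1 / (8 * (G : ℝ) ^ 4 * (G + 1) ^ 2) + 1 / (8 * (G : ℝ) ^ 4 * (G + 1) ^ 2)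
            = 1 / (4 * (G : ℝ) ^ 4 * (G + 1) ^ 2) := by field_simp; norm_num
        have e2 : 3 * (1 / (G : ℝ)) ^ 2 / G = 3 / (G : ℝ) ^ 3 := by field_simp
        rw [e, e2, div_le_div_iff₀ (by positivity) (by positivity)]
        have h5 : (G : ℝ) ^ 3 ≤ G ^ 4 := pow_le_pow_right₀ hG1 (by norm_num)
        have h6 : (1 : ℝ) ≤ (G + 1) ^ 2 := one_le_pow₀ (by linarith)
        have h7 : (G : ℝ) ^ 4 ≤ G ^ 4 * (G + 1) ^ 2 := le_mul_of_one_le_right (by positivity) h6
        have h8 : (0 : ℝ) < G ^ 4 := by positivity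
        linarith
      linarith)
    (by linarith)
    (by
      have hKG : (K : ℝ) ≤ G := by exact_mod_cast hK
      have e : ((8 * G ^ 5 * (G + 1) ^ 2 + 1 : ℕ) : ℝ) * γ = G + γ := by
        rw [hγ]; push_cast; field_simp
      rw [e]
      push_cast
      linarith)
  refine ⟨r1.len, ?_, r2, ?_⟩
  · intro k hk
    have hk' : k < (sdpRun G K idx cons).length := by
      unfold sdpRun; rw [r1.len]; exact hk
    rw [List.getD_eq_getElem _ _ hk']
    have := r1.bd _ (List.getElem_mem hk')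
    exact_mod_cast this
  · intro w
    exact psdOrc_none hidx r1 (ε := 1 / G) (by positivity) (sdp_num1 hG hd) (by
      rw [hLr]
      have h1 : 2 * (idx.length : ℝ) * (idx.length + 1) ≤ 2 * G * (G + 1) := by
        apply mul_le_mul
        · linarith
        · linarith
        · positivity
        · positivity
      calc (2 * (idx.length : ℝ) * (idx.length + 1)) ^ 2 ≤ (2 * G * (G + 1)) ^ 2 :=
            pow_le_pow_left₀ (by positivity) h1 2
        _ = 4 * (G : ℝ) ^ 4 * (G + 1) ^ 2 * (1 / G) ^ 2 := by field_simp; ring) r3 w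

end Crest.Agent.R300
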