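import Crest.Agent.R300.LBDefs

/-!
# Row 300, lower bounds: interface between the pieces (statements only).

`St q L E u τ x y a b`: two words `x ≠ y` of the same length `≤ e^L`, probability measures `a, b`
which are `τ`-close to the trace laws of `x, y`, pointwise close (`|a-b| ≤ u a`), `L²(a)`-close
(`‖a-b‖²_a ≤ e^{-E L}`), and `a` has the slip property with constants `R, η`, `(R+1)/η² ≤ e^L`.
-/

set_option autoImplicit false

namespace Crest.Agent.R300LB

open Finset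

noncomputable section

/-- binary strings as a free monoid -/
abbrev BW := FreeMonoid Bool

/-- law of the trace of one letter; `q` = deletion probability -/
def letter (q : ℝ) (c : Bool) : MA BW :=
  q • (1 : MA BW) + (1 - q) • MonoidAlgebra.single (FreeMonoid.of c) 1

/-- law of the trace of a word; `q` = deletion probability -/
def D (q : ℝ) (w : List Bool) : MA BW := (w.map (letter q)).prod

/-- total variation (`ℓ¹`) bound in dual form -/
def TVle {G : Type*} [Monoid G] (τ : ℝ) (ν : MA G) : Prop :=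
  ∀ f : G → ℝ, (∀ w, |f w| ≤ 1) → |ev ν f| ≤ τ

/-- pointwise bound `|Δ| ≤ u a` in dual form -/
def Bd {G : Type*} [Monoid G] (u : ℝ) (a Δ : MA G) : Prop :=
  ∀ f : G → ℝ, (∀ w, 0 ≤ f w) → |ev Δ f| ≤ u * ev a f

/-- slip property: `a^R` and `a^(R+1)` have common part `s` -/
structure Slip {G : Type*} [Monoid G] (a : MA G) (R : ℕ) (s : MA G) : Prop where
  pos : Pos s
  le0 : Le s (a ^ R)
  le1 : Le s (a ^ (R + 1))
  mpos : 0 < mass s

structure St (q L E u τ : ℝ) (x y : List Bool) (a b : MA BW) : Prop where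
  len : x.length = y.length
  ne : x ≠ y
  lenL : (x.length : ℝ) ≤ Real.exp L
  pa : Prob a
  pb : Prob b
  ta : TVle τ (a - D q x)
  tb : TVle τ (b - D q y)
  bd : Bd u a (a - b)
  dom : Dom (Real.exp (-(E * L))) a (a - b)
  slip : ∃ (R : ℕ) (s : MA BW), Slip a R s ∧ ((R : ℝ) + 1) ≤ Real.exp L * (mass s) ^ 2

/-- P-BASE (pieces L9 + L10 of the blueprint): base pair `(01)^m 0 (01)^(m+1)`, `(01)^(m+1) 0 (01)^m`. -/
def BaseStatement : Prop :=
  ∃ C : ℝ, 0 < C ∧ ∀ q : ℝ, 0 < q → q ≤ 1 / 16 → ∀ L : ℝ, C / q ^ 3 ≤ L →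
    ∃ (x y : List Bool) (a b : MA BW),
      St q L (7 / 5) (Real.exp (-(L / 20))) (Real.exp (-(Real.exp (L / 4)))) x y a b



/-- P-CORE : output of the iteration. -/
def CoreStatement : Prop :=
  ∀ δ : ℝ, 0 < δ → δ < 1 → ∀ T : ℕ, 1 ≤ T → ∃ (n₀ : ℕ) (R₀ : ℝ), ∀ n : ℕ, n₀ ≤ n → ∀ q : ℝ, 0 < q →
    q ≤ 1 / 16 → R₀ ≤ q ^ 3 * Real.log n →
    ∃ (x y : List Bool) (a b : MA BW) (V τ : ℝ),
      x.length = y.length ∧ x ≠ y ∧ T * x.length ≤ n ∧ Prob a ∧ Prob b ∧
      TVle τ (a - D q x) ∧ TVle τ (b - D q y) ∧ 0 ≤ V ∧ Dom V a (a - b) ∧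
      V ≤ (n : ℝ) ^ (-((1 - δ) / (4 * Real.log 2) * Real.log (q ^ 3 * Real.log n))) ∧
      τ ≤ Real.exp (-(Real.log n) ^ (3 / 2 : ℝ))

end

end Crest.Agent.R300LB
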