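import Mathlib
import Crest.Agent.R300.LBInterface

-- ▼ part R300/LBBaseBin
section

/-!
# Row 300, lower bounds, base pair (L9): binomial weights
`bn κ m i` = probability that exactly `i` of `m` blocks are nonempty, each block being empty with
probability `κ`.
-/

set_option autoImplicit false

namespace Crest.Agent.R300LB.BaseDom

open Finset

noncomputable section

/-- binomial weights -/
def bn (κ : ℝ) (m i : ℕ) : ℝ := (m.choose i : ℝ) * (1 - κ) ^ i * κ ^ (m - i)

theorem bn_nonneg {κ : ℝ} (h0 : 0 ≤ κ) (h1 : κ ≤ 1) (m i : ℕ) : 0 ≤ bn κ m i := by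
  unfold bn
  have : 0 ≤ 1 - κ := by linarith
  positivity

theorem bn_of_lt {κ : ℝ} {m i : ℕ} (h : m < i) : bn κ m i = 0 := by
  unfold bn
  rw [Nat.choose_eq_zero_of_lt h]; simp

theorem sum_bn (κ : ℝ) (m : ℕ) : ∑ i ∈ range (m + 1), bn κ m i = 1 := by
  have h := add_pow (1 - κ) κ m
  have h2 : (1 - κ + κ) ^ m = 1 := by simp
  rw [h2] at h
  rw [h]
  refine Finset.sum_congr rfl (fun i _ => ?_)
  unfold bn; ring

theorem bn_succ (κ : ℝ) (m i : ℕ) :
    bn κ (m + 1) i * ((m : ℝ) + 1 - i) = bn κ m i * (κ * (m + 1)) := by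
  rcases lt_trichotomy i (m + 1) with h | h | h
  · have hi : i ≤ m := Nat.lt_succ_iff.mp h
    unfold bn
    have h1 : (m.choose i : ℝ) * (m + 1) = ((m + 1).choose i : ℝ) * ((m : ℝ) + 1 - i) := by
      have := Nat.choose_mul_succ_eq m i
      have h2 : ((m + 1 - i : ℕ) : ℝ) = (m : ℝ) + 1 - i := by
        rw [Nat.cast_sub (by omega)]; push_cast; ring
      rw [← h2]
      exact_mod_cast this
    have h3 : κ ^ (m + 1 - i) = κ * κ ^ (m - i) := by
      rw [show m + 1 - i = (m - i) + 1 by omega, pow_succ]; ring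
    rw [h3]
    calc ((m + 1).choose i : ℝ) * (1 - κ) ^ i * (κ * κ ^ (m - i)) * ((m : ℝ) + 1 - i)
        = (((m + 1).choose i : ℝ) * ((m : ℝ) + 1 - i)) * ((1 - κ) ^ i * (κ * κ ^ (m - i))) := by ring
      _ = ((m.choose i : ℝ) * (m + 1)) * ((1 - κ) ^ i * (κ * κ ^ (m - i))) := by rw [h1]
      _ = _ := by ring
  · subst h
    rw [bn_of_lt (Nat.lt_succ_self m)]
    push_cast
    ring
  · rw [bn_of_lt (by omega : m + 1 < i), bn_of_lt (by omega : m < i)]; ring

theorem var_bn (κ : ℝ) (m : ℕ) :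
    ∑ i ∈ range (m + 1), bn κ m i * ((i : ℝ) - m * (1 - κ)) ^ 2 = m * κ * (1 - κ) := by
  have h := congrArg (Polynomial.eval (1 - κ)) (bernsteinPolynomial.variance ℝ m)
  rw [Polynomial.eval_finsetSum] at h
  simp only [bernsteinPolynomial, Polynomial.eval_mul, Polynomial.eval_pow, Polynomial.eval_sub,
    Polynomial.eval_X, Polynomial.eval_natCast, Polynomial.eval_one,
    nsmul_eq_mul] at h
  rw [show (1:ℝ) - (1 - κ) = κ by ring] at h
  calc ∑ i ∈ range (m + 1), bn κ m i * ((i : ℝ) - m * (1 - κ)) ^ 2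
      = ∑ i ∈ range (m + 1), ((m:ℝ) * (1 - κ) - i) ^ 2 * ((m.choose i : ℝ) * (1 - κ) ^ i * κ ^ (m - i)) := by
        refine Finset.sum_congr rfl (fun i _ => ?_)
        unfold bn; ring
    _ = m * κ * (1 - κ) := by rw [h]; ring

theorem var2_bn {κ : ℝ} (h0 : 0 ≤ κ) (h1 : κ ≤ 1) (m : ℕ) :
    ∑ i ∈ range (m + 1), ∑ j ∈ range (m + 1), bn κ m i * bn κ m j * ((i : ℝ) - j) ^ 2
      ≤ 4 * (κ * m) := by
  have hv := var_bn κ m
  have hs := sum_bn κ m
  have key : ∀ i ∈ range (m + 1), ∀ j ∈ range (m + 1),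
      bn κ m i * bn κ m j * ((i : ℝ) - j) ^ 2 ≤
      2 * (bn κ m i * ((i : ℝ) - m * (1 - κ)) ^ 2) * bn κ m j +
      2 * bn κ m i * (bn κ m j * ((j : ℝ) - m * (1 - κ)) ^ 2) := by
    intro i _ j _
    have hb := mul_nonneg (bn_nonneg h0 h1 m i) (bn_nonneg h0 h1 m j)
    have : ((i : ℝ) - j) ^ 2 ≤ 2 * ((i : ℝ) - m * (1 - κ)) ^ 2 + 2 * ((j : ℝ) - m * (1 - κ)) ^ 2 := by
      nlinarith [sq_nonneg (((i : ℝ) - m * (1 - κ)) + ((j : ℝ) - m * (1 - κ)))]
    nlinarith [mul_le_mul_of_nonneg_left this hb]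
  calc ∑ i ∈ range (m + 1), ∑ j ∈ range (m + 1), bn κ m i * bn κ m j * ((i : ℝ) - j) ^ 2
      ≤ ∑ i ∈ range (m + 1), ∑ j ∈ range (m + 1),
        (2 * (bn κ m i * ((i : ℝ) - m * (1 - κ)) ^ 2) * bn κ m j +
      2 * bn κ m i * (bn κ m j * ((j : ℝ) - m * (1 - κ)) ^ 2)) :=
        Finset.sum_le_sum (fun i hi => Finset.sum_le_sum (fun j hj => key i hi j hj))
    _ = 4 * (m * κ * (1 - κ)) := by
        simp_rw [Finset.sum_add_distrib, ← Finset.mul_sum, hs, hv, mul_one]
        rw [← Finset.mul_sum, hv, ← Finset.sum_mul, ← Finset.mul_sum, hs]; ring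
    _ ≤ 4 * (κ * m) := by
        have : 0 ≤ κ * m := by positivity
        nlinarith

/-! ### central binomial bounds -/

theorem cb_upper (n : ℕ) : (Nat.centralBinom n) ^ 2 * (2 * n + 1) ≤ 16 ^ n := by
  induction n with
  | zero => simp
  | succ n ih =>
    have h := Nat.succ_mul_centralBinom_succ n
    have h2 : ((n + 1) * (n + 1).centralBinom) ^ 2 * (2 * (n + 1) + 1) =
        4 * (2 * n + 1) * (2 * n + 3) * ((n.centralBinom) ^ 2 * (2 * n + 1)) := by
      rw [h]; ring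
    have h3 : (n + 1) ^ 2 * ((n + 1).centralBinom ^ 2 * (2 * (n + 1) + 1)) ≤
        (n + 1) ^ 2 * 16 ^ (n + 1) := by
      calc (n + 1) ^ 2 * ((n + 1).centralBinom ^ 2 * (2 * (n + 1) + 1))
          = ((n + 1) * (n + 1).centralBinom) ^ 2 * (2 * (n + 1) + 1) := by ring
        _ = 4 * (2 * n + 1) * (2 * n + 3) * ((n.centralBinom) ^ 2 * (2 * n + 1)) := h2
        _ ≤ 4 * (2 * n + 1) * (2 * n + 3) * 16 ^ n := Nat.mul_le_mul_left _ ih
        _ ≤ (16 * (n + 1) ^ 2) * 16 ^ n := by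
            apply Nat.mul_le_mul_right
            nlinarith
        _ = (n + 1) ^ 2 * 16 ^ (n + 1) := by ring
    exact Nat.le_of_mul_le_mul_left h3 (by positivity)

theorem choose_sq (n k : ℕ) : (n.choose k) ^ 2 * (n + 1) ≤ 4 ^ n := by
  rcases Nat.even_or_odd' n with ⟨r, hr | hr⟩
  · subst hr
    have h1 := Nat.choose_le_centralBinom k r
    calc ((2 * r).choose k) ^ 2 * (2 * r + 1) ≤ (r.centralBinom) ^ 2 * (2 * r + 1) :=
          Nat.mul_le_mul_right _ (Nat.pow_le_pow_left h1 2)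
      _ ≤ 16 ^ r := cb_upper r
      _ = 4 ^ (2 * r) := by rw [pow_mul]; norm_num
  · subst hr
    have h1 := Nat.choose_le_middle k (2 * r + 1)
    have h2 : (2 * r + 1) / 2 = r := by omega
    rw [h2] at h1
    have h3 : 2 * (2 * r + 1).choose r = (r + 1).centralBinom := by
      rw [Nat.centralBinom_eq_two_mul_choose]
      have e1 : (2 * (r + 1)).choose (r + 1) = (2 * r + 1).choose r + (2 * r + 1).choose (r + 1) := by
        rw [show 2 * (r + 1) = (2 * r + 1) + 1 by ring, Nat.choose_succ_succ]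
      have e2 : (2 * r + 1).choose (r + 1) = (2 * r + 1).choose r := by
        apply Nat.choose_symm_of_eq_add; ring
      rw [e1, e2]; ring
    have h4 := cb_upper (r + 1)
    rw [← h3] at h4
    have h5 : ((2 * r + 1).choose r) ^ 2 * (2 * r + 1 + 1) * 4 ≤ 4 ^ (2 * r + 1) * 4 := by
      calc ((2 * r + 1).choose r) ^ 2 * (2 * r + 1 + 1) * 4
          ≤ (2 * (2 * r + 1).choose r) ^ 2 * (2 * (r + 1) + 1) := by nlinarith [Nat.zero_le (((2 * r + 1).choose r) ^ 2)]
        _ ≤ 16 ^ (r + 1) := h4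
        _ = 4 ^ (2 * r + 1) * 4 := by
            rw [← pow_succ, show 2 * r + 1 + 1 = 2 * (r + 1) by ring, pow_mul]; norm_num
    calc ((2 * r + 1).choose k) ^ 2 * (2 * r + 1 + 1)
        ≤ ((2 * r + 1).choose r) ^ 2 * (2 * r + 1 + 1) :=
          Nat.mul_le_mul_right _ (Nat.pow_le_pow_left h1 2)
      _ ≤ 4 ^ (2 * r + 1) := by omega

theorem cb_lower (n : ℕ) (hn : 1 ≤ n) : 16 ^ n ≤ (Nat.centralBinom n) ^ 2 * (4 * n) := by
  induction n, hn using Nat.le_induction with
  | base => simp [Nat.centralBinom]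
  | succ n hn ih =>
    have h := Nat.succ_mul_centralBinom_succ n
    have h3 : (n + 1) ^ 2 * 16 ^ (n + 1) ≤ (n + 1) ^ 2 * ((n + 1).centralBinom ^ 2 * (4 * (n + 1))) := by
      calc (n + 1) ^ 2 * 16 ^ (n + 1) = (16 * (n + 1) ^ 2) * 16 ^ n := by ring
        _ ≤ (16 * (n + 1) ^ 2) * ((Nat.centralBinom n) ^ 2 * (4 * n)) := Nat.mul_le_mul_left _ ih
        _ = (16 * n * (n + 1)) * ((Nat.centralBinom n) ^ 2 * (4 * (n + 1))) := by ring
        _ ≤ (4 * (2 * n + 1) ^ 2) * ((Nat.centralBinom n) ^ 2 * (4 * (n + 1))) := by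
            apply Nat.mul_le_mul_right; nlinarith
        _ = (2 * (2 * n + 1) * n.centralBinom) ^ 2 * (4 * (n + 1)) := by ring
        _ = ((n + 1) * (n + 1).centralBinom) ^ 2 * (4 * (n + 1)) := by rw [h]
        _ = _ := by ring
    exact Nat.le_of_mul_le_mul_left h3 (by positivity)

theorem choose_identity {m i j : ℕ} (hi : i ≤ m) (hj : j ≤ m) :
    m.choose i * m.choose j * m.centralBinom =
      (2 * m).choose (i + j) * (i + j).choose i * (2 * m - i - j).choose (m - j) := by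
  rw [Nat.centralBinom_eq_two_mul_choose]
  have h1 : (2 * m).choose m * m.choose i = (2 * m).choose i * (2 * m - i).choose (m - i) :=
    Nat.choose_mul hi
  have h2 : (2 * m - i).choose (m - i) = (2 * m - i).choose m := by
    apply Nat.choose_symm_of_eq_add; omega
  have h3 : (2 * m - i).choose m * m.choose j = (2 * m - i).choose j * (2 * m - i - j).choose (m - j) :=
    Nat.choose_mul hj
  have h4 : (2 * m).choose (i + j) * (i + j).choose i = (2 * m).choose i * (2 * m - i).choose (i + j - i) :=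
    Nat.choose_mul (Nat.le_add_right i j)
  rw [Nat.add_sub_cancel_left] at h4
  calc m.choose i * m.choose j * (2 * m).choose m
      = ((2 * m).choose m * m.choose i) * m.choose j := by ring
    _ = ((2 * m).choose i * (2 * m - i).choose m) * m.choose j := by rw [h1, h2]
    _ = (2 * m).choose i * ((2 * m - i).choose m * m.choose j) := by ring
    _ = (2 * m).choose i * ((2 * m - i).choose j * (2 * m - i - j).choose (m - j)) := by rw [h3]
    _ = ((2 * m).choose i * (2 * m - i).choose j) * (2 * m - i - j).choose (m - j) := by ring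
    _ = _ := by rw [h4]

/-- hypergeometric weights are at most `2/√(D+1)` -/
theorem hyper {m i j : ℕ} (hm : 1 ≤ m) (hi : i ≤ m) (hj : j ≤ m) (hij : m ≤ i + j + 1) :
    (m.choose i * m.choose j) ^ 2 * (2 * m - i - j + 1) ≤ 4 * ((2 * m).choose (i + j)) ^ 2 := by
  have e := choose_identity hi hj
  set X := m.choose i * m.choose j with hX
  set cb := m.centralBinom with hcb
  set Y := (2 * m).choose (i + j) with hY
  set P := (i + j).choose i
  set Q := (2 * m - i - j).choose (m - j)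
  set Dd := 2 * m - i - j with hD
  have hP : P ^ 2 * (i + j + 1) ≤ 4 ^ (i + j) := choose_sq _ _
  have hQ : Q ^ 2 * (Dd + 1) ≤ 4 ^ Dd := choose_sq _ _
  have hc : 16 ^ m ≤ cb ^ 2 * (4 * m) := cb_lower m hm
  have hcpos : 0 < cb := Nat.centralBinom_pos m
  have hpow : 4 ^ (i + j) * 4 ^ Dd = 16 ^ m := by
    rw [← pow_add, show i + j + Dd = 2 * m by omega, pow_mul]; norm_num
  have h1 : cb ^ 2 * ((X ^ 2 * (Dd + 1)) * (i + j + 1)) ≤ cb ^ 2 * ((4 * m) * Y ^ 2) := by
    calc cb ^ 2 * ((X ^ 2 * (Dd + 1)) * (i + j + 1)) = (X * cb) ^ 2 * (Dd + 1) * (i + j + 1) := by ring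
      _ = (Y * P * Q) ^ 2 * (Dd + 1) * (i + j + 1) := by rw [e]
      _ = Y ^ 2 * ((P ^ 2 * (i + j + 1)) * (Q ^ 2 * (Dd + 1))) := by ring
      _ ≤ Y ^ 2 * (4 ^ (i + j) * 4 ^ Dd) := Nat.mul_le_mul_left _ (Nat.mul_le_mul hP hQ)
      _ = Y ^ 2 * 16 ^ m := by rw [hpow]
      _ ≤ Y ^ 2 * (cb ^ 2 * (4 * m)) := Nat.mul_le_mul_left _ hc
      _ = cb ^ 2 * ((4 * m) * Y ^ 2) := by ring
  have h2 : (X ^ 2 * (Dd + 1)) * (i + j + 1) ≤ (4 * m) * Y ^ 2 :=
    Nat.le_of_mul_le_mul_left h1 (by positivity)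
  have h3 : m * (X ^ 2 * (Dd + 1)) ≤ m * (4 * Y ^ 2) := by
    calc m * (X ^ 2 * (Dd + 1)) ≤ (i + j + 1) * (X ^ 2 * (Dd + 1)) := Nat.mul_le_mul_right _ hij
      _ = (X ^ 2 * (Dd + 1)) * (i + j + 1) := by ring
      _ ≤ (4 * m) * Y ^ 2 := h2
      _ = m * (4 * Y ^ 2) := by ring
  exact Nat.le_of_mul_le_mul_left h3 (by omega)

theorem bn_mul_le {κ : ℝ} (h0 : 0 ≤ κ) (h1 : κ ≤ 1 / 2) {m i j : ℕ} (hm : 1 ≤ m) (hi : i ≤ m)
    (hj : j ≤ m) (hij : m ≤ i + j + 1) :
    bn κ m i * bn κ m j * Real.sqrt (2 * m - i - j + 1) ≤ 4 * bn κ (2 * m + 1) (i + j + 1) := by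
  have h := hyper hm hi hj hij
  have hκ : 0 ≤ 1 - κ := by linarith
  have hDr : ((2 * m - i - j + 1 : ℕ) : ℝ) = 2 * (m:ℝ) - i - j + 1 := by
    have : i + j ≤ 2 * m := by omega
    rw [Nat.cast_add, Nat.sub_sub, Nat.cast_sub this]; push_cast; ring
  have hR : ((m.choose i : ℝ) * m.choose j) ^ 2 * (2 * (m:ℝ) - i - j + 1) ≤
      4 * ((2 * m).choose (i + j) : ℝ) ^ 2 := by
    rw [← hDr]; exact_mod_cast h
  have hDnn : 0 ≤ 2 * (m:ℝ) - i - j + 1 := by rw [← hDr]; positivity
  have hs : (m.choose i : ℝ) * m.choose j * Real.sqrt (2 * m - i - j + 1) ≤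
      2 * ((2 * m).choose (i + j) : ℝ) := by
    refine le_of_abs_le (abs_le_of_sq_le_sq ?_ (by positivity))
    rw [mul_pow, Real.sq_sqrt hDnn]
    calc _ ≤ 4 * ((2 * m).choose (i + j) : ℝ) ^ 2 := hR
      _ = _ := by ring
  have hch : ((2 * m).choose (i + j) : ℝ) ≤ ((2 * m + 1).choose (i + j + 1) : ℝ) := by
    rw [Nat.choose_succ_succ]; push_cast
    have : (0:ℝ) ≤ ((2 * m).choose (i + j + 1) : ℝ) := by positivity
    linarith
  have hpowκ : κ ^ (m - i) * κ ^ (m - j) = κ ^ (2 * m + 1 - (i + j + 1)) := by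
    rw [← pow_add]; congr 1; omega
  have hpow1 : (1 - κ) ^ i * (1 - κ) ^ j * (1 / 2) ≤ (1 - κ) ^ (i + j + 1) := by
    rw [pow_succ, pow_add]
    apply mul_le_mul_of_nonneg_left _ (by positivity)
    linarith
  calc bn κ m i * bn κ m j * Real.sqrt (2 * m - i - j + 1)
      = ((m.choose i : ℝ) * m.choose j * Real.sqrt (2 * m - i - j + 1)) *
        ((1 - κ) ^ i * (1 - κ) ^ j) * (κ ^ (m - i) * κ ^ (m - j)) := by unfold bn; ring
    _ ≤ (2 * ((2 * m + 1).choose (i + j + 1) : ℝ)) * ((1 - κ) ^ i * (1 - κ) ^ j) *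
        (κ ^ (m - i) * κ ^ (m - j)) := by
        have : (m.choose i : ℝ) * m.choose j * Real.sqrt (2 * m - i - j + 1) ≤
          2 * ((2 * m + 1).choose (i + j + 1) : ℝ) := le_trans hs (by linarith)
        gcongr
    _ = (4 * ((2 * m + 1).choose (i + j + 1) : ℝ)) * ((1 - κ) ^ i * (1 - κ) ^ j * (1 / 2)) *
        (κ ^ (m - i) * κ ^ (m - j)) := by ring
    _ ≤ (4 * ((2 * m + 1).choose (i + j + 1) : ℝ)) * ((1 - κ) ^ (i + j + 1)) *
        (κ ^ (m - i) * κ ^ (m - j)) := by gcongr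
    _ = 4 * bn κ (2 * m + 1) (i + j + 1) := by rw [hpowκ]; unfold bn; ring

/-! ### Chernoff tails -/

theorem mgf (κ l : ℝ) (m : ℕ) :
    ∑ i ∈ range (m + 1), bn κ m i * Real.exp (l * ((m : ℝ) - i)) =
      (1 - κ + κ * Real.exp l) ^ m := by
  rw [add_pow]
  refine Finset.sum_congr rfl (fun i hi => ?_)
  have hi' : i ≤ m := Nat.lt_succ_iff.mp (Finset.mem_range.mp hi)
  have : Real.exp (l * ((m : ℝ) - i)) = Real.exp l ^ (m - i) := by
    rw [← Real.exp_nat_mul, Nat.cast_sub hi']; congr 1; ring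
  rw [this, mul_pow]; unfold bn; ring

theorem mgf_le {κ : ℝ} (h0 : 0 ≤ κ) (h1 : κ ≤ 1) {l : ℝ} (hl : |l| ≤ 1) (m : ℕ) :
    ∑ i ∈ range (m + 1), bn κ m i * Real.exp (l * ((m : ℝ) - i - κ * m)) ≤
      Real.exp (κ * m * l ^ 2) := by
  have e : ∀ i : ℕ, bn κ m i * Real.exp (l * ((m : ℝ) - i - κ * m)) =
      (bn κ m i * Real.exp (l * ((m : ℝ) - i))) * Real.exp (-(l * (κ * m))) := by
    intro i
    rw [mul_assoc, ← Real.exp_add]; congr 2; ring
  simp_rw [e]
  rw [← Finset.sum_mul, mgf]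
  have hx : Real.exp l ≤ 1 + l + l ^ 2 := by
    have := Real.abs_exp_sub_one_sub_id_le hl
    linarith [le_abs_self (Real.exp l - 1 - l)]
  have h2 : 1 - κ + κ * Real.exp l ≤ Real.exp (κ * (l + l ^ 2)) := by
    have := Real.add_one_le_exp (κ * (l + l ^ 2))
    nlinarith [mul_le_mul_of_nonneg_left hx h0]
  have h3 : 0 ≤ 1 - κ + κ * Real.exp l := by
    have := Real.exp_pos l
    have : 0 ≤ κ * Real.exp l := by positivity
    linarith
  calc (1 - κ + κ * Real.exp l) ^ m * Real.exp (-(l * (κ * m)))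
      ≤ (Real.exp (κ * (l + l ^ 2))) ^ m * Real.exp (-(l * (κ * m))) := by
        gcongr
    _ = Real.exp (κ * m * l ^ 2) := by
        rw [← Real.exp_nat_mul, ← Real.exp_add]; congr 1; ring

theorem tail {κ : ℝ} (h0 : 0 < κ) (h1 : κ ≤ 1) {m : ℕ} (hm : 1 ≤ m) {w : ℝ} (hw : 0 ≤ w)
    (hw2 : w ≤ 2 * (κ * m)) :
    ∑ i ∈ (range (m + 1)).filter (fun i : ℕ => w < |(m : ℝ) - i - κ * m|), bn κ m i ≤
      2 * Real.exp (-(w ^ 2 / (4 * (κ * m)))) := by
  have hκm : 0 < κ * m := by positivity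
  set l : ℝ := w / (2 * (κ * m)) with hl
  have hl0 : 0 ≤ l := by positivity
  have hl1 : l ≤ 1 := by rw [hl, div_le_one (by positivity)]; exact hw2
  have hexp : κ * m * l ^ 2 - l * w = -(w ^ 2 / (4 * (κ * m))) := by
    rw [hl]; field_simp; ring
  have a1 := mgf_le h0.le h1 (l := l) (by rw [abs_of_nonneg hl0]; exact hl1) m
  have a2 := mgf_le h0.le h1 (l := -l) (by rw [abs_neg, abs_of_nonneg hl0]; exact hl1) m
  have key : ∀ i : ℕ, w < |(m : ℝ) - i - κ * m| →
      1 ≤ Real.exp (-(l * w)) * (Real.exp (l * ((m : ℝ) - i - κ * m)) +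
        Real.exp (-l * ((m : ℝ) - i - κ * m))) := by
    intro i hi
    rw [mul_add, ← Real.exp_add, ← Real.exp_add]
    rcases lt_abs.mp hi with h | h
    · have : (1:ℝ) ≤ Real.exp (-(l * w) + l * ((m : ℝ) - i - κ * m)) := by
        apply Real.one_le_exp
        nlinarith [mul_le_mul_of_nonneg_left h.le hl0]
      have := Real.exp_pos (-(l * w) + -l * ((m : ℝ) - i - κ * m))
      linarith
    · have : (1:ℝ) ≤ Real.exp (-(l * w) + -l * ((m : ℝ) - i - κ * m)) := by
        apply Real.one_le_exp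
        nlinarith [mul_le_mul_of_nonneg_left h.le hl0]
      have := Real.exp_pos (-(l * w) + l * ((m : ℝ) - i - κ * m))
      linarith
  calc ∑ i ∈ (range (m + 1)).filter (fun i : ℕ => w < |(m : ℝ) - i - κ * m|), bn κ m i
      ≤ ∑ i ∈ (range (m + 1)).filter (fun i : ℕ => w < |(m : ℝ) - i - κ * m|), bn κ m i *
          (Real.exp (-(l * w)) * (Real.exp (l * ((m : ℝ) - i - κ * m)) +
        Real.exp (-l * ((m : ℝ) - i - κ * m)))) := by
        apply Finset.sum_le_sum
        intro i hi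
        have := key i (Finset.mem_filter.mp hi).2
        nlinarith [mul_le_mul_of_nonneg_left this (bn_nonneg h0.le h1 m i)]
    _ ≤ ∑ i ∈ range (m + 1), bn κ m i *
          (Real.exp (-(l * w)) * (Real.exp (l * ((m : ℝ) - i - κ * m)) +
        Real.exp (-l * ((m : ℝ) - i - κ * m)))) := by
        apply Finset.sum_le_sum_of_subset_of_nonneg (Finset.filter_subset _ _)
        intro i _ _
        have := bn_nonneg h0.le h1 m i
        positivity
    _ = Real.exp (-(l * w)) * (∑ i ∈ range (m + 1), bn κ m i * Real.exp (l * ((m : ℝ) - i - κ * m)) +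
          ∑ i ∈ range (m + 1), bn κ m i * Real.exp (-l * ((m : ℝ) - i - κ * m))) := by
        rw [← Finset.sum_add_distrib, Finset.mul_sum]
        exact Finset.sum_congr rfl (fun i _ => by ring)
    _ ≤ Real.exp (-(l * w)) * (Real.exp (κ * m * l ^ 2) + Real.exp (κ * m * (-l) ^ 2)) := by
        gcongr
    _ = 2 * Real.exp (-(w ^ 2 / (4 * (κ * m)))) := by
        rw [neg_sq, ← hexp, ← two_mul, mul_left_comm, ← Real.exp_add]
        congr 2; ring

end

end Crest.Agent.R300LB.BaseDom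
end

-- ▼ part R300/LBBaseDom
section

/-!
# Row 300, lower bounds, base pair (piece L9)

`x = (01)^m 0 (01)^(m+1)`, `y = (01)^(m+1) 0 (01)^m`, `a = D q x`; a probability measure `b`
super-exponentially close to `D q y` with `|a-b| ≤ u a` and `‖a-b‖²_a ≤ V`.
-/

set_option autoImplicit false

namespace Crest.Agent.R300LB.BaseDom

open Finset

noncomputable section

/-! ### first-mark orthogonality (coefficient version) -/

theorem orth {G : Type*} [Monoid G] {a Δ : MA G} (ha : Prob a) {V : ℝ} (hV : 0 ≤ V)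
    (hΔ : mass Δ = 0) (hD : Dom V a Δ) (n : ℕ) (c : ℕ → ℝ) :
    Dom (V * ∑ i ∈ range n, c i ^ 2) (a ^ n) (∑ i ∈ range n, c i • (a ^ i * Δ * a ^ (n - 1 - i))) ∧
    mass (∑ i ∈ range n, c i • (a ^ i * Δ * a ^ (n - 1 - i))) = 0 := by
  refine ⟨?_, ?_⟩
  swap
  · unfold mass
    rw [ev_sum]
    refine Finset.sum_eq_zero (fun i _ => ?_)
    rw [ev_smul]
    have : ev (a ^ i * Δ * a ^ (n - 1 - i)) (fun _ => 1) = mass (a ^ i * Δ * a ^ (n - 1 - i)) := rfl
    rw [this, mass_mul, mass_mul, hΔ]; ring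
  · induction n generalizing c with
    | zero => intro f; simp [ev_zero]
    | succ n ih =>
      intro f
      set S' : ℝ := ∑ i ∈ range n, c (i + 1) ^ 2 with hS'
      have hS'0 : 0 ≤ S' := Finset.sum_nonneg (fun i _ => sq_nonneg _)
      set X : MA G := ∑ i ∈ range n, c (i + 1) • (a ^ i * Δ * a ^ (n - 1 - i)) with hX
      have hXm : mass X = 0 := by
        unfold mass
        rw [hX, ev_sum]
        refine Finset.sum_eq_zero (fun i _ => ?_)
        rw [ev_smul]
        have : ev (a ^ i * Δ * a ^ (n - 1 - i)) (fun _ => 1) = mass (a ^ i * Δ * a ^ (n - 1 - i)) := rfl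
        rw [this, mass_mul, mass_mul, hΔ]; ring
      have hdec : ∑ i ∈ range (n + 1), c i • (a ^ i * Δ * a ^ (n + 1 - 1 - i)) =
          a * X + c 0 • (Δ * a ^ n) := by
        rw [Finset.sum_range_succ', hX, Finset.mul_sum]
        congr 1
        · refine Finset.sum_congr rfl (fun i hi => ?_)
          rw [mul_smul_comm, ← mul_assoc, ← mul_assoc, ← pow_succ']
          congr 3
          omega
        · simp
      rw [hdec, Finset.sum_range_succ', ← hS']
      have hX2 : Dom (V * S') (a ^ n) X := ih (fun i => c (i + 1))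
      set fb : G → ℝ := fun u => ev (a ^ n) (fun v => f (u * v)) with hfb
      have hpn : Prob (a ^ n) := ha.pow n
      -- value of the first part
      have eA : ev (c 0 • (Δ * a ^ n)) f = c 0 * ev Δ fb := by
        rw [ev_smul, ev_mul]
      have eB : ev (a * X) f = ev a (fun u => ev X (fun v => f (u * v))) := ev_mul _ _ _
      have eT : ev (a ^ (n + 1)) (fun w => f w ^ 2) =
          ev a (fun u => ev (a ^ n) (fun v => f (u * v) ^ 2)) := by
        rw [pow_succ', ev_mul]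
      set P : ℝ := ev a (fun u => fb u ^ 2) with hP
      set T : ℝ := ev a (fun u => ev (a ^ n) (fun v => f (u * v) ^ 2)) with hT
      have hP0 : 0 ≤ P := ha.pos _ (fun w => sq_nonneg _)
      have hA : (ev Δ fb) ^ 2 ≤ V * P := hD fb
      have hvar : ∀ u, (ev X (fun v => f (u * v))) ^ 2 ≤
          V * S' * (ev (a ^ n) (fun v => f (u * v) ^ 2) - fb u ^ 2) := by
        intro u
        have e1 : ev X (fun v => f (u * v)) = ev X (fun v => f (u * v) - fb u) := by
          rw [ev_sub_fun]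
          have : ev X (fun _ => fb u) = 0 := by
            have h1 : (fun _ : G => fb u) = fun w : G => fb u * 1 := by funext w; ring
            rw [h1, ev_mul_fun]
            unfold mass at hXm
            rw [hXm, mul_zero]
          rw [this, sub_zero]
        have e2 : ev (a ^ n) (fun v => (f (u * v) - fb u) ^ 2) =
            ev (a ^ n) (fun v => f (u * v) ^ 2) - fb u ^ 2 := by
          have e3 : ∀ v, (f (u * v) - fb u) ^ 2 =
            f (u * v) ^ 2 - (2 * fb u * f (u * v) - fb u ^ 2) := by intro v; ring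
          rw [ev_congr _ e3, ev_sub_fun, ev_sub_fun, ev_mul_fun, ev_const hpn]
          have : ev (a ^ n) (fun v => f (u * v)) = fb u := rfl
          rw [this]; ring
        rw [e1]
        refine le_trans (hX2 _) ?_
        rw [e2]
      have hB : (ev (a * X) f) ^ 2 ≤ V * S' * (T - P) := by
        rw [eB]
        have h1 := ha.pos.cauchy (fun _ => 1) (fun u => ev X (fun v => f (u * v)))
        simp only [one_mul, one_pow] at h1
        rw [ev_const ha, one_mul] at h1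
        refine le_trans h1 ?_
        have h2 : ev a (fun u => (ev X (fun v => f (u * v))) ^ 2) ≤
            ev a (fun u => V * S' * (ev (a ^ n) (fun v => f (u * v) ^ 2) - fb u ^ 2)) :=
          ha.pos.mono hvar
        rw [ev_mul_fun, ev_sub_fun] at h2
        exact h2
      have hTP : 0 ≤ T - P := by
        have h2 : 0 ≤ ev a (fun u => (ev (a ^ n) (fun v => f (u * v) ^ 2) - fb u ^ 2)) := by
          apply ha.pos
          intro u
          have h3 := hpn.pos.cauchy (fun _ => 1) (fun v => f (u * v))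
          simp only [one_mul, one_pow] at h3
          rw [ev_const hpn, one_mul] at h3
          have : ev (a ^ n) (fun v => f (u * v)) = fb u := rfl
          rw [this] at h3
          linarith
        rw [ev_sub_fun] at h2
        exact h2
      rw [ev_add, eA, eT]
      set A := ev Δ fb
      set B := ev (a * X) f
      -- (B + c0 A)^2 ≤ V (S' + c0^2) ((T-P) + P)
      have hT' : T = (T - P) + P := by ring
      have goal : (B + c 0 * A) ^ 2 ≤ V * (S' + c 0 ^ 2) * ((T - P) + P) := by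
        have hAB : (c 0 * A * B) ^ 2 ≤ (c 0 ^ 2 * (V * P)) * (V * S' * (T - P)) := by
          have e : (c 0 * A * B) ^ 2 = (c 0 ^ 2 * A ^ 2) * B ^ 2 := by ring
          rw [e]
          apply mul_le_mul _ hB (sq_nonneg _) (by positivity)
          exact mul_le_mul_of_nonneg_left hA (sq_nonneg _)
        set p1 := V * (c 0 ^ 2 * (T - P)) with hp1
        set p2 := V * (S' * P) with hp2
        have hp10 : 0 ≤ p1 := by positivity
        have hp20 : 0 ≤ p2 := by positivity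
        have hprod : p1 * p2 = (c 0 ^ 2 * (V * P)) * (V * S' * (T - P)) := by
          simp only [hp1, hp2]; ring
        have h4 : (2 * (c 0 * A * B)) ^ 2 ≤ (p1 + p2) ^ 2 := by
          nlinarith [sq_nonneg (p1 - p2)]
        have h5 := (abs_le_of_sq_le_sq' h4 (by positivity)).2
        have h6 : c 0 ^ 2 * A ^ 2 ≤ c 0 ^ 2 * (V * P) := mul_le_mul_of_nonneg_left hA (sq_nonneg _)
        nlinarith
      rw [← hT'] at goal
      exact goal

/-- finite mixture rule -/
theorem mixsum {G ι : Type*} [Monoid G] (s : Finset ι) {V w : ι → ℝ} {π ν : ι → MA G} {C : ℝ}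
    (h : ∀ i ∈ s, Dom (V i) (π i) (ν i)) (hw : ∀ i ∈ s, 0 < w i) (hV : ∀ i ∈ s, 0 ≤ V i)
    (hπ : ∀ i ∈ s, Pos (π i)) (hC : ∑ i ∈ s, V i / w i ≤ C) {ρ : MA G}
    (hρ : Le (∑ i ∈ s, w i • π i) ρ) : Dom C ρ (∑ i ∈ s, ν i) := by
  intro f
  rw [ev_sum]
  have hX : ∀ i ∈ s, 0 ≤ ev (π i) (fun u => f u ^ 2) := fun i hi => hπ i hi _ (fun w => sq_nonneg _)
  have h1 : ∀ i ∈ s, |ev (ν i) f| ≤
      Real.sqrt (V i / w i) * Real.sqrt (w i * ev (π i) (fun u => f u ^ 2)) := by
    intro i hi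
    rw [← Real.sqrt_mul (div_nonneg (hV i hi) (hw i hi).le)]
    apply Real.abs_le_sqrt
    refine le_trans (h i hi f) (le_of_eq ?_)
    have := (hw i hi).ne'
    field_simp
  have h2 : (∑ i ∈ s, ev (ν i) f) ^ 2 ≤
      (∑ i ∈ s, Real.sqrt (V i / w i) * Real.sqrt (w i * ev (π i) (fun u => f u ^ 2))) ^ 2 := by
    rw [← sq_abs]
    apply pow_le_pow_left₀ (abs_nonneg _)
    exact le_trans (Finset.abs_sum_le_sum_abs _ _) (Finset.sum_le_sum h1)
  refine le_trans h2 (le_trans (Finset.sum_mul_sq_le_sq_mul_sq _ _ _) ?_)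
  have e1 : ∑ i ∈ s, Real.sqrt (V i / w i) ^ 2 = ∑ i ∈ s, V i / w i :=
    Finset.sum_congr rfl (fun i hi => Real.sq_sqrt (div_nonneg (hV i hi) (hw i hi).le))
  have e2 : ∑ i ∈ s, Real.sqrt (w i * ev (π i) (fun u => f u ^ 2)) ^ 2 =
      ∑ i ∈ s, w i * ev (π i) (fun u => f u ^ 2) :=
    Finset.sum_congr rfl (fun i hi => Real.sq_sqrt (mul_nonneg (hw i hi).le (hX i hi)))
  rw [e1, e2]
  have e3 : ∑ i ∈ s, w i * ev (π i) (fun u => f u ^ 2) = ev (∑ i ∈ s, w i • π i) (fun u => f u ^ 2) := by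
    rw [ev_sum]; exact Finset.sum_congr rfl (fun i _ => by rw [ev_smul])
  rw [e3]
  have hsum0 : 0 ≤ ev (∑ i ∈ s, w i • π i) (fun u => f u ^ 2) := by
    rw [← e3]; exact Finset.sum_nonneg (fun i hi => mul_nonneg (hw i hi).le (hX i hi))
  have hC0 : 0 ≤ C := le_trans (Finset.sum_nonneg (fun i hi => div_nonneg (hV i hi) (hw i hi).le)) hC
  exact mul_le_mul hC (hρ.ev_le (fun w => sq_nonneg _)) hsum0 hC0

/-! ### diagonal regrouping -/

theorem sum_diag {M : Type*} [AddCommMonoid M] (n : ℕ) (F : ℕ → ℕ → M)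
    (hF : ∀ i j, n ≤ i ∨ n ≤ j → F i j = 0) :
    ∑ i ∈ range n, ∑ j ∈ range n, F i j =
      ∑ t ∈ range (2 * n), ∑ i ∈ range (t + 1), F i (t - i) := by
  classical
  rw [← Finset.sum_product' (range n) (range n) F]
  rw [← Finset.sum_fiberwise_of_maps_to (s := range n ×ˢ range n) (t := range (2 * n))
    (g := fun p : ℕ × ℕ => p.1 + p.2)]
  · refine Finset.sum_congr rfl (fun t _ => ?_)
    rw [← Finset.Nat.sum_antidiagonal_eq_sum_range_succ (fun i j => F i j) t]
    apply Finset.sum_subset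
    · intro p hp
      rw [Finset.mem_filter] at hp
      rw [Finset.HasAntidiagonal.mem_antidiagonal]; exact hp.2
    · intro p hp hnp
      rw [Finset.HasAntidiagonal.mem_antidiagonal] at hp
      apply hF
      by_contra hcon
      push Not at hcon
      apply hnp
      rw [Finset.mem_filter, Finset.mem_product, Finset.mem_range, Finset.mem_range]
      exact ⟨⟨hcon.1, hcon.2⟩, hp⟩
  · intro p hp
    rw [Finset.mem_product, Finset.mem_range, Finset.mem_range] at hp
    rw [Finset.mem_range]; omega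

/-! ### the block laws -/

def al : MA BW := MonoidAlgebra.single (FreeMonoid.of false) 1
def be : MA BW := MonoidAlgebra.single (FreeMonoid.of true) 1
def de : MA BW := MonoidAlgebra.single (FreeMonoid.of false * FreeMonoid.of true) 1

def gm (q : ℝ) : MA BW := (q / (1 + q)) • al + (q / (1 + q)) • be + ((1 - q) / (1 + q)) • de

def g (q : ℝ) : MA BW := (q ^ 2) • (1 : MA BW) + (1 - q ^ 2) • gm q

theorem al_mul_be : al * be = de := by
  unfold al be de
  rw [MonoidAlgebra.single_mul_single]; simp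

theorem prob_al : Prob al := by
  refine ⟨fun f hf => ?_, ?_⟩
  · unfold al; rw [ev_single]; simpa using hf _
  · unfold mass al; rw [ev_single]; simp

theorem ev_gm (q : ℝ) (f : BW → ℝ) : ev (gm q) f = q / (1 + q) * f (FreeMonoid.of false) +
    q / (1 + q) * f (FreeMonoid.of true) +
    (1 - q) / (1 + q) * f (FreeMonoid.of false * FreeMonoid.of true) := by
  unfold gm al be de
  rw [ev_add, ev_add, ev_smul, ev_smul, ev_smul, ev_single, ev_single, ev_single]; ring

theorem prob_gm {q : ℝ} (h0 : 0 < q) (h1 : q ≤ 1) : Prob (gm q) := by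
  refine ⟨fun f hf => ?_, ?_⟩
  · rw [ev_gm]
    have := hf (FreeMonoid.of false)
    have := hf (FreeMonoid.of true)
    have := hf (FreeMonoid.of false * FreeMonoid.of true)
    have h2 : 0 ≤ 1 - q := by linarith
    positivity
  · unfold mass; rw [ev_gm]
    field_simp; ring

theorem g_eq (q : ℝ) (h0 : 0 < q) : D q [false, true] = g q := by
  unfold D g gm letter
  simp only [List.map_cons, List.map_nil, List.prod_cons, List.prod_nil, mul_one]
  have e1 : (MonoidAlgebra.single (FreeMonoid.of false) 1 : MA BW) = al := rfl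
  have e2 : (MonoidAlgebra.single (FreeMonoid.of true) 1 : MA BW) = be := rfl
  rw [e1, e2, add_mul, mul_add, mul_add, smul_mul_smul_comm, smul_mul_smul_comm,
    smul_mul_smul_comm, smul_mul_smul_comm, one_mul, one_mul, mul_one, al_mul_be,
    smul_add, smul_add, smul_smul, smul_smul, smul_smul]
  have hq : 1 + q ≠ 0 := by positivity
  have c1 : (1 - q ^ 2) * (q / (1 + q)) = q * (1 - q) := by field_simp; ring
  have c2 : (1 - q ^ 2) * ((1 - q) / (1 + q)) = (1 - q) * (1 - q) := by field_simp; ring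
  rw [c1, c2, show q * q = q ^ 2 by ring, show (1 - q) * q = q * (1 - q) by ring]
  abel

theorem D_append (q : ℝ) (u v : List Bool) : D q (u ++ v) = D q u * D q v := by
  unfold D; rw [List.map_append, List.prod_append]

def blk (m : ℕ) : List Bool := (List.replicate m [false, true]).flatten

theorem D_blk (q : ℝ) (h0 : 0 < q) (m : ℕ) : D q (blk m) = g q ^ m := by
  induction m with
  | zero => simp [blk, D]
  | succ m ih =>
    have : blk (m + 1) = [false, true] ++ blk m := by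
      unfold blk; rw [List.replicate_succ, List.flatten_cons]
    rw [this, D_append, ih, g_eq q h0, pow_succ']

def xw (m : ℕ) : List Bool := blk m ++ ([false] ++ blk (m + 1))
def yw (m : ℕ) : List Bool := blk (m + 1) ++ ([false] ++ blk m)

theorem blk_length (m : ℕ) : (blk m).length = 2 * m := by
  induction m with
  | zero => simp [blk]
  | succ m ih =>
    have : blk (m + 1) = [false, true] ++ blk m := by
      unfold blk; rw [List.replicate_succ, List.flatten_cons]
    rw [this, List.length_append, ih]; simp; ring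

theorem xw_length (m : ℕ) : (xw m).length = 4 * m + 3 := by
  unfold xw; rw [List.length_append, List.length_append, blk_length, blk_length]; simp; ring

theorem yw_length (m : ℕ) : (yw m).length = 4 * m + 3 := by
  unfold yw; rw [List.length_append, List.length_append, blk_length, blk_length]; simp; ring

theorem xw_ne (m : ℕ) : xw m ≠ yw m := by
  intro h
  have e1 : blk (m + 1) = blk m ++ [false, true] := by
    unfold blk; rw [List.replicate_succ', List.flatten_append]; simp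
  have e2 : blk (m + 1) = [false, true] ++ blk m := by
    unfold blk; rw [List.replicate_succ, List.flatten_cons]
  have h' : blk m ++ ([false] ++ ([false, true] ++ blk m)) =
      blk m ++ ([false, true] ++ ([false] ++ blk m)) := by
    have : xw m = yw m := h
    unfold xw yw at this
    rw [← e2, ← List.append_assoc (blk m) [false, true], ← e1]
    exact this
  have h2 := List.append_cancel_left h'
  simp at h2

def c0 (q : ℝ) : MA BW := q • (1 : MA BW) + (1 - q) • al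

theorem D_xw (q : ℝ) (h0 : 0 < q) (m : ℕ) : D q (xw m) = g q ^ m * c0 q * g q ^ (m + 1) := by
  unfold xw
  rw [D_append, D_append, D_blk q h0, D_blk q h0, mul_assoc]
  congr 2
  unfold D letter c0 al; simp

theorem D_yw (q : ℝ) (h0 : 0 < q) (m : ℕ) : D q (yw m) = g q ^ (m + 1) * c0 q * g q ^ m := by
  unfold yw
  rw [D_append, D_append, D_blk q h0, D_blk q h0, mul_assoc]
  congr 2
  unfold D letter c0 al; simp

/-! ### expansion in the number of nonempty blocks -/

theorem g_pow (q : ℝ) (m n : ℕ) (hn : m < n) :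
    g q ^ m = ∑ i ∈ range n, bn (q ^ 2) m i • gm q ^ i := by
  have h1 : g q ^ m = ∑ i ∈ range (m + 1), bn (q ^ 2) m i • gm q ^ i := by
    unfold g
    rw [add_comm]
    have hc : Commute ((1 - q ^ 2) • gm q) ((q ^ 2) • (1 : MA BW)) :=
      (Commute.one_right _).smul_right _
    rw [hc.add_pow]
    refine Finset.sum_congr rfl (fun i _ => ?_)
    rw [smul_pow, smul_pow, one_pow, smul_mul_smul_comm, mul_one]
    rw [← nsmul_eq_mul', ← Nat.cast_smul_eq_nsmul ℝ, smul_smul]
    congr 1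
    unfold bn; ring
  rw [h1]
  apply Finset.sum_subset
  · intro i hi
    rw [Finset.mem_range] at hi ⊢
    omega
  · intro i _ hi
    rw [Finset.mem_range] at hi
    rw [bn_of_lt (by omega), zero_smul]

/-- `S q n c = ∑_{i,j<n} c i j γ^i α γ^j` -/
def S (q : ℝ) (n : ℕ) (c : ℕ → ℕ → ℝ) : MA BW :=
  ∑ i ∈ range n, ∑ j ∈ range n, c i j • (gm q ^ i * al * gm q ^ j)

theorem ev_S (q : ℝ) (n : ℕ) (c : ℕ → ℕ → ℝ) (f : BW → ℝ) :
    ev (S q n c) f = ∑ i ∈ range n, ∑ j ∈ range n, c i j * ev (gm q ^ i * al * gm q ^ j) f := by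
  unfold S
  rw [ev_sum]
  refine Finset.sum_congr rfl (fun i _ => ?_)
  rw [ev_sum]
  exact Finset.sum_congr rfl (fun j _ => by rw [ev_smul])

theorem mul_al_mul (q : ℝ) (m k n : ℕ) (hm : m < n) (hk : k < n) :
    g q ^ m * al * g q ^ k = S q n (fun i j => bn (q ^ 2) m i * bn (q ^ 2) k j) := by
  rw [g_pow q m n hm, g_pow q k n hk, Finset.sum_mul, Finset.sum_mul]
  unfold S
  refine Finset.sum_congr rfl (fun i _ => ?_)
  rw [Finset.mul_sum]
  refine Finset.sum_congr rfl (fun j _ => ?_)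
  rw [smul_mul_assoc, smul_mul_smul_comm]

/-! ### the signed coefficients -/

/-- coefficients of `D x - D y` -/
def lam (κ : ℝ) (m i j : ℕ) : ℝ := bn κ m i * bn κ (m + 1) j - bn κ (m + 1) i * bn κ m j

/-- typical number of nonempty blocks -/
def typ (κ : ℝ) (m : ℕ) (w : ℝ) (i : ℕ) : Prop := i ≤ m ∧ |(m : ℝ) - i - κ * m| ≤ w

open Classical in
def lamI (κ : ℝ) (m : ℕ) (w : ℝ) (i j : ℕ) : ℝ :=
  if typ κ m w i ∧ typ κ m w j then lam κ m i j else 0

theorem lam_anti (κ : ℝ) (m i j : ℕ) : lam κ m j i = - lam κ m i j := by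
  unfold lam; ring

theorem lamI_anti (κ : ℝ) (m : ℕ) (w : ℝ) (i j : ℕ) : lamI κ m w j i = - lamI κ m w i j := by
  unfold lamI
  by_cases h : typ κ m w i ∧ typ κ m w j
  · rw [if_pos h, if_pos ⟨h.2, h.1⟩, lam_anti]
  · rw [if_neg h, if_neg (fun h' => h ⟨h'.2, h'.1⟩), neg_zero]

theorem lam_mul (κ : ℝ) (m i j : ℕ) : lam κ m i j * ((m : ℝ) + 1 - i) =
    bn κ m i * bn κ (m + 1) j * ((j : ℝ) - i) := by
  have hi := bn_succ κ m i
  have hj := bn_succ κ m j
  unfold lam
  calc (bn κ m i * bn κ (m + 1) j - bn κ (m + 1) i * bn κ m j) * ((m : ℝ) + 1 - i)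
      = bn κ m i * bn κ (m + 1) j * ((m : ℝ) + 1 - i) -
        (bn κ (m + 1) i * ((m : ℝ) + 1 - i)) * bn κ m j := by ring
    _ = bn κ m i * bn κ (m + 1) j * ((m : ℝ) + 1 - i) -
        bn κ m i * (bn κ m j * (κ * (m + 1))) := by rw [hi]; ring
    _ = _ := by rw [← hj]; ring

theorem lam_mul2 (κ : ℝ) (m i j : ℕ) : lam κ m i j * (((m : ℝ) + 1 - i) * ((m : ℝ) + 1 - j)) =
    bn κ m i * bn κ m j * (κ * (m + 1)) * ((j : ℝ) - i) := by
  have hj := bn_succ κ m j
  calc lam κ m i j * (((m : ℝ) + 1 - i) * ((m : ℝ) + 1 - j))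
      = (lam κ m i j * ((m : ℝ) + 1 - i)) * ((m : ℝ) + 1 - j) := by ring
    _ = bn κ m i * (bn κ (m + 1) j * ((m : ℝ) + 1 - j)) * ((j : ℝ) - i) := by rw [lam_mul]; ring
    _ = _ := by rw [hj]; ring

theorem typ_ge {κ : ℝ} {m : ℕ} {w : ℝ} (hw : w ≤ κ * m / 2) {i : ℕ} (h : typ κ m w i) :
    κ * m / 2 ≤ (m : ℝ) - i := by
  have := (abs_le.mp h.2).1
  linarith

theorem typ_sub {κ : ℝ} {m : ℕ} {w : ℝ} {i j : ℕ} (hi : typ κ m w i) (hj : typ κ m w j) :
    |(j : ℝ) - i| ≤ 2 * w := by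
  have h1 := abs_le.mp hi.2
  have h2 := abs_le.mp hj.2
  rw [abs_le]
  constructor <;> linarith [h1.1, h1.2, h2.1, h2.2]

theorem lam_le {κ : ℝ} (h0 : 0 < κ) (h1 : κ ≤ 1) {m : ℕ} (hm : 1 ≤ m) {w : ℝ}
    (hw : w ≤ κ * m / 2) {i j : ℕ} (hi : typ κ m w i) (hj : typ κ m w j) :
    |lam κ m i j| ≤ (4 * w / (κ * m)) * (bn κ m i * bn κ (m + 1) j) := by
  have hκm : 0 < κ * m := by positivity
  have hg : κ * m / 2 ≤ (m : ℝ) + 1 - i := by linarith [typ_ge hw hi]
  have hpos : 0 < (m : ℝ) + 1 - i := by linarith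
  have hB : 0 ≤ bn κ m i * bn κ (m + 1) j := mul_nonneg (bn_nonneg h0.le h1 _ _) (bn_nonneg h0.le h1 _ _)
  have h := lam_mul κ m i j
  have h2 : |lam κ m i j| * ((m : ℝ) + 1 - i) ≤ (bn κ m i * bn κ (m + 1) j) * (2 * w) := by
    calc |lam κ m i j| * ((m : ℝ) + 1 - i) = |lam κ m i j * ((m : ℝ) + 1 - i)| := by
          rw [abs_mul, abs_of_pos hpos]
      _ = (bn κ m i * bn κ (m + 1) j) * |(j : ℝ) - i| := by rw [h, abs_mul, abs_of_nonneg hB]
      _ ≤ _ := mul_le_mul_of_nonneg_left (typ_sub hi hj) hB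
  have h3 : |lam κ m i j| * (κ * m / 2) ≤ (bn κ m i * bn κ (m + 1) j) * (2 * w) :=
    le_trans (mul_le_mul_of_nonneg_left hg (abs_nonneg _)) h2
  rw [div_mul_eq_mul_div, le_div_iff₀ hκm]
  nlinarith

theorem lam_sq_le {κ : ℝ} (h0 : 0 < κ) (h1 : κ ≤ 1 / 2) {m : ℕ} (hm : 1 ≤ m) (hκ : κ ≤ 1 / 16) {w : ℝ}
    (hw : w ≤ κ * m / 2) {i j : ℕ} (hi : typ κ m w i) (hj : typ κ m w j) :
    (lam κ m i j) ^ 2 ≤ (256 / ((κ * m) ^ 2 * Real.sqrt (κ * m))) *
      (bn κ m i * bn κ m j * ((i : ℝ) - j) ^ 2) * bn κ (2 * m + 1) (i + j + 1) := by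
  have hκm : 0 < κ * m := by positivity
  have hgi : κ * m / 2 ≤ (m : ℝ) - i := typ_ge hw hi
  have hgj : κ * m / 2 ≤ (m : ℝ) - j := typ_ge hw hj
  have hmr : (1:ℝ) ≤ m := by exact_mod_cast hm
  have hBB : 0 ≤ bn κ m i * bn κ m j :=
    mul_nonneg (bn_nonneg h0.le (by linarith) _ _) (bn_nonneg h0.le (by linarith) _ _)
  have hij : m ≤ i + j + 1 := by
    have e1 := (abs_le.mp hi.2).2
    have e2 := (abs_le.mp hj.2).2
    have hw2 : w ≤ m / 16 := by
      have : κ * m ≤ m / 16 := by nlinarith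
      linarith
    have hk2 : κ * m ≤ m / 16 := by nlinarith
    have : (m : ℝ) ≤ (i : ℝ) + j + 1 := by linarith
    exact_mod_cast this
  have hb := bn_mul_le h0.le h1 hm hi.1 hj.1 hij
  set s := Real.sqrt (κ * m) with hs
  have hs0 : 0 < s := Real.sqrt_pos.mpr hκm
  have hsD : s ≤ Real.sqrt (2 * m - i - j + 1) := Real.sqrt_le_sqrt (by linarith)
  have hb2 : bn κ m i * bn κ m j * s ≤ 4 * bn κ (2 * m + 1) (i + j + 1) :=
    le_trans (mul_le_mul_of_nonneg_left hsD hBB) hb
  have h := lam_mul2 κ m i j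
  set P : ℝ := ((m : ℝ) + 1 - i) * ((m : ℝ) + 1 - j) with hP
  have hPge : (κ * m) ^ 2 / 4 ≤ P := by
    have e1 : κ * m / 2 ≤ (m : ℝ) + 1 - i := by linarith
    have e2 : κ * m / 2 ≤ (m : ℝ) + 1 - j := by linarith
    calc (κ * m) ^ 2 / 4 = (κ * m / 2) * (κ * m / 2) := by ring
      _ ≤ P := mul_le_mul e1 e2 (by positivity) (by linarith)
  set BB := bn κ m i * bn κ m j with hBBd
  set d2 : ℝ := ((i : ℝ) - j) ^ 2 with hd2
  have hd20 : 0 ≤ d2 := sq_nonneg _
  have h2 : (lam κ m i j) ^ 2 * P ^ 2 = BB ^ 2 * (κ * (m + 1)) ^ 2 * d2 := by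
    calc (lam κ m i j) ^ 2 * P ^ 2 = (lam κ m i j * P) ^ 2 := by ring
      _ = (BB * (κ * (m + 1)) * ((j : ℝ) - i)) ^ 2 := by rw [h]
      _ = _ := by rw [hd2]; ring
  have h3 : (lam κ m i j) ^ 2 * ((κ * m) ^ 2 / 4) ^ 2 ≤ BB ^ 2 * (2 * (κ * m)) ^ 2 * d2 := by
    have e1 : ((κ * m) ^ 2 / 4) ^ 2 ≤ P ^ 2 := pow_le_pow_left₀ (by positivity) hPge 2
    have e2 : (κ * ((m:ℝ) + 1)) ^ 2 ≤ (2 * (κ * m)) ^ 2 := by
      apply pow_le_pow_left₀ (by positivity)
      nlinarith
    calc (lam κ m i j) ^ 2 * ((κ * m) ^ 2 / 4) ^ 2 ≤ (lam κ m i j) ^ 2 * P ^ 2 :=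
          mul_le_mul_of_nonneg_left e1 (sq_nonneg _)
      _ = BB ^ 2 * (κ * (m + 1)) ^ 2 * d2 := h2
      _ ≤ _ := by gcongr
  have h4 : (lam κ m i j) ^ 2 * (κ * m) ^ 2 ≤ 64 * BB ^ 2 * d2 := by
    have hk : 0 < (κ * m) ^ 2 := by positivity
    have : (κ * m) ^ 2 * ((lam κ m i j) ^ 2 * (κ * m) ^ 2) ≤ (κ * m) ^ 2 * (64 * BB ^ 2 * d2) := by
      nlinarith
    exact le_of_mul_le_mul_left this hk
  have h5 : (lam κ m i j) ^ 2 * ((κ * m) ^ 2 * s) ≤ 256 * (BB * d2) * bn κ (2 * m + 1) (i + j + 1) := by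
    calc (lam κ m i j) ^ 2 * ((κ * m) ^ 2 * s) = ((lam κ m i j) ^ 2 * (κ * m) ^ 2) * s := by ring
      _ ≤ (64 * BB ^ 2 * d2) * s := mul_le_mul_of_nonneg_right h4 hs0.le
      _ = (64 * BB * d2) * (BB * s) := by ring
      _ ≤ (64 * BB * d2) * (4 * bn κ (2 * m + 1) (i + j + 1)) :=
          mul_le_mul_of_nonneg_left hb2 (by positivity)
      _ = _ := by ring
  have hden : 0 < (κ * m) ^ 2 * s := by positivity
  calc (lam κ m i j) ^ 2 ≤ 256 * (BB * d2) * bn κ (2 * m + 1) (i + j + 1) / ((κ * m) ^ 2 * s) := by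
        rw [le_div_iff₀ hden]; exact h5
    _ = _ := by ring

/-! ### the modified second measure -/

/-- `Δ = D x - b` -/
def Dl (q : ℝ) (m : ℕ) (w : ℝ) : MA BW := (1 - q) • S q (m + 2) (lamI (q ^ 2) m w)

theorem mass_term (q : ℝ) (h0 : 0 < q) (h1 : q ≤ 1) (i j : ℕ) :
    ev (gm q ^ i * al * gm q ^ j) (fun _ => 1) = 1 := by
  have : mass (gm q ^ i * al * gm q ^ j) = 1 :=
    ((((prob_gm h0 h1).pow i).mul prob_al).mul ((prob_gm h0 h1).pow j)).one
  exact this

theorem pos_term (q : ℝ) (h0 : 0 < q) (h1 : q ≤ 1) (i j : ℕ) :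
    Pos (gm q ^ i * al * gm q ^ j) :=
  ((((prob_gm h0 h1).pow i).mul prob_al).mul ((prob_gm h0 h1).pow j)).pos

theorem D_xw' (q : ℝ) (h0 : 0 < q) (m : ℕ) :
    D q (xw m) = q • g q ^ (2 * m + 1) +
      (1 - q) • S q (m + 2) (fun i j => bn (q ^ 2) m i * bn (q ^ 2) (m + 1) j) := by
  rw [D_xw q h0, ← mul_al_mul q m (m + 1) (m + 2) (by omega) (by omega)]
  unfold c0
  rw [mul_add, add_mul, mul_smul_comm, smul_mul_assoc, mul_one, ← pow_add, mul_smul_comm,
    smul_mul_assoc]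
  congr 3
  ring

theorem D_yw' (q : ℝ) (h0 : 0 < q) (m : ℕ) :
    D q (yw m) = q • g q ^ (2 * m + 1) +
      (1 - q) • S q (m + 2) (fun i j => bn (q ^ 2) (m + 1) i * bn (q ^ 2) m j) := by
  rw [D_yw q h0, ← mul_al_mul q (m + 1) m (m + 2) (by omega) (by omega)]
  unfold c0
  rw [mul_add, add_mul, mul_smul_comm, smul_mul_assoc, mul_one, ← pow_add, mul_smul_comm,
    smul_mul_assoc]
  congr 3
  ring

theorem mass_Dl (q : ℝ) (h0 : 0 < q) (h1 : q ≤ 1) (m : ℕ) (w : ℝ) : mass (Dl q m w) = 0 := by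
  unfold Dl
  rw [mass_smul]
  unfold mass
  rw [ev_S]
  simp_rw [mass_term q h0 h1, mul_one]
  have h : ∑ i ∈ range (m + 2), ∑ j ∈ range (m + 2), lamI (q ^ 2) m w i j =
      - ∑ i ∈ range (m + 2), ∑ j ∈ range (m + 2), lamI (q ^ 2) m w i j := by
    conv_lhs => rw [Finset.sum_comm]
    rw [← Finset.sum_neg_distrib]
    refine Finset.sum_congr rfl (fun i _ => ?_)
    rw [← Finset.sum_neg_distrib]
    exact Finset.sum_congr rfl (fun j _ => lamI_anti _ _ _ _ _)
  have : ∑ i ∈ range (m + 2), ∑ j ∈ range (m + 2), lamI (q ^ 2) m w i j = 0 := by linarith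
  rw [this, mul_zero]

theorem abs_lamI_le {κ : ℝ} (h0 : 0 < κ) (h1 : κ ≤ 1) {m : ℕ} (hm : 1 ≤ m) {w : ℝ} (hw0 : 0 ≤ w)
    (hw : w ≤ κ * m / 2) (i j : ℕ) :
    |lamI κ m w i j| ≤ (4 * w / (κ * m)) * (bn κ m i * bn κ (m + 1) j) := by
  unfold lamI
  by_cases h : typ κ m w i ∧ typ κ m w j
  · rw [if_pos h]; exact lam_le h0 h1 hm hw h.1 h.2
  · rw [if_neg h, abs_zero]
    have hB : 0 ≤ bn κ m i * bn κ (m + 1) j := mul_nonneg (bn_nonneg h0.le h1 _ _) (bn_nonneg h0.le h1 _ _)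
    have : 0 < κ * m := by positivity
    positivity

theorem lamI_le {κ : ℝ} (h0 : 0 < κ) (h1 : κ ≤ 1) {m : ℕ} {w : ℝ} (i j : ℕ) :
    lamI κ m w i j ≤ bn κ m i * bn κ (m + 1) j := by
  have hB : 0 ≤ bn κ m i * bn κ (m + 1) j := mul_nonneg (bn_nonneg h0.le h1 _ _) (bn_nonneg h0.le h1 _ _)
  have hB2 : 0 ≤ bn κ (m + 1) i * bn κ m j := mul_nonneg (bn_nonneg h0.le h1 _ _) (bn_nonneg h0.le h1 _ _)
  unfold lamI
  by_cases h : typ κ m w i ∧ typ κ m w j
  · rw [if_pos h]; unfold lam; linarith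
  · rw [if_neg h]; exact hB

theorem prob_b {q : ℝ} (h0 : 0 < q) (h1 : q ≤ 1) (m : ℕ) (w : ℝ) :
    Prob (D q (xw m) - Dl q m w) := by
  have hκ0 : 0 < q ^ 2 := by positivity
  have hκ1 : q ^ 2 ≤ 1 := by nlinarith
  have hg : Prob (g q) := by
    unfold g
    have hp := prob_gm h0 h1
    refine ⟨(Pos.one.smul hκ0.le).add (hp.pos.smul (by linarith)), ?_⟩
    rw [mass_add, mass_smul, mass_smul, mass_one, hp.one]; ring
  refine ⟨fun f hf => ?_, ?_⟩
  · rw [ev_sub, D_xw' q h0, ev_add, ev_smul, ev_smul, ev_S]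
    unfold Dl
    rw [ev_smul, ev_S]
    have e1 : 0 ≤ ev (g q ^ (2 * m + 1)) f := (hg.pow _).pos f hf
    have e2 : ∑ i ∈ range (m + 2), ∑ j ∈ range (m + 2),
        lamI (q ^ 2) m w i j * ev (gm q ^ i * al * gm q ^ j) f ≤
        ∑ i ∈ range (m + 2), ∑ j ∈ range (m + 2),
        bn (q ^ 2) m i * bn (q ^ 2) (m + 1) j * ev (gm q ^ i * al * gm q ^ j) f :=
      Finset.sum_le_sum (fun i _ => Finset.sum_le_sum (fun j _ =>
        mul_le_mul_of_nonneg_right (lamI_le hκ0 hκ1 i j) (pos_term q h0 h1 i j f hf)))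
    have hq1 : 0 ≤ 1 - q := by linarith
    nlinarith [mul_le_mul_of_nonneg_left e2 hq1, mul_nonneg h0.le e1]
  · rw [mass_sub, mass_Dl q h0 h1, D_xw q h0, mass_mul, mass_mul, mass_pow, mass_pow, hg.one]
    unfold c0
    rw [mass_add, mass_smul, mass_smul, mass_one, prob_al.one]; ring

theorem bd_Dl {q : ℝ} (h0 : 0 < q) (h1 : q ≤ 1) {m : ℕ} (hm : 1 ≤ m) {w : ℝ} (hw0 : 0 ≤ w)
    (hw : w ≤ q ^ 2 * m / 2) : Bd (4 * w / (q ^ 2 * m)) (D q (xw m)) (Dl q m w) := by
  have hκ0 : 0 < q ^ 2 := by positivity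
  have hκ1 : q ^ 2 ≤ 1 := by nlinarith
  have hg : Prob (g q) := by
    unfold g
    have hp := prob_gm h0 h1
    refine ⟨(Pos.one.smul hκ0.le).add (hp.pos.smul (by linarith)), ?_⟩
    rw [mass_add, mass_smul, mass_smul, mass_one, hp.one]; ring
  intro f hf
  have hq1 : 0 ≤ 1 - q := by linarith
  unfold Dl
  rw [D_xw' q h0, ev_add, ev_smul, ev_smul, ev_smul, ev_S, ev_S, abs_mul, abs_of_nonneg hq1]
  have e1 : 0 ≤ ev (g q ^ (2 * m + 1)) f := (hg.pow _).pos f hf
  set u := 4 * w / (q ^ 2 * m) with hu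
  have hu0 : 0 ≤ u := by positivity
  have e2 : |∑ i ∈ range (m + 2), ∑ j ∈ range (m + 2),
        lamI (q ^ 2) m w i j * ev (gm q ^ i * al * gm q ^ j) f| ≤
        u * ∑ i ∈ range (m + 2), ∑ j ∈ range (m + 2),
        bn (q ^ 2) m i * bn (q ^ 2) (m + 1) j * ev (gm q ^ i * al * gm q ^ j) f := by
    refine le_trans (Finset.abs_sum_le_sum_abs _ _) ?_
    rw [Finset.mul_sum]
    refine Finset.sum_le_sum (fun i _ => ?_)
    refine le_trans (Finset.abs_sum_le_sum_abs _ _) ?_
    rw [Finset.mul_sum]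
    refine Finset.sum_le_sum (fun j _ => ?_)
    have hE := pos_term q h0 h1 i j f hf
    rw [abs_mul, abs_of_nonneg hE, ← mul_assoc]
    exact mul_le_mul_of_nonneg_right (abs_lamI_le hκ0 hκ1 hm hw0 hw i j) hE
  have e3 := mul_le_mul_of_nonneg_left e2 hq1
  nlinarith [mul_nonneg hu0 (mul_nonneg h0.le e1)]

end

end Crest.Agent.R300LB.BaseDom
end

-- ▼ part R300/LBBaseTv
section

/-!
# Row 300, lower bounds, base pair (piece L9), part 2: tail and Dom estimates.
-/

set_option autoImplicit false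

namespace Crest.Agent.R300LB.BaseDom

open Finset

noncomputable section

/-! ### total variation of the atypical part -/

open Classical in
theorem tail_typ {κ : ℝ} (h0 : 0 < κ) (h1 : κ ≤ 1) {m : ℕ} (hm : 1 ≤ m) {w : ℝ} (hw0 : 1 ≤ w)
    (hw : w ≤ κ * m / 2) :
    (∑ i ∈ (range (m + 2)).filter (fun i => ¬ typ κ m w i), bn κ m i ≤
      2 * Real.exp (-((w - 1) ^ 2 / (4 * (κ * (m + 1)))))) ∧
    (∑ i ∈ (range (m + 2)).filter (fun i => ¬ typ κ m w i), bn κ (m + 1) i ≤
      2 * Real.exp (-((w - 1) ^ 2 / (4 * (κ * (m + 1)))))) := by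
  have hκm : 0 < κ * m := by positivity
  constructor
  · have h := tail h0 h1 hm (w := w) (by linarith) (by linarith)
    refine le_trans ?_ (le_trans h ?_)
    · have hsub : ∑ i ∈ (range (m + 2)).filter (fun i => ¬ typ κ m w i), bn κ m i ≤
          ∑ i ∈ (range (m + 2)).filter (fun i => ¬ typ κ m w i),
            (if i ≤ m then bn κ m i else 0) := by
        apply Finset.sum_le_sum
        intro i _
        by_cases hi : i ≤ m
        · rw [if_pos hi]
        · rw [if_neg hi, bn_of_lt (by omega)]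
      refine le_trans hsub ?_
      rw [← Finset.sum_filter]
      apply Finset.sum_le_sum_of_subset_of_nonneg
      · intro i hi
        rw [Finset.mem_filter, Finset.mem_filter, Finset.mem_range] at hi
        rw [Finset.mem_filter, Finset.mem_range]
        refine ⟨by omega, ?_⟩
        by_contra hcon
        exact hi.1.2 ⟨hi.2, not_lt.mp hcon⟩
      · intro i _ _; exact bn_nonneg h0.le h1 _ _
    · have : (w - 1) ^ 2 / (4 * (κ * (m + 1))) ≤ w ^ 2 / (4 * (κ * m)) := by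
        apply div_le_div₀ (by positivity) _ (by positivity) _
        · nlinarith
        · nlinarith
      have := Real.exp_le_exp.mpr (neg_le_neg this)
      linarith
  · have h := tail h0 h1 (m := m + 1) (by omega) (w := w - 1) (by linarith)
      (by push_cast; nlinarith)
    have e : κ * ((m + 1 : ℕ) : ℝ) = κ * (m + 1) := by push_cast; ring
    rw [e] at h
    refine le_trans ?_ h
    apply Finset.sum_le_sum_of_subset_of_nonneg
    · intro i hi
      rw [Finset.mem_filter, Finset.mem_range] at hi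
      rw [Finset.mem_filter, Finset.mem_range]
      refine ⟨by omega, ?_⟩
      by_contra hcon
      apply hi.2
      rw [not_lt] at hcon
      have hc := abs_le.mp hcon
      push_cast at hc
      have hile : i ≤ m := by
        by_contra hcon2
        have hi' : i = m + 1 := by omega
        rw [hi'] at hc
        push_cast at hc
        nlinarith [hc.1]
      refine ⟨hile, ?_⟩
      rw [abs_le]
      constructor
      · nlinarith [hc.1]
      · nlinarith [hc.2]
    · intro i _ _; exact bn_nonneg h0.le h1 _ _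

theorem tv_b {q : ℝ} (h0 : 0 < q) (h1 : q ≤ 1) {m : ℕ} (hm : 1 ≤ m) {w : ℝ} (hw0 : 1 ≤ w)
    (hw : w ≤ q ^ 2 * m / 2) :
    TVle (8 * Real.exp (-((w - 1) ^ 2 / (4 * (q ^ 2 * (m + 1))))))
      (D q (xw m) - Dl q m w - D q (yw m)) := by
  classical
  have hκ0 : 0 < q ^ 2 := by positivity
  have hκ1 : q ^ 2 ≤ 1 := by nlinarith
  obtain ⟨t1, t2⟩ := tail_typ hκ0 hκ1 hm hw0 hw
  set τ := Real.exp (-((w - 1) ^ 2 / (4 * (q ^ 2 * ((m:ℝ) + 1))))) with hτ
  intro f hf
  set κ := q ^ 2 with hκ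
  have hE : ∀ i j, |ev (gm q ^ i * al * gm q ^ j) f| ≤ 1 := by
    intro i j
    have hp := pos_term q h0 h1 i j
    have u1 := hp.mono (f := f) (g := fun _ => 1) (fun w => (abs_le.mp (hf w)).2)
    have u2 := hp.mono (f := fun _ => -1) (g := f) (fun w => (abs_le.mp (hf w)).1)
    rw [mass_term q h0 h1] at u1
    have u3 : ev (gm q ^ i * al * gm q ^ j) (fun _ => (-1:ℝ)) = -1 := by
      have : (fun _ : BW => (-1:ℝ)) = fun w : BW => (-1:ℝ) * (fun _ : BW => (1:ℝ)) w := by
        funext w; ring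
      rw [this, ev_mul_fun, mass_term q h0 h1]; ring
    rw [u3] at u2
    exact abs_le.mpr ⟨u2, u1⟩
  have hdiff : ev (D q (xw m) - Dl q m w - D q (yw m)) f =
      (1 - q) * ∑ i ∈ range (m + 2), ∑ j ∈ range (m + 2),
        (lam κ m i j - lamI κ m w i j) * ev (gm q ^ i * al * gm q ^ j) f := by
    rw [ev_sub, ev_sub, D_xw' q h0, D_yw' q h0, ev_add, ev_add, ev_smul, ev_smul, ev_smul, ev_S, ev_S]
    unfold Dl
    rw [ev_smul, ev_S]
    simp_rw [sub_mul, Finset.sum_sub_distrib]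
    unfold lam
    simp_rw [sub_mul, Finset.sum_sub_distrib]
    ring
  rw [hdiff, abs_mul, abs_of_nonneg (by linarith : 0 ≤ 1 - q)]
  have hb0 : ∀ n i, 0 ≤ bn κ n i := fun n i => bn_nonneg hκ0.le hκ1 n i
  have hterm : ∀ i j, |(lam κ m i j - lamI κ m w i j) * ev (gm q ^ i * al * gm q ^ j) f| ≤
      ((if ¬ typ κ m w i then bn κ m i * bn κ (m + 1) j else 0) +
       (if ¬ typ κ m w i then bn κ (m + 1) i * bn κ m j else 0)) +
      ((if ¬ typ κ m w j then bn κ m i * bn κ (m + 1) j else 0) +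
       (if ¬ typ κ m w j then bn κ (m + 1) i * bn κ m j else 0)) := by
    intro i j
    have p1 : 0 ≤ bn κ m i * bn κ (m + 1) j := mul_nonneg (hb0 _ _) (hb0 _ _)
    have p2 : 0 ≤ bn κ (m + 1) i * bn κ m j := mul_nonneg (hb0 _ _) (hb0 _ _)
    have hl : |lam κ m i j| ≤ bn κ m i * bn κ (m + 1) j + bn κ (m + 1) i * bn κ m j := by
      unfold lam
      rw [abs_le]; constructor <;> linarith
    rw [abs_mul]
    by_cases ti : typ κ m w i <;> by_cases tj : typ κ m w j
    · have : lamI κ m w i j = lam κ m i j := by unfold lamI; rw [if_pos ⟨ti, tj⟩]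
      rw [this, sub_self, abs_zero, zero_mul]
      simp [ti, tj]
    all_goals
      have : lamI κ m w i j = 0 := by
        unfold lamI; rw [if_neg (fun h => by first | exact tj h.2 | exact ti h.1)]
      rw [this, sub_zero]
      have hle : |lam κ m i j| * |ev (gm q ^ i * al * gm q ^ j) f| ≤
          bn κ m i * bn κ (m + 1) j + bn κ (m + 1) i * bn κ m j := by
        calc |lam κ m i j| * |ev (gm q ^ i * al * gm q ^ j) f| ≤ |lam κ m i j| * 1 :=
              mul_le_mul_of_nonneg_left (hE i j) (abs_nonneg _)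
          _ ≤ _ := by rw [mul_one]; exact hl
      simp only [ti, tj, not_true_eq_false, not_false_eq_true, if_true, if_false]
      linarith
  have s1 : ∑ j ∈ range (m + 2), bn κ (m + 1) j = 1 := sum_bn κ (m + 1)
  have s0 : ∑ j ∈ range (m + 2), bn κ m j = 1 := by
    rw [show m + 2 = (m + 1) + 1 by ring, Finset.sum_range_succ, sum_bn, bn_of_lt (Nat.lt_succ_self m),
      add_zero]
  rw [Finset.sum_filter] at t1 t2
  have hsum : |∑ i ∈ range (m + 2), ∑ j ∈ range (m + 2),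
        (lam κ m i j - lamI κ m w i j) * ev (gm q ^ i * al * gm q ^ j) f| ≤ 8 * τ := by
    refine le_trans (Finset.abs_sum_le_sum_abs _ _) ?_
    refine le_trans (Finset.sum_le_sum (fun i _ => Finset.abs_sum_le_sum_abs _ _)) ?_
    refine le_trans (Finset.sum_le_sum (fun i _ => Finset.sum_le_sum (fun j _ => hterm i j))) ?_
    simp_rw [Finset.sum_add_distrib]
    have c1 : ∑ i ∈ range (m + 2), ∑ j ∈ range (m + 2),
        (if ¬ typ κ m w i then bn κ m i * bn κ (m + 1) j else 0) =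
        ∑ i ∈ range (m + 2), (if ¬ typ κ m w i then bn κ m i else 0) := by
      refine Finset.sum_congr rfl (fun i _ => ?_)
      by_cases ti : typ κ m w i
      · simp [ti]
      · simp only [ti, not_false_eq_true, if_true]; rw [← Finset.mul_sum, s1, mul_one]
    have c2 : ∑ i ∈ range (m + 2), ∑ j ∈ range (m + 2),
        (if ¬ typ κ m w i then bn κ (m + 1) i * bn κ m j else 0) =
        ∑ i ∈ range (m + 2), (if ¬ typ κ m w i then bn κ (m + 1) i else 0) := by
      refine Finset.sum_congr rfl (fun i _ => ?_)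
      by_cases ti : typ κ m w i
      · simp [ti]
      · simp only [ti, not_false_eq_true, if_true]; rw [← Finset.mul_sum, s0, mul_one]
    have c3 : ∑ i ∈ range (m + 2), ∑ j ∈ range (m + 2),
        (if ¬ typ κ m w j then bn κ m i * bn κ (m + 1) j else 0) =
        ∑ j ∈ range (m + 2), (if ¬ typ κ m w j then bn κ (m + 1) j else 0) := by
      rw [Finset.sum_comm]
      refine Finset.sum_congr rfl (fun j _ => ?_)
      by_cases tj : typ κ m w j
      · simp [tj]
      · simp only [tj, not_false_eq_true, if_true]; rw [← Finset.sum_mul, s0, one_mul]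
    have c4 : ∑ i ∈ range (m + 2), ∑ j ∈ range (m + 2),
        (if ¬ typ κ m w j then bn κ (m + 1) i * bn κ m j else 0) =
        ∑ j ∈ range (m + 2), (if ¬ typ κ m w j then bn κ m j else 0) := by
      rw [Finset.sum_comm]
      refine Finset.sum_congr rfl (fun j _ => ?_)
      by_cases tj : typ κ m w j
      · simp [tj]
      · simp only [tj, not_false_eq_true, if_true]; rw [← Finset.sum_mul, s1, one_mul]
    rw [c1, c2, c3, c4]
    linarith
  have hτ0 : 0 < τ := Real.exp_pos _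
  calc (1 - q) * |∑ i ∈ range (m + 2), ∑ j ∈ range (m + 2),
        (lam κ m i j - lamI κ m w i j) * ev (gm q ^ i * al * gm q ^ j) f| ≤ (1 - q) * (8 * τ) :=
        mul_le_mul_of_nonneg_left hsum (by linarith)
    _ ≤ 8 * τ := by nlinarith

end

end Crest.Agent.R300LB.BaseDom
end

-- ▼ part R300/LBBaseV
section

/-!
# Row 300, lower bounds, base pair (piece L9), part 3: the `L²` estimate.
-/

set_option autoImplicit false

namespace Crest.Agent.R300LB.BaseDom

open Finset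

noncomputable section

theorem dom_alg {q : ℝ} (h0 : 0 < q) (h1 : q ≤ 1 / 16) : Dom (5 / q) (gm q) (al - gm q) := by
  intro f
  have hp := prob_gm h0 (by linarith : q ≤ 1)
  set X := ev (gm q) (fun w => f w ^ 2) with hX
  have hX0 : 0 ≤ X := hp.pos _ (fun w => sq_nonneg _)
  have hc := hp.pos.cauchy (fun _ => 1) f
  simp only [one_mul, one_pow] at hc
  rw [ev_const hp, one_mul] at hc
  have e1 : ev al f = f (FreeMonoid.of false) := by
    unfold al; rw [ev_single]; ring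
  rw [ev_sub, e1]
  have hq : 0 < 1 + q := by linarith
  have h2 : q / (1 + q) * f (FreeMonoid.of false) ^ 2 ≤ X := by
    rw [hX, ev_gm]
    have : 0 ≤ 1 - q := by linarith
    have a1 : 0 ≤ q / (1 + q) * f (FreeMonoid.of true) ^ 2 := by positivity
    have a2 : 0 ≤ (1 - q) / (1 + q) * f (FreeMonoid.of false * FreeMonoid.of true) ^ 2 := by positivity
    linarith
  have h3 : q * f (FreeMonoid.of false) ^ 2 ≤ (1 + q) * X := by
    have := mul_le_mul_of_nonneg_left h2 hq.le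
    have e : (1 + q) * (q / (1 + q) * f (FreeMonoid.of false) ^ 2) = q * f (FreeMonoid.of false) ^ 2 := by
      field_simp
    linarith
  set a := f (FreeMonoid.of false)
  set b := ev (gm q) f
  rw [div_mul_eq_mul_div, le_div_iff₀ h0]
  have h4 : (a - b) ^ 2 ≤ 2 * a ^ 2 + 2 * b ^ 2 := by nlinarith [sq_nonneg (a + b)]
  nlinarith

theorem Ut_eq (q : ℝ) (m : ℕ) (w : ℝ) (t : ℕ) :
    ∑ i ∈ range (t + 1), lamI (q ^ 2) m w i (t - i) • (gm q ^ i * al * gm q ^ (t - i)) =
    ∑ i ∈ range (t + 1), lamI (q ^ 2) m w i (t - i) • (gm q ^ i * (al - gm q) * gm q ^ (t + 1 - 1 - i)) := by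
  have hz : ∑ i ∈ range (t + 1), lamI (q ^ 2) m w i (t - i) = 0 := by
    have h := Finset.sum_range_reflect (fun i => lamI (q ^ 2) m w i (t - i)) (t + 1)
    have h2 : ∑ j ∈ range (t + 1), (fun i => lamI (q ^ 2) m w i (t - i)) (t + 1 - 1 - j) =
        - ∑ i ∈ range (t + 1), lamI (q ^ 2) m w i (t - i) := by
      rw [← Finset.sum_neg_distrib]
      refine Finset.sum_congr rfl (fun j hj => ?_)
      rw [Finset.mem_range] at hj
      have e1 : t + 1 - 1 - j = t - j := by omega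
      have e2 : t - (t - j) = j := by omega
      simp only [e1, e2]
      exact lamI_anti _ _ _ _ _
    rw [h2] at h
    linarith
  have h : ∀ i ∈ range (t + 1), lamI (q ^ 2) m w i (t - i) • (gm q ^ i * (al - gm q) * gm q ^ (t + 1 - 1 - i)) =
      lamI (q ^ 2) m w i (t - i) • (gm q ^ i * al * gm q ^ (t - i)) -
      lamI (q ^ 2) m w i (t - i) • gm q ^ (t + 1) := by
    intro i hi
    rw [Finset.mem_range] at hi
    rw [mul_sub, sub_mul, smul_sub]
    congr 1
    rw [← pow_succ, ← pow_add]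
    congr 2
    omega
  rw [Finset.sum_congr rfl h, Finset.sum_sub_distrib, ← Finset.sum_smul, hz, zero_smul, sub_zero]

theorem Dl_eq (q : ℝ) (m : ℕ) (w : ℝ) :
    Dl q m w = ∑ t ∈ range (2 * m + 1), (1 - q) •
      ∑ i ∈ range (t + 1), lamI (q ^ 2) m w i (t - i) • (gm q ^ i * (al - gm q) * gm q ^ (t + 1 - 1 - i)) := by
  have hz : ∀ i j, (m < i ∨ m < j) → lamI (q ^ 2) m w i j = 0 := by
    intro i j h
    unfold lamI
    rw [if_neg]
    intro h'
    rcases h with h | h
    · exact absurd h'.1.1 (by omega)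
    · exact absurd h'.2.1 (by omega)
  unfold Dl S
  rw [sum_diag (m + 2) (fun i j => lamI (q ^ 2) m w i j • (gm q ^ i * al * gm q ^ j))]
  · rw [Finset.smul_sum]
    symm
    have hsub : range (2 * m + 1) ⊆ range (2 * (m + 2)) := by
      intro i hi; rw [Finset.mem_range] at hi ⊢; omega
    rw [← Finset.sum_subset hsub]
    · refine Finset.sum_congr rfl (fun t _ => ?_)
      rw [← Ut_eq]
    · intro t _ ht
      rw [Finset.mem_range] at ht
      rw [Finset.sum_eq_zero, smul_zero]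
      intro i hi
      rw [Finset.mem_range] at hi
      rw [hz i (t - i) (by omega), zero_smul]
  · intro i j h
    show lamI (q ^ 2) m w i j • (gm q ^ i * al * gm q ^ j) = 0
    rw [hz i j (by omega), zero_smul]

theorem ref_le {q : ℝ} (h0 : 0 < q) (h1 : q ≤ 1) (m : ℕ) :
    Le (∑ t ∈ range (2 * m + 1), (q * bn (q ^ 2) (2 * m + 1) (t + 1)) • gm q ^ (t + 1)) (D q (xw m)) := by
  have hκ0 : 0 < q ^ 2 := by positivity
  have hκ1 : q ^ 2 ≤ 1 := by nlinarith
  intro f hf
  have hq1 : 0 ≤ 1 - q := by linarith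
  rw [ev_sub, D_xw' q h0, g_pow q (2 * m + 1) (2 * m + 2) (by omega), ev_add, ev_smul, ev_smul,
    Finset.sum_range_succ', ev_add, ev_sum, ev_sum]
  have e1 : ∑ t ∈ range (2 * m + 1), ev ((q * bn (q ^ 2) (2 * m + 1) (t + 1)) • gm q ^ (t + 1)) f =
      q * ∑ t ∈ range (2 * m + 1), ev (bn (q ^ 2) (2 * m + 1) (t + 1) • gm q ^ (t + 1)) f := by
    rw [Finset.mul_sum]
    refine Finset.sum_congr rfl (fun t _ => ?_)
    rw [ev_smul, ev_smul]; ring
  rw [e1]
  have e2 : 0 ≤ ev (bn (q ^ 2) (2 * m + 1) 0 • gm q ^ 0) f := by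
    rw [ev_smul]
    exact mul_nonneg (bn_nonneg hκ0.le hκ1 _ _) (((prob_gm h0 h1).pow 0).pos f hf)
  have e3 : 0 ≤ ev (S q (m + 2) (fun i j => bn (q ^ 2) m i * bn (q ^ 2) (m + 1) j)) f := by
    rw [ev_S]
    exact Finset.sum_nonneg (fun i _ => Finset.sum_nonneg (fun j _ =>
      mul_nonneg (mul_nonneg (bn_nonneg hκ0.le hκ1 _ _) (bn_nonneg hκ0.le hκ1 _ _))
        (pos_term q h0 h1 i j f hf)))
  nlinarith [mul_nonneg h0.le e2, mul_nonneg hq1 e3]

theorem bn_pos {κ : ℝ} (h0 : 0 < κ) (h1 : κ < 1) {m i : ℕ} (hi : i ≤ m) : 0 < bn κ m i := by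
  unfold bn
  have h2 : 0 < 1 - κ := by linarith
  have h3 : (0:ℝ) < m.choose i := by exact_mod_cast Nat.choose_pos hi
  positivity

theorem dom_Dl {q : ℝ} (h0 : 0 < q) (h1 : q ≤ 1 / 16) {m : ℕ} (hm : 1 ≤ m) {w : ℝ}
    (hw : w ≤ q ^ 2 * m / 2) :
    Dom (5120 / (q ^ 2 * ((q ^ 2 * m) * Real.sqrt (q ^ 2 * m)))) (D q (xw m)) (Dl q m w) := by
  have hκ0 : 0 < q ^ 2 := by positivity
  have hκ1 : q ^ 2 ≤ 1 / 16 := by nlinarith
  have hmr : (0:ℝ) < m := by exact_mod_cast hm
  have hκm : 0 < q ^ 2 * m := by positivity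
  set κ := q ^ 2 with hκ
  set K : ℝ := 256 / ((κ * m) ^ 2 * Real.sqrt (κ * m)) with hK
  have hsq : 0 < Real.sqrt (κ * m) := Real.sqrt_pos.mpr hκm
  have hK0 : 0 < K := by rw [hK]; positivity
  have hq1 : 0 ≤ 1 - q := by linarith
  -- the pieces
  set V : ℕ → ℝ := fun t => (1 - q) ^ 2 * (5 / q * ∑ i ∈ range (t + 1), lamI κ m w i (t - i) ^ 2) with hV
  set W : ℕ → ℝ := fun t => q * bn κ (2 * m + 1) (t + 1) with hW
  have hdom : ∀ t ∈ range (2 * m + 1), Dom (V t) (gm q ^ (t + 1)) ((1 - q) •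
      ∑ i ∈ range (t + 1), lamI κ m w i (t - i) • (gm q ^ i * (al - gm q) * gm q ^ (t + 1 - 1 - i))) := by
    intro t _
    apply Dom.smul
    exact (orth (prob_gm h0 (by linarith)) (by positivity)
      (by rw [mass_sub, prob_al.one, (prob_gm h0 (by linarith)).one, sub_self])
      (dom_alg h0 h1) (t + 1) (fun i => lamI κ m w i (t - i))).1
  have hWpos : ∀ t ∈ range (2 * m + 1), 0 < W t := by
    intro t ht
    rw [Finset.mem_range] at ht
    exact mul_pos h0 (bn_pos hκ0 (by linarith) (by omega))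
  have hVnn : ∀ t ∈ range (2 * m + 1), 0 ≤ V t := by
    intro t _
    have : 0 ≤ ∑ i ∈ range (t + 1), lamI κ m w i (t - i) ^ 2 :=
      Finset.sum_nonneg (fun i _ => sq_nonneg _)
    show 0 ≤ (1 - q) ^ 2 * (5 / q * ∑ i ∈ range (t + 1), lamI κ m w i (t - i) ^ 2)
    positivity
  -- key estimate on coefficients
  have hb0 : ∀ n i, 0 ≤ bn κ n i := fun n i => bn_nonneg hκ0.le (by linarith) n i
  have hcoef : ∀ i j, lamI κ m w i j ^ 2 ≤
      K * (bn κ m i * bn κ m j * ((i : ℝ) - j) ^ 2) * bn κ (2 * m + 1) (i + j + 1) := by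
    intro i j
    unfold lamI
    by_cases h : typ κ m w i ∧ typ κ m w j
    · rw [if_pos h]; exact lam_sq_le hκ0 (by linarith) hm hκ1 hw h.1 h.2
    · rw [if_neg h, show (0:ℝ) ^ 2 = 0 by norm_num]
      have := hb0 m i
      have := hb0 m j
      have := hb0 (2 * m + 1) (i + j + 1)
      positivity
  have hratio : ∀ t ∈ range (2 * m + 1), V t / W t ≤
      5 / q ^ 2 * (K * ∑ i ∈ range (t + 1), bn κ m i * bn κ m (t - i) * ((i : ℝ) - (t - i : ℕ)) ^ 2) := by
    intro t ht
    have hWt := hWpos t ht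
    rw [div_le_iff₀ hWt]
    have hs : ∑ i ∈ range (t + 1), lamI κ m w i (t - i) ^ 2 ≤
        (K * ∑ i ∈ range (t + 1), bn κ m i * bn κ m (t - i) * ((i : ℝ) - (t - i : ℕ)) ^ 2) *
          bn κ (2 * m + 1) (t + 1) := by
      rw [Finset.mul_sum, Finset.sum_mul]
      refine Finset.sum_le_sum (fun i hi => ?_)
      rw [Finset.mem_range] at hi
      have := hcoef i (t - i)
      rwa [show i + (t - i) + 1 = t + 1 by omega] at this
    set s1 := ∑ i ∈ range (t + 1), lamI κ m w i (t - i) ^ 2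
    set s2 := K * ∑ i ∈ range (t + 1), bn κ m i * bn κ m (t - i) * ((i : ℝ) - (t - i : ℕ)) ^ 2
    have hs1 : 0 ≤ s1 := Finset.sum_nonneg (fun i _ => sq_nonneg _)
    have hc1 : (1 - q) ^ 2 ≤ 1 := by nlinarith
    calc V t = (1 - q) ^ 2 * (5 / q * s1) := rfl
      _ ≤ 1 * (5 / q * s1) := mul_le_mul_of_nonneg_right hc1 (by positivity)
      _ ≤ 1 * (5 / q * (s2 * bn κ (2 * m + 1) (t + 1))) := by
          have : 0 ≤ 5 / q := by positivity
          nlinarith [mul_le_mul_of_nonneg_left hs this]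
      _ = 5 / q ^ 2 * s2 * W t := by
          simp only [hW]; field_simp
  have htot : ∑ t ∈ range (2 * m + 1), V t / W t ≤ 5120 / (κ * ((κ * m) * Real.sqrt (κ * m))) := by
    refine le_trans (Finset.sum_le_sum hratio) ?_
    rw [← Finset.mul_sum, ← Finset.mul_sum]
    have hle : ∑ t ∈ range (2 * m + 1), ∑ i ∈ range (t + 1),
        bn κ m i * bn κ m (t - i) * ((i : ℝ) - (t - i : ℕ)) ^ 2 ≤ 4 * (κ * m) := by
      refine le_trans ?_ (var2_bn hκ0.le (by linarith) m)
      rw [sum_diag (m + 1) (fun i j => bn κ m i * bn κ m j * ((i : ℝ) - j) ^ 2)]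
      · apply Finset.sum_le_sum_of_subset_of_nonneg
        · intro i hi; rw [Finset.mem_range] at hi ⊢; omega
        · intro t _ _
          refine Finset.sum_nonneg (fun i _ => ?_)
          exact mul_nonneg (mul_nonneg (hb0 _ _) (hb0 _ _)) (sq_nonneg _)
      · intro i j h
        rcases h with h | h
        · rw [bn_of_lt (by omega : m < i)]; ring
        · rw [bn_of_lt (by omega : m < j)]; ring
    calc 5 / q ^ 2 * (K * ∑ t ∈ range (2 * m + 1), ∑ i ∈ range (t + 1),
          bn κ m i * bn κ m (t - i) * ((i : ℝ) - (t - i : ℕ)) ^ 2)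
        ≤ 5 / q ^ 2 * (K * (4 * (κ * m))) := by
          have : 0 ≤ 5 / q ^ 2 := by positivity
          gcongr
      _ = 5120 / (κ * ((κ * m) * Real.sqrt (κ * m))) := by
          rw [hK, ← hκ]
          field_simp
          norm_num
  rw [Dl_eq]
  exact mixsum (range (2 * m + 1)) hdom hWpos hVnn
    (fun t _ => ((prob_gm h0 (by linarith)).pow (t + 1)).pos) htot (ref_le h0 (by linarith) m)

end

end Crest.Agent.R300LB.BaseDom
end

-- ▼ part R300/LBBase

/-!
# Row 300, lower bounds, base pair: assembly of `BaseStatement` from the slip lemma.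
-/

set_option autoImplicit false

namespace Crest.Agent.R300LB.BaseDom

open Finset

noncomputable section

/-- P-SLIP0 (piece L10, helper358) -/
def BaseSlipStatement : Prop :=
  ∃ C : ℝ, 0 < C ∧ ∀ q : ℝ, 0 < q → q ≤ 1 / 16 → ∀ m : ℕ, C / q ^ 4 ≤ (m : ℝ) →
    ∃ (R : ℕ) (s : MA BW),
      Slip (D q [false, true] ^ m * D q [false] * D q [false, true] ^ (m + 1)) R s ∧
      (R : ℝ) + 1 ≤ m ∧ Real.exp (-(C / q ^ 3)) ≤ mass s

theorem exp_ge_of {c x : ℝ} {k : ℕ} (hk : c ≤ 2 ^ k) (hx : (k : ℝ) ≤ x) : c ≤ Real.exp x := by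
  have h2 : (2:ℝ) ≤ Real.exp 1 := by
    have := Real.add_one_le_exp (1:ℝ); linarith
  calc c ≤ 2 ^ k := hk
    _ ≤ (Real.exp 1) ^ k := pow_le_pow_left₀ (by norm_num) h2 k
    _ = Real.exp k := by rw [← Real.exp_nat_mul]; simp
    _ ≤ Real.exp x := Real.exp_le_exp.mpr hx

theorem base_of_slip (hs : BaseSlipStatement) : BaseStatement := by
  obtain ⟨C1, hC1, hslip⟩ := hs
  refine ⟨200 * C1 + 100, by positivity, ?_⟩
  intro q hq0 hq1 L hL
  -- sizes
  set t : ℝ := 1 / q ^ 3 with ht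
  have hq3 : 0 < q ^ 3 := by positivity
  have ht0 : 4096 ≤ t := by
    rw [ht, le_div_iff₀ hq3]
    have : q ^ 3 ≤ (1 / 16) ^ 3 := pow_le_pow_left₀ hq0.le hq1 3
    norm_num at this; linarith
  have hLt : (200 * C1 + 100) * t ≤ L := by
    rw [ht]; rw [mul_one_div]; exact hL
  have hCt : 0 < C1 * t := by positivity
  have hL1 : C1 * t ≤ L / 200 := by nlinarith
  have hL2 : t ≤ L / 100 := by nlinarith
  have hL3 : 409600 ≤ L := by nlinarith
  have hL0 : 0 < L := by linarith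
  have hC1t : C1 ≤ C1 * t := by nlinarith
  -- q^{-2} ≤ e^{L/100}
  have hqinv : 1 / q ^ 2 ≤ Real.exp (L / 100) := by
    have h1 : 1 / q ^ 2 ≤ t := by
      rw [ht]
      apply one_div_le_one_div_of_le hq3
      calc q ^ 3 = q ^ 2 * q := by ring
        _ ≤ q ^ 2 * 1 := mul_le_mul_of_nonneg_left (by linarith) (by positivity)
        _ = q ^ 2 := mul_one _
    have h2 : t ≤ Real.exp t := by have := Real.add_one_le_exp t; linarith
    exact le_trans h1 (le_trans h2 (Real.exp_le_exp.mpr hL2))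
  -- the number of blocks
  set M : ℝ := Real.exp (L - 2 * (C1 * t)) / 8 with hM
  have hMbig : Real.exp (L * (97 / 100)) ≤ M := by
    rw [hM, le_div_iff₀ (by norm_num)]
    have h8 : (8:ℝ) ≤ Real.exp (L / 100) := exp_ge_of (k := 3) (by norm_num) (by push_cast; linarith)
    calc Real.exp (L * (97 / 100)) * 8 ≤ Real.exp (L * (97 / 100)) * Real.exp (L / 100) :=
          mul_le_mul_of_nonneg_left h8 (Real.exp_pos _).le
      _ = Real.exp (L * (97 / 100) + L / 100) := by rw [← Real.exp_add]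
      _ ≤ Real.exp (L - 2 * (C1 * t)) := Real.exp_le_exp.mpr (by linarith)
  have hM2 : 2 ≤ M := le_trans (exp_ge_of (k := 1) (by norm_num) (by push_cast; linarith)) hMbig
  set m : ℕ := ⌊M⌋₊ with hm
  have hmle : (m : ℝ) ≤ M := Nat.floor_le (by linarith)
  have hmge : M / 2 ≤ (m : ℝ) := by
    have := Nat.lt_floor_add_one M
    rw [← hm] at this
    linarith
  have hm1r : (1:ℝ) ≤ m := by linarith
  have hm1 : 1 ≤ m := by exact_mod_cast hm1r
  -- slip
  have hexpM : 8 * M = Real.exp (L - 2 * (C1 * t)) := by rw [hM]; ring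
  have hmC : C1 / q ^ 4 ≤ (m : ℝ) := by
    have h1 : C1 / q ^ 4 ≤ Real.exp (L * (3 / 100)) := by
      have e1 : C1 / q ^ 4 = C1 * (1 / q ^ 2) * (1 / q ^ 2) := by field_simp
      have e2 : C1 ≤ Real.exp (L / 100) := by
        have := Real.add_one_le_exp C1
        have h3 : Real.exp C1 ≤ Real.exp (L / 100) := Real.exp_le_exp.mpr (by linarith)
        linarith
      rw [e1]
      have hp : 0 < 1 / q ^ 2 := by positivity
      calc C1 * (1 / q ^ 2) * (1 / q ^ 2) ≤ Real.exp (L / 100) * Real.exp (L / 100) * Real.exp (L / 100) := by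
            gcongr
        _ = Real.exp (L * (3 / 100)) := by rw [← Real.exp_add, ← Real.exp_add]; congr 1; ring
    have h2 : 2 * Real.exp (L * (3 / 100)) ≤ Real.exp (L * (97 / 100)) := by
      have h3 : (2:ℝ) ≤ Real.exp (L * (94 / 100)) := exp_ge_of (k := 1) (by norm_num) (by push_cast; linarith)
      calc 2 * Real.exp (L * (3 / 100)) ≤ Real.exp (L * (94 / 100)) * Real.exp (L * (3 / 100)) :=
            mul_le_mul_of_nonneg_right h3 (Real.exp_pos _).le
        _ = Real.exp (L * (97 / 100)) := by rw [← Real.exp_add]; congr 1; ring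
    linarith
  obtain ⟨R, s, hS, hR, hmass⟩ := hslip q hq0 hq1 m hmC
  have hDx : D q [false, true] ^ m * D q [false] * D q [false, true] ^ (m + 1) = D q (xw m) := by
    rw [D_xw q hq0, g_eq q hq0]
    congr 2
    unfold D letter c0 al; simp
  rw [hDx] at hS
  -- fourth root
  set κ : ℝ := q ^ 2 with hκ
  have hκ0 : 0 < κ := by positivity
  have hκm0 : 0 < κ * m := by positivity
  set z : ℝ := Real.sqrt (Real.sqrt (κ * m)) with hz
  have hz2 : z ^ 2 = Real.sqrt (κ * m) := Real.sq_sqrt (Real.sqrt_nonneg _)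
  have hz4 : z ^ 4 = κ * m := by
    calc z ^ 4 = (z ^ 2) ^ 2 := by ring
      _ = κ * m := by rw [hz2, Real.sq_sqrt hκm0.le]
  have hz0 : 0 ≤ z := Real.sqrt_nonneg _
  have hzbig : Real.exp (L * (191 / 800)) ≤ z := by
    have h4 : Real.exp (L * (191 / 800)) ^ 4 ≤ z ^ 4 := by
      rw [hz4, ← Real.exp_nat_mul]
      have e1 : Real.exp (L * (97 / 100)) / 2 ≤ (m : ℝ) := by linarith
      have e2 : 1 ≤ Real.exp (L / 100) * κ := by
        have : 1 / κ ≤ Real.exp (L / 100) := hqinv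
        rwa [div_le_iff₀ hκ0] at this
      have h2 : (2:ℝ) ≤ Real.exp (L / 200) := exp_ge_of (k := 1) (by norm_num) (by push_cast; linarith)
      have hE0 : 0 < Real.exp (((4:ℕ):ℝ) * (L * (191 / 800))) := Real.exp_pos _
      have e3 : Real.exp (((4:ℕ):ℝ) * (L * (191 / 800))) * Real.exp (L / 200) * Real.exp (L / 100) =
          Real.exp (L * (97 / 100)) := by
        rw [← Real.exp_add, ← Real.exp_add]; congr 1; push_cast; ring
      have e4 : Real.exp (((4:ℕ):ℝ) * (L * (191 / 800))) * 2 * Real.exp (L / 100) ≤ 2 * m := by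
        calc Real.exp (((4:ℕ):ℝ) * (L * (191 / 800))) * 2 * Real.exp (L / 100) ≤
              Real.exp (((4:ℕ):ℝ) * (L * (191 / 800))) * Real.exp (L / 200) * Real.exp (L / 100) := by
              gcongr
          _ = Real.exp (L * (97 / 100)) := e3
          _ ≤ 2 * m := by linarith
      have e5 : Real.exp (((4:ℕ):ℝ) * (L * (191 / 800))) * Real.exp (L / 100) ≤ m := by linarith
      calc Real.exp (((4:ℕ):ℝ) * (L * (191 / 800)))
          ≤ Real.exp (((4:ℕ):ℝ) * (L * (191 / 800))) * (Real.exp (L / 100) * κ) :=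
            le_mul_of_one_le_right hE0.le e2
        _ = κ * (Real.exp (((4:ℕ):ℝ) * (L * (191 / 800))) * Real.exp (L / 100)) := by ring
        _ ≤ κ * m := mul_le_mul_of_nonneg_left e5 hκ0.le
    exact le_of_pow_le_pow_left₀ (by norm_num) hz0 h4
  have hz64 : (64:ℝ) ≤ z :=
    le_trans (exp_ge_of (k := 6) (by norm_num) (by push_cast; linarith)) hzbig
  have hzpos : 0 < z := by linarith
  have hw1 : (1:ℝ) ≤ z ^ 3 := one_le_pow₀ (by linarith)
  have hw2 : (2:ℝ) ≤ z ^ 3 := by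
    calc (2:ℝ) ≤ z := by linarith
      _ = z ^ 1 := (pow_one z).symm
      _ ≤ z ^ 3 := pow_le_pow_right₀ (by linarith) (by norm_num)
  have hw : z ^ 3 ≤ κ * m / 2 := by
    rw [← hz4]
    have : z ^ 3 * 2 ≤ z ^ 3 * z := mul_le_mul_of_nonneg_left (by linarith) (by positivity)
    have e : z ^ 4 = z ^ 3 * z := by ring
    rw [e]; linarith
  set a := D q (xw m) with ha
  set b := D q (xw m) - Dl q m (z ^ 3) with hb
  have hab : a - b = Dl q m (z ^ 3) := by rw [ha, hb]; abel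
  have hq1' : q ≤ 1 := by linarith
  have hpa : Prob a := by
    have h := prob_b hq0 hq1' m (-1)
    have h0 : Dl q m (-1) = 0 := by
      unfold Dl S
      rw [Finset.sum_eq_zero, smul_zero]
      intro i _
      refine Finset.sum_eq_zero (fun j _ => ?_)
      unfold lamI
      rw [if_neg, zero_smul]
      intro h'
      have h1 := h'.1.2
      have h2 := abs_nonneg ((m : ℝ) - i - q ^ 2 * m)
      linarith
    rw [h0, sub_zero] at h
    exact h
  refine ⟨xw m, yw m, a, b, ?_⟩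
  refine ⟨by rw [xw_length, yw_length], xw_ne m, ?_, hpa, prob_b hq0 hq1' m (z ^ 3), ?_, ?_, ?_, ?_, ?_⟩
  · -- length
    rw [xw_length]
    push_cast
    have h1 : Real.exp (L - 2 * (C1 * t)) ≤ Real.exp L := Real.exp_le_exp.mpr (by linarith)
    linarith
  · -- ta
    intro f _
    rw [sub_self, ev_zero, abs_zero]
    exact (Real.exp_pos _).le
  · -- tb
    intro f hf
    refine le_trans (tv_b hq0 hq1' hm1 hw1 hw f hf) ?_
    have h8 : (8:ℝ) ≤ Real.exp 3 := exp_ge_of (k := 3) (by norm_num) (by norm_num)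
    have hexp : Real.exp (L / 4) + 3 ≤ (z ^ 3 - 1) ^ 2 / (4 * (κ * (m + 1))) := by
      have hden : 0 < 4 * (κ * ((m:ℝ) + 1)) := by positivity
      rw [le_div_iff₀ hden]
      have hd2 : 4 * (κ * ((m:ℝ) + 1)) ≤ 8 * z ^ 4 := by
        rw [hz4]; nlinarith
      have hnum : z ^ 6 / 4 ≤ (z ^ 3 - 1) ^ 2 := by
        have h1 : z ^ 3 / 2 ≤ z ^ 3 - 1 := by linarith
        calc z ^ 6 / 4 = (z ^ 3 / 2) ^ 2 := by ring
          _ ≤ (z ^ 3 - 1) ^ 2 := pow_le_pow_left₀ (by positivity) h1 2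
      have hz2big : 64 * Real.exp (L / 4) ≤ z ^ 2 := by
        have h64 : (64:ℝ) ≤ Real.exp (L * (91 / 400)) :=
          exp_ge_of (k := 6) (by norm_num) (by push_cast; linarith)
        calc 64 * Real.exp (L / 4) ≤ Real.exp (L * (91 / 400)) * Real.exp (L / 4) :=
              mul_le_mul_of_nonneg_right h64 (Real.exp_pos _).le
          _ = Real.exp (L * (191 / 800)) ^ 2 := by
              rw [← Real.exp_add, ← Real.exp_nat_mul]; congr 1; push_cast; ring
          _ ≤ z ^ 2 := pow_le_pow_left₀ (Real.exp_pos _).le hzbig 2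
      have h3 : 3 ≤ Real.exp (L / 4) := by
        have := exp_ge_of (c := 3) (k := 2) (x := L / 4) (by norm_num) (by push_cast; linarith)
        exact this
      have hX : Real.exp (L / 4) + 3 ≤ z ^ 2 / 32 := by linarith
      have hE0 : 0 ≤ Real.exp (L / 4) + 3 := by positivity
      calc (Real.exp (L / 4) + 3) * (4 * (κ * ((m:ℝ) + 1))) ≤ (z ^ 2 / 32) * (8 * z ^ 4) :=
            mul_le_mul hX hd2 hden.le (by positivity)
        _ = z ^ 6 / 4 := by ring
        _ ≤ (z ^ 3 - 1) ^ 2 := hnum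
    calc 8 * Real.exp (-((z ^ 3 - 1) ^ 2 / (4 * (q ^ 2 * (m + 1)))))
        ≤ Real.exp 3 * Real.exp (-(Real.exp (L / 4) + 3)) := by
          apply mul_le_mul h8 _ (Real.exp_pos _).le (Real.exp_pos _).le
          apply Real.exp_le_exp.mpr
          linarith
      _ = Real.exp (-Real.exp (L / 4)) := by rw [← Real.exp_add]; congr 1; ring
  · -- bd
    rw [hab]
    intro f hf
    refine le_trans (bd_Dl hq0 hq1' hm1 (by positivity) hw f hf) ?_
    apply mul_le_mul_of_nonneg_right _ (hpa.pos f hf)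
    rw [← hκ, ← hz4, show 4 * z ^ 3 / z ^ 4 = 4 / z by field_simp, div_le_iff₀ hzpos]
    have h4 : (4:ℝ) ≤ Real.exp (L * (151 / 800)) := exp_ge_of (k := 2) (by norm_num) (by push_cast; linarith)
    calc (4:ℝ) ≤ Real.exp (L * (151 / 800)) := h4
      _ = Real.exp (-(L / 20)) * Real.exp (L * (191 / 800)) := by
          rw [← Real.exp_add]; congr 1; ring
      _ ≤ Real.exp (-(L / 20)) * z := mul_le_mul_of_nonneg_left hzbig (Real.exp_pos _).le
  · -- dom
    rw [hab]
    refine (dom_Dl hq0 hq1 hm1 hw).mono ?_ hpa.pos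
    rw [← hκ, ← hz2, ← hz4]
    have hz6 : Real.exp (L * (191 / 800)) ^ 6 ≤ z ^ 6 := pow_le_pow_left₀ (Real.exp_pos _).le hzbig 6
    have h5 : (5120:ℝ) ≤ Real.exp (L / 100) := exp_ge_of (k := 13) (by norm_num) (by push_cast; linarith)
    have hden : 0 < κ * (z ^ 4 * z ^ 2) := by positivity
    rw [div_le_iff₀ hden]
    have e2 : 1 ≤ Real.exp (L / 100) * κ := by
      have : 1 / κ ≤ Real.exp (L / 100) := hqinv
      rwa [div_le_iff₀ hκ0] at this
    have e6 : Real.exp (L / 100) * Real.exp (L / 100) ≤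
        Real.exp (-(7 / 5 * L)) * Real.exp (L * (191 / 800)) ^ 6 := by
      rw [← Real.exp_nat_mul, ← Real.exp_add, ← Real.exp_add]
      apply Real.exp_le_exp.mpr
      push_cast
      linarith
    have hE := Real.exp_pos (-(7 / 5 * L))
    have hF := Real.exp_pos (L / 100)
    have e7 : 5120 * Real.exp (L / 100) ≤ Real.exp (-(7 / 5 * L)) * z ^ 6 := by
      calc 5120 * Real.exp (L / 100) ≤ Real.exp (L / 100) * Real.exp (L / 100) :=
            mul_le_mul_of_nonneg_right h5 hF.le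
        _ ≤ Real.exp (-(7 / 5 * L)) * Real.exp (L * (191 / 800)) ^ 6 := e6
        _ ≤ Real.exp (-(7 / 5 * L)) * z ^ 6 := mul_le_mul_of_nonneg_left hz6 hE.le
    calc (5120:ℝ) ≤ 5120 * (Real.exp (L / 100) * κ) := by linarith
      _ = (5120 * Real.exp (L / 100)) * κ := by ring
      _ ≤ (Real.exp (-(7 / 5 * L)) * z ^ 6) * κ := mul_le_mul_of_nonneg_right e7 hκ0.le
      _ = Real.exp (-(7 / 5 * L)) * (κ * (z ^ 4 * z ^ 2)) := by ring
  · -- slip
    refine ⟨R, s, hS, ?_⟩
    have hCt' : C1 / q ^ 3 = C1 * t := by rw [ht]; ring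
    rw [hCt'] at hmass
    have h1 : Real.exp (-(C1 * t)) ^ 2 ≤ mass s ^ 2 := pow_le_pow_left₀ (Real.exp_pos _).le hmass 2
    calc (R : ℝ) + 1 ≤ m := hR
      _ ≤ Real.exp (L - 2 * (C1 * t)) := by linarith
      _ = Real.exp L * Real.exp (-(C1 * t)) ^ 2 := by
          rw [← Real.exp_nat_mul, ← Real.exp_add]; congr 1; push_cast; ring
      _ ≤ Real.exp L * mass s ^ 2 := mul_le_mul_of_nonneg_left h1 (Real.exp_pos _).le

end

end Crest.Agent.R300LB.BaseDom
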