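import Crest.Agent.R300.LBInterface

/-!
# Row 300, lower bounds: orthogonality (N6), slot expansions, product calculus of `Le`, `Bd`, `TVle`.
-/

set_option autoImplicit false
set_option linter.unusedSectionVars false

namespace Crest.Agent.R300LB

open Finset

noncomputable section

variable {G : Type*} [Monoid G]

/-! ### simple facts -/

theorem Prob.mass {a : MA G} (ha : Prob a) : mass a = 1 := ha.one

theorem Pos.mass_nonneg {ν : MA G} (h : Pos ν) : 0 ≤ mass ν := h _ (fun _ => zero_le_one)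

theorem Pos.ev_sq {π : MA G} (h : Pos π) (f : G → ℝ) : 0 ≤ ev π (fun w => f w ^ 2) :=
  h _ (fun _ => sq_nonneg _)

theorem Prob.var {a : MA G} (ha : Prob a) (f : G → ℝ) :
    ev a (fun w => (f w - ev a f) ^ 2) = ev a (fun w => f w ^ 2) - (ev a f) ^ 2 := by
  have e : ∀ w, (f w - ev a f) ^ 2 = (f w ^ 2 - (2 * ev a f) * f w) + (ev a f) ^ 2 := fun w => by
    ring
  rw [ev_congr a e, ev_add_fun, ev_sub_fun, ev_mul_fun, ev_const ha]
  ring

/-- a mean zero measure is insensitive to constants -/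
theorem ev_sub_const {Δ : MA G} (hΔ : mass Δ = 0) (f : G → ℝ) (c : ℝ) :
    ev Δ (fun w => f w - c) = ev Δ f := by
  have h : ev Δ (fun _ : G => c) = c * mass Δ := by
    unfold mass
    rw [← ev_mul_fun]
    exact ev_congr _ fun _ => by ring
  rw [ev_sub_fun, h, hΔ]
  ring

/-- variance form of `Dom` for mean zero measures -/
theorem Dom.var {V : ℝ} {a Δ : MA G} (h : Dom V a Δ) (ha : Prob a) (hΔ : mass Δ = 0)
    (f : G → ℝ) : (ev Δ f) ^ 2 ≤ V * (ev a (fun w => f w ^ 2) - (ev a f) ^ 2) := by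
  have := h (fun w => f w - ev a f)
  rwa [ev_sub_const hΔ, ha.var] at this

theorem Dom.congr {V V' : ℝ} {π ν : MA G} (h : Dom V π ν) (e : V = V') : Dom V' π ν := e ▸ h

theorem Dom.sub {x y : ℝ} {π μ ν : MA G} (h1 : Dom (x ^ 2) π μ) (h2 : Dom (y ^ 2) π ν)
    (hx : 0 ≤ x) (hy : 0 ≤ y) (hπ : Pos π) : Dom ((x + y) ^ 2) π (μ - ν) := by
  rw [sub_eq_add_neg]; exact h1.add h2.neg hx hy hπ

/-- multiplication by a probability measure on the left -/
theorem Dom.mulLeft {V : ℝ} {a π ν : MA G} (h : Dom V π ν) (ha : Prob a) :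
    Dom V (a * π) (a * ν) := by
  have := (Dom.self_prob ha).mul h zero_le_one ha.pos
  rwa [one_mul] at this

/-- multiplication by a probability measure on the right -/
theorem Dom.mulRight {V : ℝ} {a π ν : MA G} (h : Dom V π ν) (ha : Prob a) (hV : 0 ≤ V)
    (hπ : Pos π) : Dom V (π * a) (ν * a) := by
  have := h.mul (Dom.self_prob ha) hV hπ
  rwa [mul_one] at this

/-- two-sided multiplication by a nonnegative measure: the mass is lost -/
theorem Dom.mulLeft_pos {V : ℝ} {s π ν : MA G} (h : Dom V π ν) (hs : Pos s) :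
    Dom (Crest.Agent.R300LB.mass s * V) (s * π) (s * ν) :=
  (Dom.self hs).mul h hs.mass_nonneg hs

theorem Dom.mulRight_pos {V : ℝ} {s π ν : MA G} (h : Dom V π ν) (hs : Pos s) (hV : 0 ≤ V)
    (hπ : Pos π) : Dom (V * Crest.Agent.R300LB.mass s) (π * s) (ν * s) :=
  h.mul (Dom.self hs) hV hπ

/-- change of reference along `Le` -/
theorem Dom.le {V : ℝ} {π π' ν : MA G} (h : Dom V π ν) (hV : 0 ≤ V) (hle : Le π π') :
    Dom V π' ν := fun f =>
  (h f).trans (mul_le_mul_of_nonneg_left (hle.ev_le fun _ => sq_nonneg _) hV)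


/-! ### N6 : first mark orthogonality -/







/-- the two-term step of the orthogonality argument -/
theorem orth_step {V h T : ℝ} {a Δ H S π : MA G} (ha : Prob a) (hπ : Pos π)
    (hΔ0 : mass Δ = 0) (hΔ : Dom V a Δ) (hV : 0 ≤ V) (hH : Dom h π H) (hh : 0 ≤ h)
    (hS : Dom T π S) (hT : 0 ≤ T) :
    Dom (V * h + T) (a * π) (Δ * H + a * S) := fun f => by
  rw [ev_add, ev_mul Δ H, ev_mul a S, ev_mul a π, ev_swap Δ H, ev_swap a S, ev_swap a π]
  set D : G → ℝ := fun v => ev Δ (fun u => f (u * v)) with hD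
  set E : G → ℝ := fun v => ev a (fun u => f (u * v)) with hE
  set Q : G → ℝ := fun v => ev a (fun u => f (u * v) ^ 2) with hQ
  have hDQ : ∀ v, D v ^ 2 + V * E v ^ 2 ≤ V * Q v := fun v => by
    have := hΔ.var ha hΔ0 (fun u => f (u * v))
    simp only [hD, hE, hQ]
    linarith
  have A1 : (ev H D) ^ 2 ≤ h * ev π (fun v => D v ^ 2) := hH D
  have A2 : (ev S E) ^ 2 ≤ T * ev π (fun v => E v ^ 2) := hS E
  set x := ev H D
  set y := ev S E
  set P := ev π (fun v => D v ^ 2)
  set R := ev π (fun v => E v ^ 2)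
  have hP : 0 ≤ P := hπ.ev_sq _
  have hR : 0 ≤ R := hπ.ev_sq _
  have hsum : P + V * R ≤ V * ev π Q := by
    have := hπ.mono (f := fun v => D v ^ 2 + V * E v ^ 2) (g := fun v => V * Q v) hDQ
    rwa [ev_add_fun, ev_mul_fun, ev_mul_fun] at this
  have hQ0 : 0 ≤ ev π Q := hπ _ fun v => ha.pos _ fun _ => sq_nonneg _
  -- (x+y)^2 ≤ (V h + T) * ev π Q
  rcases eq_or_lt_of_le hV with hV0 | hVpos
  · subst hV0
    -- then P = 0, so x = 0
    have hP0 : P = 0 := le_antisymm (by nlinarith) hP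
    have hx0 : x = 0 := by
      have : x ^ 2 ≤ 0 := by rw [hP0, mul_zero] at A1; exact A1
      nlinarith [sq_nonneg x]
    have hEQ : R ≤ ev π Q := by
      refine hπ.mono fun v => ?_
      have := (Dom.self_prob ha) (fun u => f (u * v))
      simpa [hE, hQ] using this
    calc (x + y) ^ 2 = y ^ 2 := by rw [hx0, zero_add]
      _ ≤ T * R := A2
      _ ≤ T * ev π Q := mul_le_mul_of_nonneg_left hEQ hT
      _ = (0 * h + T) * ev π Q := by ring
  · -- V > 0
    have key : (x + y) ^ 2 ≤ (V * h + T) * (P / V + R) := by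
      have hxy : (x * y) ^ 2 ≤ (h * P) * (T * R) := by
        rw [mul_pow]
        exact mul_le_mul A1 A2 (sq_nonneg _) (mul_nonneg hh hP)
      have e : (V * h + T) * (P / V + R) = h * P + T * R + (V * h * R + T * (P / V)) := by
        field_simp
        ring
      rw [e]
      have h3 : 2 * (x * y) ≤ V * h * R + T * (P / V) := by
        set X := V * h * R
        set Y := T * (P / V)
        have hX : 0 ≤ X := by positivity
        have hY : 0 ≤ Y := by positivity
        have hXY : X * Y = (h * P) * (T * R) := by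
          simp only [X, Y]; field_simp
        have h4 : (2 * (x * y)) ^ 2 ≤ (X + Y) ^ 2 := by nlinarith [sq_nonneg (X - Y)]
        have := abs_le_of_sq_le_sq' h4 (by positivity)
        linarith [this.2]
      nlinarith
    refine key.trans (mul_le_mul_of_nonneg_left ?_ (by positivity))
    have : P / V + R = (P + V * R) / V := by field_simp
    rw [this, div_le_iff₀ hVpos]
    linarith



/-! ### subset (slot) expansions -/













/-! ### calculus of `Le` -/

theorem Le.add {μ ν μ' ν' : MA G} (h : Le μ ν) (h' : Le μ' ν') : Le (μ + μ') (ν + ν') := fun f hf => by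
  have h1 := h.ev_le hf
  have h2 := h'.ev_le hf
  rw [ev_sub, ev_add, ev_add]; linarith

theorem Le.smul {μ ν : MA G} (h : Le μ ν) {c : ℝ} (hc : 0 ≤ c) : Le (c • μ) (c • ν) := fun f hf => by
  have h1 := h.ev_le hf
  rw [ev_sub, ev_smul, ev_smul]
  nlinarith

theorem Le.mul {μ ν μ' ν' : MA G} (h : Le μ ν) (h' : Le μ' ν') (hμ' : Pos μ') (hν : Pos ν) :
    Le (μ * μ') (ν * ν') :=
  (h.mul_right hμ').trans (h'.mul_left hν)

theorem Le.pow {μ ν : MA G} (h : Le μ ν) (hμ : Pos μ) (n : ℕ) : Le (μ ^ n) (ν ^ n) := by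
  induction n with
  | zero => simpa using Le.refl 1
  | succ n ih =>
    rw [pow_succ, pow_succ]
    exact ih.mul h hμ ((h.pos hμ).pow n)

theorem Le.mass_le {μ ν : MA G} (h : Le μ ν) : mass μ ≤ mass ν := h.ev_le fun _ => zero_le_one

theorem le_smul_self {ν : MA G} (h : Pos ν) {c : ℝ} (hc : 1 ≤ c) : Le ν (c • ν) := fun f hf => by
  have := h f hf
  rw [ev_sub, ev_smul]; nlinarith

theorem smul_le_self {ν : MA G} (h : Pos ν) {c : ℝ} (hc : c ≤ 1) : Le (c • ν) ν := fun f hf => by
  have := h f hf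
  rw [ev_sub, ev_smul]; nlinarith

/-! ### calculus of `Bd` -/

theorem Bd.abs {u : ℝ} {a Δ : MA G} (h : Bd u a Δ) (f : G → ℝ) :
    |ev Δ f| ≤ u * ev a (fun w => |f w|) := by
  have h1 := h (fun w => max (f w) 0) (fun w => le_max_right _ _)
  have h2 := h (fun w => max (-f w) 0) (fun w => le_max_right _ _)
  have e : ev Δ f = ev Δ (fun w => max (f w) 0) - ev Δ (fun w => max (-f w) 0) := by
    rw [← ev_sub_fun]
    exact ev_congr _ fun w => by
      rcases le_total 0 (f w) with h | h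
      · rw [max_eq_left h, max_eq_right (by linarith)]; ring
      · rw [max_eq_right h, max_eq_left (by linarith)]; ring
  have e' : ev a (fun w => |f w|)
      = ev a (fun w => max (f w) 0) + ev a (fun w => max (-f w) 0) := by
    rw [← ev_add_fun]
    exact ev_congr _ fun w => by
      rcases le_total 0 (f w) with h | h
      · rw [max_eq_left h, max_eq_right (by linarith), abs_of_nonneg h]; ring
      · rw [max_eq_right h, max_eq_left (by linarith), abs_of_nonpos h]; ring
  rw [e, e']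
  calc |ev Δ (fun w => max (f w) 0) - ev Δ (fun w => max (-f w) 0)|
      ≤ |ev Δ (fun w => max (f w) 0)| + |ev Δ (fun w => max (-f w) 0)| := abs_sub _ _
    _ ≤ _ := by linarith

theorem Bd.zero {u : ℝ} {a : MA G} (hu : 0 ≤ u) (ha : Pos a) : Bd u a 0 := fun f hf => by
  rw [ev_zero, abs_zero]; exact mul_nonneg hu (ha f hf)

theorem Bd.self {a : MA G} (ha : Pos a) : Bd 1 a a := fun f hf => by
  rw [abs_of_nonneg (ha f hf), one_mul]

theorem Bd.neg {u : ℝ} {a Δ : MA G} (h : Bd u a Δ) : Bd u a (-Δ) := fun f hf => by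
  rw [ev_neg, abs_neg]; exact h f hf

theorem Bd.add {u v : ℝ} {a μ ν : MA G} (h1 : Bd u a μ) (h2 : Bd v a ν) : Bd (u + v) a (μ + ν) :=
  fun f hf => by
    rw [ev_add, add_mul]
    exact (abs_add_le _ _).trans (add_le_add (h1 f hf) (h2 f hf))

theorem Bd.sub {u v : ℝ} {a μ ν : MA G} (h1 : Bd u a μ) (h2 : Bd v a ν) : Bd (u + v) a (μ - ν) := by
  rw [sub_eq_add_neg]; exact h1.add h2.neg

theorem Bd.sum {ι : Type*} {s : Finset ι} {u : ι → ℝ} {a : MA G} (ha : Pos a) {ν : ι → MA G}
    (h : ∀ i ∈ s, Bd (u i) a (ν i)) : Bd (∑ i ∈ s, u i) a (∑ i ∈ s, ν i) := by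
  classical
  induction s using Finset.induction_on with
  | empty => simpa using Bd.zero le_rfl ha
  | insert i s hi ih =>
    rw [Finset.sum_insert hi, Finset.sum_insert hi]
    exact (h i (Finset.mem_insert_self _ _)).add
      (ih fun j hj => h j (Finset.mem_insert_of_mem hj))

theorem Bd.smul {u : ℝ} {a Δ : MA G} (h : Bd u a Δ) (c : ℝ) : Bd (|c| * u) a (c • Δ) := fun f hf => by
  rw [ev_smul, abs_mul, mul_assoc]
  exact mul_le_mul_of_nonneg_left (h f hf) (abs_nonneg _)

theorem Bd.mono {u v : ℝ} {a Δ : MA G} (h : Bd u a Δ) (huv : u ≤ v) (ha : Pos a) : Bd v a Δ :=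
  fun f hf => (h f hf).trans (mul_le_mul_of_nonneg_right huv (ha f hf))


theorem Bd.mul {u v : ℝ} {a b Δ Γ : MA G} (h1 : Bd u a Δ) (h2 : Bd v b Γ) (hu : 0 ≤ u)
    (ha : Pos a) : Bd (u * v) (a * b) (Δ * Γ) := fun f hf => by
  rw [ev_mul, ev_mul]
  refine (h1.abs _).trans ?_
  rw [mul_assoc]
  refine mul_le_mul_of_nonneg_left ?_ hu
  rw [← ev_mul_fun]
  exact ha.mono fun w => h2 _ fun v => hf _

theorem Bd.mulLeft {u : ℝ} {a b Γ : MA G} (h : Bd u b Γ) (ha : Pos a) : Bd u (a * b) (a * Γ) := by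
  have := (Bd.self ha).mul h zero_le_one ha
  rwa [one_mul] at this

theorem Bd.mulRight {u : ℝ} {a b Γ : MA G} (h : Bd u b Γ) (hu : 0 ≤ u) (hb : Pos b) (ha : Pos a) :
    Bd u (b * a) (Γ * a) := by
  have := h.mul (Bd.self ha) hu hb
  rwa [mul_one] at this

theorem Bd.lower {u : ℝ} {a Δ : MA G} (h : Bd u a Δ) : Le ((1 - u) • a) (a - Δ) := fun f hf => by
  have := (abs_le.1 (h f hf)).2
  rw [ev_sub, ev_sub, ev_smul]; linarith

theorem Bd.upper {u : ℝ} {a Δ : MA G} (h : Bd u a Δ) : Le (a - Δ) ((1 + u) • a) := fun f hf => by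
  have := (abs_le.1 (h f hf)).1
  rw [ev_sub, ev_sub, ev_smul]; linarith


theorem Bd.dom {u : ℝ} {a Δ : MA G} (h : Bd u a Δ) (ha : Prob a) : Dom (u ^ 2) a Δ := fun f => by
  have h1 := h.abs f
  have h2 : (ev a fun w => |f w|) ^ 2 ≤ ev a fun w => f w ^ 2 := by
    have := (Dom.self_prob ha) (fun w => |f w|)
    simpa using this
  have h3 : 0 ≤ ev a fun w => |f w| := ha.pos _ fun _ => abs_nonneg _
  calc (ev Δ f) ^ 2 = |ev Δ f| ^ 2 := by rw [sq_abs]
    _ ≤ (u * ev a (fun w => |f w|)) ^ 2 := pow_le_pow_left₀ (abs_nonneg _) h1 2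
    _ = u ^ 2 * (ev a fun w => |f w|) ^ 2 := by ring
    _ ≤ _ := mul_le_mul_of_nonneg_left h2 (sq_nonneg _)

/-- products of factors close to `a` -/
theorem Bd.prod_lower {u : ℝ} {a : MA G} (ha : Prob a) (hu : u ≤ 1) :
    ∀ l : List (MA G), (∀ b ∈ l, Le ((1 - u) • a) b) → Le ((1 - u) ^ l.length • a ^ l.length) l.prod := by
  intro l
  induction l with
  | nil => intro _; simpa using Le.refl 1
  | cons b l ih =>
    intro h
    have h1 := h b List.mem_cons_self
    have h2 := ih fun c hc => h c (List.mem_cons_of_mem _ hc)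
    have hb : Pos b := h1.pos (ha.pos.smul (by linarith))
    have := h1.mul h2 ((ha.pow _).pos.smul (pow_nonneg (by linarith) _)) hb
    rw [List.prod_cons, List.length_cons]
    refine Eq.subst (motive := fun z => Le z (b * l.prod)) ?_ this
    rw [smul_mul_smul_comm, pow_succ', pow_succ']

theorem Bd.prod_upper {u : ℝ} {a : MA G} (ha : Prob a) (hu : 0 ≤ u) :
    ∀ l : List (MA G), (∀ b ∈ l, Pos b ∧ Le b ((1 + u) • a)) →
      Le l.prod ((1 + u) ^ l.length • a ^ l.length) := by
  intro l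
  induction l with
  | nil => intro _; simpa using Le.refl 1
  | cons b l ih =>
    intro h
    have h1 := h b List.mem_cons_self
    have h2 := ih fun c hc => h c (List.mem_cons_of_mem _ hc)
    have hl : Pos l.prod := by
      have : ∀ l : List (MA G), (∀ c ∈ l, Pos c) → Pos l.prod := by
        intro l
        induction l with
        | nil => intro _; simpa using Pos.one
        | cons c l ih =>
          intro h
          rw [List.prod_cons]
          exact (h c List.mem_cons_self).mul (ih fun d hd => h d (List.mem_cons_of_mem _ hd))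
      exact this l fun c hc => (h c (List.mem_cons_of_mem _ hc)).1
    have := h1.2.mul h2 hl (ha.pos.smul (by linarith))
    rw [List.prod_cons, List.length_cons]
    refine Eq.subst (motive := fun z => Le (b * l.prod) z) ?_ this
    rw [smul_mul_smul_comm, pow_succ', pow_succ']

/-! ### calculus of `TVle` -/

theorem TVle.nonneg {τ : ℝ} {ν : MA G} (h : TVle τ ν) : 0 ≤ τ :=
  (abs_nonneg _).trans (h (fun _ => 0) (fun _ => by simp))

theorem TVle.zero : TVle 0 (0 : MA G) := fun f _ => by rw [ev_zero, abs_zero]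

theorem TVle.neg {τ : ℝ} {ν : MA G} (h : TVle τ ν) : TVle τ (-ν) := fun f hf => by
  rw [ev_neg, abs_neg]; exact h f hf

theorem TVle.add {s t : ℝ} {μ ν : MA G} (h1 : TVle s μ) (h2 : TVle t ν) : TVle (s + t) (μ + ν) :=
  fun f hf => by
    rw [ev_add]; exact (abs_add_le _ _).trans (add_le_add (h1 f hf) (h2 f hf))

theorem TVle.sub {s t : ℝ} {μ ν : MA G} (h1 : TVle s μ) (h2 : TVle t ν) : TVle (s + t) (μ - ν) := by
  rw [sub_eq_add_neg]; exact h1.add h2.neg

theorem TVle.mono {s t : ℝ} {ν : MA G} (h : TVle s ν) (hst : s ≤ t) : TVle t ν :=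
  fun f hf => (h f hf).trans hst

theorem TVle.smul {t : ℝ} {ν : MA G} (h : TVle t ν) (c : ℝ) : TVle (|c| * t) (c • ν) := fun f hf => by
  rw [ev_smul, abs_mul]; exact mul_le_mul_of_nonneg_left (h f hf) (abs_nonneg _)

theorem TVle.sum {ι : Type*} {s : Finset ι} {t : ι → ℝ} {ν : ι → MA G}
    (h : ∀ i ∈ s, TVle (t i) (ν i)) : TVle (∑ i ∈ s, t i) (∑ i ∈ s, ν i) := by
  classical
  induction s using Finset.induction_on with
  | empty => simpa using TVle.zero
  | insert i s hi ih =>
    rw [Finset.sum_insert hi, Finset.sum_insert hi]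
    exact (h i (Finset.mem_insert_self _ _)).add
      (ih fun j hj => h j (Finset.mem_insert_of_mem hj))

/-- scaled form -/
theorem TVle.scaled {t c : ℝ} {ν : MA G} (h : TVle t ν) (hc : 0 ≤ c) {f : G → ℝ}
    (hf : ∀ w, |f w| ≤ c) : |ev ν f| ≤ c * t := by
  rcases eq_or_lt_of_le hc with h0 | h0
  · subst h0
    have : ev ν f = 0 := by
      have e : ev ν f = ev ν (fun _ => 0 * (0:ℝ)) :=
        ev_congr _ fun w => by
          have := abs_nonpos_iff.1 (hf w)
          rw [this]; ring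
      rw [e, ev_mul_fun, zero_mul]
    rw [this]; simp
  · have h1 := h (fun w => c⁻¹ * f w) fun w => by
      rw [abs_mul, abs_of_pos (inv_pos.2 h0)]
      calc c⁻¹ * |f w| ≤ c⁻¹ * c := mul_le_mul_of_nonneg_left (hf w) (inv_pos.2 h0).le
        _ = 1 := inv_mul_cancel₀ h0.ne'
    rw [ev_mul_fun, abs_mul, abs_of_pos (inv_pos.2 h0)] at h1
    calc |ev ν f| = c * (c⁻¹ * |ev ν f|) := by field_simp
      _ ≤ c * t := mul_le_mul_of_nonneg_left h1 hc

theorem TVle.mul {s t : ℝ} {μ ν : MA G} (h1 : TVle s μ) (h2 : TVle t ν) : TVle (s * t) (μ * ν) :=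
  fun f hf => by
    rw [ev_mul, mul_comm s t]
    exact h1.scaled h2.nonneg fun w => h2 _ fun v => hf _

theorem TVle.of_pos {a : MA G} (h : Pos a) : TVle (mass a) a := fun f hf => by
  have h1 := h.mono (f := f) (g := fun _ => 1) fun w => (abs_le.1 (hf w)).2
  have h2 := h.mono (f := fun _ => -1 * (1:ℝ)) (g := f) fun w => by
    have := (abs_le.1 (hf w)).1
    linarith
  rw [ev_mul_fun] at h2
  unfold mass
  exact abs_le.2 ⟨by linarith, h1⟩

theorem TVle.of_prob {a : MA G} (h : Prob a) : TVle 1 a := by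
  have := TVle.of_pos h.pos
  rwa [h.one] at this

theorem TVle.of_dom {V : ℝ} {π ν : MA G} (h : Dom V π ν) (hV : 0 ≤ V) (hπ : Prob π) :
    TVle (Real.sqrt V) ν := fun f hf => by
  have h1 := h f
  have h2 : ev π (fun w => f w ^ 2) ≤ 1 := by
    have := hπ.pos.mono (f := fun w => f w ^ 2) (g := fun _ => 1) fun w => by
      have := hf w
      nlinarith [abs_nonneg (f w), sq_abs (f w)]
    exact this.trans (le_of_eq hπ.one)
  exact Real.abs_le_sqrt (h1.trans (by nlinarith))

theorem TVle.mulLeft {t : ℝ} {a ν : MA G} (h : TVle t ν) (ha : TVle 1 a) : TVle t (a * ν) := by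
  have := ha.mul h
  rwa [one_mul] at this

theorem TVle.mulRight {t : ℝ} {a ν : MA G} (h : TVle t ν) (ha : TVle 1 a) : TVle t (ν * a) := by
  have := h.mul ha
  rwa [mul_one] at this

/-- telescoping of two products of `ℓ¹` contractions -/
theorem TVle.prod {τ : ℝ} : ∀ (l : List (MA G × MA G)),
    (∀ p ∈ l, TVle 1 p.1 ∧ TVle 1 p.2 ∧ TVle τ (p.1 - p.2)) →
      TVle (l.length * τ) ((l.map Prod.fst).prod - (l.map Prod.snd).prod) ∧
      TVle 1 (l.map Prod.fst).prod ∧ TVle 1 (l.map Prod.snd).prod := by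
  intro l
  induction l with
  | nil =>
    intro _
    simp only [List.map_nil, List.prod_nil, sub_self, List.length_nil, Nat.cast_zero, zero_mul]
    exact ⟨TVle.zero, TVle.of_prob Prob.one', TVle.of_prob Prob.one'⟩
  | cons p l ih =>
    intro h
    obtain ⟨h1, h2, h3⟩ := h p List.mem_cons_self
    obtain ⟨i1, i2, i3⟩ := ih fun c hc => h c (List.mem_cons_of_mem _ hc)
    simp only [List.map_cons, List.prod_cons, List.length_cons]
    refine ⟨?_, ?_, ?_⟩
    · have e : p.1 * (l.map Prod.fst).prod - p.2 * (l.map Prod.snd).prod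
          = (p.1 - p.2) * (l.map Prod.fst).prod
            + p.2 * ((l.map Prod.fst).prod - (l.map Prod.snd).prod) := by
        rw [sub_mul, mul_sub]; abel
      rw [e]
      refine ((h3.mulRight i2).add (i1.mulLeft h2)).mono ?_
      push_cast; linarith
    · have := h1.mul i2
      rwa [one_mul] at this
    · have := h2.mul i3
      rwa [one_mul] at this

theorem TVle.pow {τ : ℝ} {a b : MA G} (ha : TVle 1 a) (hb : TVle 1 b) (h : TVle τ (a - b))
    (n : ℕ) : TVle (n * τ) (a ^ n - b ^ n) := by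
  have := (TVle.prod (List.replicate n (a, b)) fun p hp => by
    rw [List.eq_of_mem_replicate hp]; exact ⟨ha, hb, h⟩).1
  simpa using this

end

end Crest.Agent.R300LB
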