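import Crest.Agent.R300.LBPlan
import Crest.Agent.R300.LBOrth

/-!
# Row 300, lower bounds, piece E2: coins lemma, `r`-fold commutators (`DerivStatement`)
-/

set_option autoImplicit false

namespace Crest.Agent.R300LB

open Finset

noncomputable section

variable {G : Type*} [Monoid G]

/-- one fair coin: multiply by `a` on the left or on the right -/
def Qa (a F : MA G) : MA G := (1 / 2 : ℝ) • (a * F + F * a)

/-- average over a binomial number of coins -/
def avg (h : ℝ) : ℕ → (ℕ → ℝ) → ℝ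
  | 0, V => V 0
  | (k + 1), V => h * avg h k (fun i => V (i + 1)) + (1 - h) * avg h k V

theorem avg_nonneg {h : ℝ} (h0 : 0 ≤ h) (h1 : h ≤ 1) : ∀ (k : ℕ) (V : ℕ → ℝ),
    (∀ i, i ≤ k → 0 ≤ V i) → 0 ≤ avg h k V
  | 0, V, hV => hV 0 le_rfl
  | (k + 1), V, hV => by
      unfold avg
      have a1 := avg_nonneg h0 h1 k (fun i => V (i + 1)) (fun i hi => hV _ (by omega))
      have a2 := avg_nonneg h0 h1 k V (fun i hi => hV _ (by omega))
      have : 0 ≤ 1 - h := by linarith
      positivity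

theorem avg_mono {h : ℝ} (h0 : 0 ≤ h) (h1 : h ≤ 1) : ∀ (k : ℕ) (V W : ℕ → ℝ),
    (∀ i, i ≤ k → V i ≤ W i) → avg h k V ≤ avg h k W
  | 0, V, W, hV => hV 0 le_rfl
  | (k + 1), V, W, hV => by
      unfold avg
      have a1 := avg_mono h0 h1 k (fun i => V (i + 1)) (fun i => W (i + 1)) (fun i hi => hV _ (by omega))
      have a2 := avg_mono h0 h1 k V W (fun i hi => hV _ (by omega))
      exact add_le_add (mul_le_mul_of_nonneg_left a1 h0)
        (mul_le_mul_of_nonneg_left a2 (by linarith))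

theorem avg_mul (h c : ℝ) : ∀ (k : ℕ) (V : ℕ → ℝ), avg h k (fun i => c * V i) = c * avg h k V
  | 0, V => rfl
  | (k + 1), V => by
      unfold avg
      rw [avg_mul h c k (fun i => V (i + 1)), avg_mul h c k V]
      ring

theorem avg_eq (h : ℝ) : ∀ (k : ℕ) (V : ℕ → ℝ),
    avg h k V = ∑ i ∈ range (k + 1), (k.choose i : ℝ) * h ^ i * (1 - h) ^ (k - i) * V i
  | 0, V => by simp [avg]
  | (k + 1), V => by
      unfold avg
      rw [avg_eq h k (fun i => V (i + 1)), avg_eq h k V]
      rw [sum_range_succ' _ (k + 1)]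
      have e1 : ∀ i ∈ range (k + 1), ((k + 1).choose (i + 1) : ℝ) * h ^ (i + 1) *
          (1 - h) ^ (k + 1 - (i + 1)) * V (i + 1) =
          h * ((k.choose i : ℝ) * h ^ i * (1 - h) ^ (k - i) * V (i + 1)) +
          (k.choose (i + 1) : ℝ) * h ^ (i + 1) * (1 - h) ^ (k - i) * V (i + 1) := by
        intro i _
        rw [Nat.choose_succ_succ]
        push_cast
        have e0 : i.succ = i + 1 := rfl
        rw [e0]
        ring
      rw [sum_congr rfl e1, sum_add_distrib, ← mul_sum, add_assoc]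
      congr 1
      rw [sum_range_succ (fun x => (k.choose (x + 1) : ℝ) * h ^ (x + 1) * (1 - h) ^ (k - x) *
        V (x + 1)) k, Nat.choose_succ_self]
      simp only [Nat.cast_zero, zero_mul, add_zero]
      rw [mul_sum, sum_range_succ']
      congr 1
      · refine sum_congr rfl (fun i hi => ?_)
        have hi := mem_range.mp hi
        have e2 : (1 - h) ^ (k - i) = (1 - h) * (1 - h) ^ (k - (i + 1)) := by
          rw [← pow_succ']
          congr 1
          omega
        rw [e2]
        ring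
      · simp only [Nat.choose_zero_right, Nat.cast_one, pow_zero, Nat.sub_zero, mul_one, one_mul]
        rw [pow_succ']
        ring

/-! ## positive two-sided operators -/

theorem Dom.add_ref {V1 V2 : ℝ} {π1 π2 ν1 ν2 : MA G} (h1 : Dom V1 π1 ν1) (h2 : Dom V2 π2 ν2)
    (hV1 : 0 ≤ V1) (hV2 : 0 ≤ V2) (hπ1 : Pos π1) (hπ2 : Pos π2) :
    Dom (V1 + V2) (π1 + π2) (ν1 + ν2) := by
  have := Dom.mix h1 h2 one_pos one_pos hV1 hV2 hπ1 hπ2
  simpa using this

theorem Dom.half {V : ℝ} {π ν : MA G} (h : Dom V π ν) :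
    Dom (1 / 2 * V) ((1 / 2 : ℝ) • π) ((1 / 2 : ℝ) • ν) := fun f => by
  rw [ev_smul, ev_smul]
  have := h f
  nlinarith

/-- `σ · σ'` with positive `σ, σ'` -/
theorem Dom.sandwich {V : ℝ} {π ν σ σ' : MA G} (h : Dom V π ν) (hV : 0 ≤ V) (hπ : Pos π)
    (hσ : Pos σ) (hσ' : Pos σ') : Dom (mass σ * mass σ' * V) (σ * π * σ') (σ * ν * σ') := by
  have h1 := Dom.mul (Dom.mul (Dom.self hσ) h hσ.mass_nonneg hσ) (Dom.self hσ')
    (mul_nonneg hσ.mass_nonneg hV) (hσ.mul hπ)
  refine h1.congr (by ring)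

theorem Qa_pos {a F : MA G} (ha : Pos a) (hF : Pos F) : Pos (Qa a F) :=
  ((ha.mul hF).add (hF.mul ha)).smul (by norm_num)

theorem Qa_iter_pos {a F : MA G} (ha : Pos a) (hF : Pos F) (i : ℕ) : Pos ((Qa a)^[i] F) := by
  induction i generalizing F with
  | zero => exact hF
  | succ i ih => rw [Function.iterate_succ_apply]; exact ih (Qa_pos ha hF)


theorem Qa_smul (a F : MA G) (c : ℝ) : Qa a (c • F) = c • Qa a F := by
  unfold Qa
  rw [mul_smul_comm, smul_mul_assoc, ← smul_add, smul_comm]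

theorem Qa_pow (a : MA G) (l : ℕ) : Qa a (a ^ l) = a ^ (l + 1) := by
  unfold Qa
  rw [← pow_succ, ← pow_succ', ← two_smul ℝ, smul_smul]
  norm_num

theorem Qa_iter_pow (a : MA G) (l r : ℕ) : (Qa a)^[r] (a ^ l) = a ^ (l + r) := by
  induction r generalizing l with
  | zero => rfl
  | succ r ih => rw [Function.iterate_succ_apply, Qa_pow, ih]; congr 1; ring

/-- `Q` commutes with the sandwich by powers of `a` -/
theorem Qa_sandwich (a F : MA G) (K : ℕ) : Qa a (a ^ K * F * a ^ K) = a ^ K * Qa a F * a ^ K := by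
  unfold Qa
  rw [mul_smul_comm, smul_mul_assoc]
  congr 1
  have h1 : a * a ^ K = a ^ K * a := (Commute.refl a).pow_right K
  calc a * (a ^ K * F * a ^ K) + a ^ K * F * a ^ K * a
      = (a * a ^ K) * F * a ^ K + a ^ K * F * (a ^ K * a) := by noncomm_ring
    _ = (a ^ K * a) * F * a ^ K + a ^ K * F * (a * a ^ K) := by rw [h1]
    _ = _ := by noncomm_ring

/-- one block of the coins lemma -/
theorem coins_step {a s X X' π π' : MA G} {R : ℕ} {v v' : ℝ} (ha : Prob a) (hs : Slip a R s)
    (hv : 0 ≤ v) (hv' : 0 ≤ v') (hπ : Pos π) (hπ' : Pos π')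
    (hX : Dom v π X) (hX' : Dom v' π' X') (eX : Qa a X = X') (eπ : Qa a π = π') :
    Dom ((mass s) ^ 2 * v' + (1 - (mass s) ^ 2) * v) (a ^ (R + 1) * π * a ^ (R + 1))
      (a ^ (R + 1) * X * a ^ (R + 1)) := by
  set b := a ^ (R + 1) with hb
  have hbp : Prob b := ha.pow _
  have hms : 0 ≤ mass s := hs.mpos.le
  have p1 : Pos (b - s * a) := by
    have : Le (s * a) (a ^ R * a) := hs.le0.mul_right ha.pos
    rw [← pow_succ] at this
    exact this
  have p2 : Pos (b - s) := hs.le1
  have p3 : Pos (b - a * s) := by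
    have : Le (a * s) (a * a ^ R) := hs.le0.mul_left ha.pos
    rw [← pow_succ'] at this
    exact this
  have m1 : mass (b - s * a) = 1 - mass s := by rw [mass_sub, mass_mul, hbp.one, ha.one, mul_one]
  have m2 : mass (b - s) = 1 - mass s := by rw [mass_sub, hbp.one]
  have m3 : mass (b - a * s) = 1 - mass s := by rw [mass_sub, mass_mul, hbp.one, ha.one, one_mul]
  have psa : Pos (s * a) := hs.pos.mul ha.pos
  have pas : Pos (a * s) := ha.pos.mul hs.pos
  have msa : mass (s * a) = mass s := by rw [mass_mul, ha.one, mul_one]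
  have mas : mass (a * s) = mass s := by rw [mass_mul, ha.one, one_mul]
  have hm1 : 0 ≤ 1 - mass s := by rw [← m2]; exact p2.mass_nonneg
  -- decomposition
  have dec : ∀ F : MA G, b * F * b = s * Qa a F * s +
      ((1 / 2 : ℝ) • (((b - s * a) * F * b + (s * a) * F * (b - s)) +
        ((b * F * (b - a * s)) + (b - s) * F * (a * s)))) := by
    intro F
    have e1 : ((b - s * a) * F * b + (s * a) * F * (b - s)) +
        ((b * F * (b - a * s)) + (b - s) * F * (a * s)) =
        (b * F * b + b * F * b) - (s * (a * F + F * a) * s) := by noncomm_ring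
    rw [e1]
    unfold Qa
    rw [mul_smul_comm, smul_mul_assoc, smul_sub, ← two_smul ℝ (b * F * b), smul_smul]
    norm_num
  rw [dec X, dec π, eX, eπ]
  have d0 : Dom ((mass s) ^ 2 * v') (s * π' * s) (s * X' * s) :=
    (Dom.sandwich hX' hv' hπ' hs.pos hs.pos).congr (by ring)
  have d1 := Dom.sandwich hX hv hπ p1 hbp.pos
  have d2 := Dom.sandwich hX hv hπ psa p2
  have d3 := Dom.sandwich hX hv hπ hbp.pos p3
  have d4 := Dom.sandwich hX hv hπ p2 pas
  rw [m1, hbp.one] at d1
  rw [msa, m2] at d2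
  rw [hbp.one, m3] at d3
  rw [m2, mas] at d4
  have q1 : Pos ((b - s * a) * π * b) := (p1.mul hπ).mul hbp.pos
  have q2 : Pos ((s * a) * π * (b - s)) := (psa.mul hπ).mul p2
  have q3 : Pos (b * π * (b - a * s)) := (hbp.pos.mul hπ).mul p3
  have q4 : Pos ((b - s) * π * (a * s)) := (p2.mul hπ).mul pas
  have s1 := Dom.add_ref d1 d2 (by positivity) (by positivity) q1 q2
  have s2 := Dom.add_ref d3 d4 (by positivity) (by positivity) q3 q4
  have s3 := (Dom.add_ref s1 s2 (by positivity) (by positivity) (q1.add q2) (q3.add q4)).half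
  have s4 := Dom.add_ref d0 s3 (by positivity) (by positivity) ((hs.pos.mul hπ').mul hs.pos)
    (((q1.add q2).add (q3.add q4)).smul (by norm_num))
  refine s4.congr (by ring)

/-- **coins lemma** -/
theorem coins {a s : MA G} {R : ℕ} (ha : Prob a) (hs : Slip a R s) (hs1 : mass s ≤ 1) :
    ∀ (k : ℕ) (V : ℕ → ℝ) (π F : MA G), (∀ i, i ≤ k → 0 ≤ V i) → Pos π →
      (∀ i, i ≤ k → Dom (V i) ((Qa a)^[i] π) ((Qa a)^[i] F)) →
      Dom (avg ((mass s) ^ 2) k V) (a ^ ((R + 1) * k) * π * a ^ ((R + 1) * k))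
        (a ^ ((R + 1) * k) * F * a ^ ((R + 1) * k)) := by
  have hms : 0 ≤ mass s := hs.mpos.le
  have hh0 : 0 ≤ (mass s) ^ 2 := sq_nonneg _
  have hh1 : (mass s) ^ 2 ≤ 1 := by nlinarith
  intro k
  induction k with
  | zero =>
    intro V π F _ _ h
    simpa [avg] using h 0 le_rfl
  | succ k ih =>
    intro V π F hV hπ h
    have i1 := ih (fun i => V (i + 1)) (Qa a π) (Qa a F) (fun i hi => hV _ (by omega))
      (Qa_pos ha.pos hπ) (fun i hi => by
        have := h (i + 1) (by omega)
        rwa [Function.iterate_succ_apply, Function.iterate_succ_apply] at this)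
    have i2 := ih V π F (fun i hi => hV _ (by omega)) hπ (fun i hi => h i (by omega))
    have n1 := avg_nonneg hh0 hh1 k (fun i => V (i + 1)) (fun i hi => hV _ (by omega))
    have n2 := avg_nonneg hh0 hh1 k V (fun i hi => hV _ (by omega))
    have := coins_step ha hs n2 n1 (((ha.pos.pow _).mul hπ).mul (ha.pos.pow _))
      (((ha.pos.pow _).mul (Qa_pos ha.pos hπ)).mul (ha.pos.pow _)) i2 i1
      (Qa_sandwich a F _) (Qa_sandwich a π _)
    have e : ∀ Y : MA G, a ^ (R + 1) * (a ^ ((R + 1) * k) * Y * a ^ ((R + 1) * k)) * a ^ (R + 1) =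
        a ^ ((R + 1) * (k + 1)) * Y * a ^ ((R + 1) * (k + 1)) := by
      intro Y
      have e1 : a ^ ((R + 1) * (k + 1)) = a ^ (R + 1) * a ^ ((R + 1) * k) := by
        rw [← pow_add]; congr 1; ring
      have e2 : a ^ ((R + 1) * (k + 1)) = a ^ ((R + 1) * k) * a ^ (R + 1) := by
        rw [← pow_add]; congr 1
      calc _ = (a ^ (R + 1) * a ^ ((R + 1) * k)) * Y * (a ^ ((R + 1) * k) * a ^ (R + 1)) := by
            noncomm_ring
        _ = _ := by rw [← e1, ← e2]
    rw [e, e] at this
    exact this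

/-! ## commutators -/

/-- coin step: `Q X + (1/2) Dif Y` -/
theorem coin_dif {a π X Y : MA G} {c1 c2 : ℝ} (ha : Prob a) (hπ : Pos π) (h1 : 0 ≤ c1)
    (h2 : 0 ≤ c2) (hX : Dom c1 π X) (hY : Dom c2 π Y) :
    Dom (c1 + c2) (Qa a π) (Qa a X + (1 / 2 : ℝ) • Dif a Y) := fun f => by
  unfold Qa Dif
  rw [ev_add, ev_smul, ev_smul, ev_smul, ev_add, ev_add, ev_sub]
  rw [ev_mul a X, ev_mul X a, ev_mul a Y, ev_mul Y a, ev_mul a π, ev_mul π a]
  rw [ev_swap a X, ev_swap a Y, ev_swap a π]
  set fL : G → ℝ := fun v => ev a (fun u => f (u * v)) with hfL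
  set fR : G → ℝ := fun v => ev a (fun u => f (v * u)) with hfR
  have eX : ev X fL + ev X fR = ev X (fun w => fL w + fR w) := (ev_add_fun _ _ _).symm
  have eY : ev Y fL - ev Y fR = ev Y (fun w => fL w - fR w) := (ev_sub_fun _ _ _).symm
  rw [eX, eY]
  have dX := hX (fun w => fL w + fR w)
  have dY := hY (fun w => fL w - fR w)
  have jL : ev π (fun w => fL w ^ 2) ≤ ev π (fun v => ev a (fun u => f (u * v) ^ 2)) :=
    hπ.mono (fun v => by
      have := ha.pos.cauchy (fun _ => 1) (fun u => f (u * v))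
      simp only [one_mul, one_pow] at this
      rwa [ev_const ha, one_mul] at this)
  have jR : ev π (fun w => fR w ^ 2) ≤ ev π (fun v => ev a (fun u => f (v * u) ^ 2)) :=
    hπ.mono (fun v => by
      have := ha.pos.cauchy (fun _ => 1) (fun u => f (v * u))
      simp only [one_mul, one_pow] at this
      rwa [ev_const ha, one_mul] at this)
  have par : ev π (fun w => (fL w + fR w) ^ 2) + ev π (fun w => (fL w - fR w) ^ 2) =
      2 * ev π (fun w => fL w ^ 2) + 2 * ev π (fun w => fR w ^ 2) := by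
    rw [← ev_add_fun, ← ev_mul_fun, ← ev_mul_fun, ← ev_add_fun]
    exact ev_congr _ (fun w => by ring)
  have pX : 0 ≤ ev π (fun w => (fL w + fR w) ^ 2) := hπ _ (fun w => sq_nonneg _)
  have pY : 0 ≤ ev π (fun w => (fL w - fR w) ^ 2) := hπ _ (fun w => sq_nonneg _)
  have key := ol_sq_add_le h1 h2 pX pY dX dY
  have : (1 / 2 * ev X (fun w => fL w + fR w) + 1 / 2 * ev Y (fun w => fL w - fR w)) ^ 2 =
      1 / 4 * (ev X (fun w => fL w + fR w) + ev Y (fun w => fL w - fR w)) ^ 2 := by ring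
  rw [this]
  have hc : 0 ≤ c1 + c2 := add_nonneg h1 h2
  have fin : ev π (fun w => (fL w + fR w) ^ 2) + ev π (fun w => (fL w - fR w) ^ 2) ≤
      2 * (ev π (fun v => ev a (fun u => f (u * v) ^ 2)) +
        ev π (fun v => ev a (fun u => f (v * u) ^ 2))) := by
    rw [par]; linarith
  calc 1 / 4 * (ev X (fun w => fL w + fR w) + ev Y (fun w => fL w - fR w)) ^ 2
      ≤ 1 / 4 * ((c1 + c2) * (ev π (fun w => (fL w + fR w) ^ 2) +
        ev π (fun w => (fL w - fR w) ^ 2))) := by linarith
    _ ≤ 1 / 4 * ((c1 + c2) * (2 * (ev π (fun v => ev a (fun u => f (u * v) ^ 2)) +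
        ev π (fun v => ev a (fun u => f (v * u) ^ 2))))) := by
        have := mul_le_mul_of_nonneg_left fin hc
        linarith
    _ = _ := by ring

theorem Dif_smul (a F : MA G) (c : ℝ) : Dif a (c • F) = c • Dif a F := by
  unfold Dif
  rw [mul_smul_comm, smul_mul_assoc, ← smul_sub]

theorem Dif_Qa (a F : MA G) : Dif a (Qa a F) = Qa a (Dif a F) := by
  unfold Dif Qa
  rw [mul_smul_comm, smul_mul_assoc, ← smul_sub]
  congr 1
  noncomm_ring

theorem Dif_Qa_iter (a F : MA G) (i : ℕ) : Dif a ((Qa a)^[i] F) = (Qa a)^[i] (Dif a F) := by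
  induction i generalizing F with
  | zero => rfl
  | succ i ih => rw [Function.iterate_succ_apply, ih, Dif_Qa, ← Function.iterate_succ_apply]


theorem Dom.Qa_iter {a π F : MA G} {V : ℝ} (ha : Prob a) (hπ : Pos π) (hV : 0 ≤ V)
    (h : Dom V π F) (n : ℕ) : Dom V ((Qa a)^[n] π) ((Qa a)^[n] F) := by
  induction n with
  | zero => exact h
  | succ n ih =>
    rw [Function.iterate_succ_apply', Function.iterate_succ_apply']
    have h2 := coin_dif (Y := 0) (c2 := 0) ha (Qa_iter_pos ha.pos hπ n) hV le_rfl ih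
      (Dom.zero _ (Qa_iter_pos ha.pos hπ n) le_rfl)
    have e : Qa a ((Qa a)^[n] F) + (1 / 2 : ℝ) • Dif a 0 = Qa a ((Qa a)^[n] F) := by
      simp [Dif]
    rw [e, add_zero] at h2
    exact h2

/-- Pascal form of the commutator bound -/
theorem coin_pascal {a π F : MA G} {V : ℝ} (ha : Prob a) (hπ : Pos π) (hV : 0 ≤ V)
    (h : Dom V π F) : ∀ (n r : ℕ), r ≤ n →
    Dom ((n.choose r : ℝ) * V) ((Qa a)^[n] π)
      (((n.choose r : ℝ) * (1 / 2) ^ r) • (Qa a)^[n - r] ((Dif a)^[r] F)) := by
  intro n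
  induction n with
  | zero =>
    intro r hr
    have : r = 0 := by omega
    subst this
    simpa using h
  | succ n ih =>
    intro r hr
    rcases Nat.eq_zero_or_pos r with h0 | hpos
    · subst h0
      have := Dom.Qa_iter ha hπ hV h (n + 1)
      simpa using this
    · obtain ⟨r, rfl⟩ : ∃ r', r = r' + 1 := ⟨r - 1, by omega⟩
      -- first component: index (n, r+1), second: (n, r)
      have hY := ih r (by omega)
      have posQ := Qa_iter_pos (a := a) ha.pos hπ n
      rcases Nat.lt_or_ge n (r + 1) with hlt | hge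
      · -- n = r
        have hnr : n = r := by omega
        subst hnr
        have h2 := coin_dif (X := 0) (c1 := 0) ha posQ le_rfl (by positivity)
          (Dom.zero _ posQ le_rfl) hY
        have e : Qa a 0 + (1 / 2 : ℝ) • Dif a (((n.choose n : ℝ) * (1 / 2) ^ n) •
            (Qa a)^[n - n] ((Dif a)^[n] F)) =
            (((n + 1).choose (n + 1) : ℝ) * (1 / 2) ^ (n + 1)) •
              (Qa a)^[n + 1 - (n + 1)] ((Dif a)^[n + 1] F) := by
          rw [Dif_smul, smul_smul]
          simp only [Nat.choose_self, Nat.sub_self, Function.iterate_zero, id_eq, Nat.cast_one,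
            one_mul]
          rw [← Function.iterate_succ_apply' (Dif a), pow_succ']
          simp [Qa]
        rw [e, ← Function.iterate_succ_apply' (Qa a)] at h2
        simpa using h2
      · have hX := ih (r + 1) hge
        have h2 := coin_dif ha posQ (by positivity) (by positivity) hX hY
        have e : Qa a (((n.choose (r + 1) : ℝ) * (1 / 2) ^ (r + 1)) •
            (Qa a)^[n - (r + 1)] ((Dif a)^[r + 1] F)) +
            (1 / 2 : ℝ) • Dif a (((n.choose r : ℝ) * (1 / 2) ^ r) •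
            (Qa a)^[n - r] ((Dif a)^[r] F)) =
            (((n + 1).choose (r + 1) : ℝ) * (1 / 2) ^ (r + 1)) •
              (Qa a)^[n + 1 - (r + 1)] ((Dif a)^[r + 1] F) := by
          rw [Dif_smul, smul_smul, Qa_smul, Dif_Qa_iter, ← Function.iterate_succ_apply' (Dif a),
            ← Function.iterate_succ_apply' (Qa a)]
          have e1 : (n - (r + 1)).succ = n - r := by omega
          have e2 : n + 1 - (r + 1) = n - r := by omega
          rw [e1, e2, ← add_smul, Nat.choose_succ_succ]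
          congr 1
          push_cast
          rw [pow_succ]
          ring
        rw [e, ← Function.iterate_succ_apply' (Qa a)] at h2
        refine h2.congr ?_
        rw [Nat.choose_succ_succ]
        push_cast
        ring

theorem coin_deriv {a π F : MA G} {V : ℝ} (ha : Prob a) (hπ : Pos π) (hV : 0 ≤ V)
    (h : Dom V π F) (i r : ℕ) :
    Dom (V * 4 ^ r * ((i + r).choose r : ℝ)⁻¹) ((Qa a)^[i] ((Qa a)^[r] π))
      ((Qa a)^[i] ((Dif a)^[r] F)) := by
  have h1 := coin_pascal ha hπ hV h (i + r) r (by omega)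
  have hc : (0 : ℝ) < ((i + r).choose r : ℝ) := by
    exact_mod_cast Nat.choose_pos (by omega)
  have h2 := h1.smul ((((i + r).choose r : ℝ) * (1 / 2) ^ r)⁻¹)
  rw [smul_smul, inv_mul_cancel₀ (by positivity), one_smul, Nat.add_sub_cancel] at h2
  rw [← Function.iterate_add_apply]
  refine h2.congr ?_
  have : ((1 / 2 : ℝ) ^ r) ^ 2 * 4 ^ r = 1 := by
    rw [← pow_mul, mul_comm r 2, pow_mul, ← mul_pow]; norm_num
  field_simp
  linear_combination (-V) * this

/-- binomial average of `1 / C(i+r, r)` -/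
theorem avg_inv_choose {h : ℝ} (h0 : 0 < h) (h1 : h ≤ 1) (k r : ℕ) :
    avg h k (fun i => ((i + r).choose r : ℝ)⁻¹) ≤ (h ^ r * ((k + r).choose r : ℝ))⁻¹ := by
  rw [avg_eq]
  have hc : (0 : ℝ) < ((k + r).choose r : ℝ) := by exact_mod_cast Nat.choose_pos (by omega)
  have e1 : ∀ i ∈ range (k + 1), (k.choose i : ℝ) * h ^ i * (1 - h) ^ (k - i) *
      ((i + r).choose r : ℝ)⁻¹ =
      (h ^ r * ((k + r).choose r : ℝ))⁻¹ *
        (h ^ (i + r) * (1 - h) ^ (k + r - (i + r)) * ((k + r).choose (i + r) : ℝ)) := by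
    intro i hi
    have hi := mem_range.mp hi
    have hc2 : (0 : ℝ) < ((i + r).choose r : ℝ) := by exact_mod_cast Nat.choose_pos (by omega)
    have key : (k + r).choose (i + r) * (i + r).choose r = (k + r).choose r * k.choose i := by
      have := Nat.choose_mul (n := k + r) (k := i + r) (s := r) (by omega)
      simpa using this
    have key' : ((k + r).choose (i + r) : ℝ) * ((i + r).choose r : ℝ) =
        ((k + r).choose r : ℝ) * (k.choose i : ℝ) := by exact_mod_cast key
    rw [Nat.add_sub_add_right]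
    field_simp
    rw [pow_add]
    linear_combination (-(h ^ i * h ^ r * (1 - h) ^ (k - i))) * key'
  rw [sum_congr rfl e1, ← mul_sum]
  have hp : 0 ≤ (h ^ r * ((k + r).choose r : ℝ))⁻¹ := by positivity
  refine mul_le_of_le_one_right hp ?_
  have e2 : ∑ j ∈ range (k + r + 1), h ^ j * (1 - h) ^ (k + r - j) * ((k + r).choose j : ℝ) = 1 := by
    rw [← add_pow]
    have : h + (1 - h) = 1 := by ring
    rw [this, one_pow]
  have e3 : ∑ i ∈ range (k + 1), h ^ (i + r) * (1 - h) ^ (k + r - (i + r)) *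
      ((k + r).choose (i + r) : ℝ) = ∑ j ∈ Finset.Ico r (k + r + 1),
        h ^ j * (1 - h) ^ (k + r - j) * ((k + r).choose j : ℝ) := by
    rw [Finset.sum_Ico_eq_sum_range]
    have : k + r + 1 - r = k + 1 := by omega
    rw [this]
    refine sum_congr rfl (fun i _ => ?_)
    rw [add_comm r i]
  rw [e3]
  refine le_trans ?_ e2.le
  refine sum_le_sum_of_subset_of_nonneg ?_ (fun j _ _ => ?_)
  · intro j hj
    rw [Finset.mem_Ico] at hj
    exact mem_range.mpr hj.2
  · have : 0 ≤ 1 - h := by linarith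
    positivity

theorem Slip.mass_le_one {a s : MA G} {R : ℕ} (ha : Prob a) (hs : Slip a R s) : mass s ≤ 1 := by
  have := hs.le0.mass_le
  rwa [(ha.pow R).one] at this

/-- **E2a** in general form -/
theorem deriv_bound {a s X : MA G} {R : ℕ} {V : ℝ} (k r l : ℕ) (ha : Prob a) (hs : Slip a R s)
    (hV : 0 ≤ V) (h : Dom V (a ^ l) X) :
    Dom (V * ((4 / (mass s) ^ 2) ^ r / ((k + r).choose r : ℝ))) (a ^ (2 * ((R + 1) * k) + r + l))
      (a ^ ((R + 1) * k) * (Dif a)^[r] X * a ^ ((R + 1) * k)) := by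
  have hms := hs.mpos
  have hm1 := hs.mass_le_one ha
  have hh : (mass s) ^ 2 ≤ 1 := by nlinarith
  have hh0 : 0 < (mass s) ^ 2 := by positivity
  have pl : Pos (a ^ l) := ha.pos.pow l
  have h1 := coins ha hs hm1 k (fun i => V * 4 ^ r * ((i + r).choose r : ℝ)⁻¹)
    ((Qa a)^[r] (a ^ l)) ((Dif a)^[r] X) (fun i _ => by positivity) (Qa_iter_pos ha.pos pl r)
    (fun i _ => coin_deriv ha pl hV h i r)
  rw [Qa_iter_pow] at h1
  have e : a ^ ((R + 1) * k) * a ^ (l + r) * a ^ ((R + 1) * k) = a ^ (2 * ((R + 1) * k) + r + l) := by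
    rw [← pow_add, ← pow_add]; congr 1; ring
  rw [e] at h1
  refine h1.mono ?_ (ha.pos.pow _)
  rw [avg_mul]
  have h2 := avg_inv_choose hh0 hh k r
  have hV4 : 0 ≤ V * 4 ^ r := by positivity
  refine le_trans (mul_le_mul_of_nonneg_left h2 hV4) (le_of_eq ?_)
  rw [div_pow, mul_inv]
  field_simp

theorem derivStatement : DerivStatement := fun _ _ _ _ _ _ k r l _ ha hs hV h =>
  deriv_bound k r l ha hs hV h

end

end Crest.Agent.R300LB
private theorem rz_256ee35a04 : type_of% @_root_.Crest.Agent.R300LB.avg.eq_def := @_root_.Crest.Agent.R300LB.avg.eq_def -- L22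
private theorem rz_c3aba638cf : type_of% @_root_.Crest.Agent.R300LB.avg.eq_1 := @_root_.Crest.Agent.R300LB.avg.eq_1 -- L22
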