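import Crest.Agent.R300.LBPlan

/-!
# Row 300, lower bounds: iteration of the one-level step (piece E8)
-/

set_option autoImplicit false

namespace Crest.Agent.R300LB

open Finset

noncomputable section

namespace Itr

/-! ### numerical lemmas -/

theorem log2_ge : (1 : ℝ) / 2 ≤ Real.log 2 := by
  have := Real.log_two_gt_d9
  linarith

/-- all inequalities in `x = log log n` needed below -/
structure Big (CL CH M A logT δ₁ J x : ℝ) : Prop where
  c1 : 4 ≤ x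
  c2 : CL ≤ x ^ 5
  c3 : (J + 1) * Real.log CL + CH * ((x + 1) * (M * x) ^ 2) + x ≤ x ^ 5 / 20
  c4 : CH * (M * x) ^ 4 ≤ x ^ 5
  c5 : Real.log (2 * A) + 5 * Real.log x ≤ δ₁ * x
  c6 : logT ≤ δ₁ * Real.exp x
  c6' : logT ≤ Real.exp x / 2
  c7 : Real.exp (3 / 2 * x) + 4 * Real.exp x ≤ Real.exp (x ^ 5 / 4)

theorem exists_big {CL CH M A logT δ₁ J : ℝ} (hCL : 1 ≤ CL) (hCH : 1 ≤ CH) (_hM : 0 ≤ M) (hA : 1 ≤ A)
    (hδ₁ : 0 < δ₁) (hJ : 0 ≤ J) :
    ∃ B : ℝ, ∀ x : ℝ, B ≤ x → Big CL CH M A logT δ₁ J x := by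
  set B₁ := (J + 1) * Real.log CL + 2 * (CH * M ^ 2) + 1 with hB₁
  refine ⟨4 + CL + 20 * B₁ + CH * M ^ 4 + 400 / δ₁ ^ 2 + 2 * Real.log (2 * A) / δ₁ + |logT| / δ₁ +
    2 * |logT|, ?_⟩
  intro x hx
  have hlogCL : 0 ≤ Real.log CL := Real.log_nonneg hCL
  have hlogA : 0 ≤ Real.log (2 * A) := Real.log_nonneg (by linarith)
  have p1 : 0 ≤ 20 * B₁ := by
    have : 0 ≤ CH * M ^ 2 := by positivity
    have : 0 ≤ (J + 1) * Real.log CL := by positivity
    rw [hB₁]; linarith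
  have p2 : 0 ≤ CH * M ^ 4 := by positivity
  have p3 : 0 ≤ 400 / δ₁ ^ 2 := by positivity
  have p4 : 0 ≤ 2 * Real.log (2 * A) / δ₁ := by positivity
  have p5 : 0 ≤ |logT| / δ₁ := by positivity
  have p6 : 0 ≤ 2 * |logT| := by positivity
  have x4 : 4 ≤ x := by linarith
  have xCL : CL ≤ x := by linarith
  have xB : 20 * B₁ ≤ x := by linarith
  have xM : CH * M ^ 4 ≤ x := by linarith
  have xd : 400 / δ₁ ^ 2 ≤ x := by linarith
  have xA : 2 * Real.log (2 * A) / δ₁ ≤ x := by linarith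
  have xT : |logT| / δ₁ ≤ x := by linarith
  have xT' : 2 * |logT| ≤ x := by linarith
  have x1 : 1 ≤ x := by linarith
  have x0 : 0 < x := by linarith
  have hx2 : x ≤ x ^ 2 := by nlinarith
  have hx3 : x ^ 2 ≤ x ^ 3 := pow_le_pow_right₀ x1 (by norm_num)
  have hx5 : x ^ 2 ≤ x ^ 5 := pow_le_pow_right₀ x1 (by norm_num)
  have hexpx : x ≤ Real.exp x := by have := Real.add_one_le_exp x; linarith
  refine ⟨x4, by linarith, ?_, ?_, ?_, ?_, ?_, ?_⟩
  · have h1 : (1 : ℝ) ≤ x ^ 3 := one_le_pow₀ x1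
    have h2 : (J + 1) * Real.log CL ≤ (J + 1) * Real.log CL * x ^ 3 := by
      have : 0 ≤ (J + 1) * Real.log CL := by positivity
      nlinarith
    have h3 : CH * ((x + 1) * (M * x) ^ 2) ≤ 2 * (CH * M ^ 2) * x ^ 3 := by
      have e : CH * ((x + 1) * (M * x) ^ 2) = (CH * M ^ 2) * (x ^ 3 + x ^ 2) := by ring
      rw [e]
      have : 0 ≤ CH * M ^ 2 := by positivity
      nlinarith
    have h4 : x ≤ 1 * x ^ 3 := by linarith
    have h5 : (J + 1) * Real.log CL + CH * ((x + 1) * (M * x) ^ 2) + x ≤ B₁ * x ^ 3 := by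
      rw [hB₁]; linarith
    refine h5.trans ?_
    have h6 : B₁ ≤ x ^ 2 / 20 := by linarith
    calc B₁ * x ^ 3 ≤ x ^ 2 / 20 * x ^ 3 := mul_le_mul_of_nonneg_right h6 (by positivity)
      _ = x ^ 5 / 20 := by ring
  · calc CH * (M * x) ^ 4 = (CH * M ^ 4) * x ^ 4 := by ring
      _ ≤ x * x ^ 4 := mul_le_mul_of_nonneg_right xM (by positivity)
      _ = x ^ 5 := by ring
  · have hs : 0 < Real.sqrt x := Real.sqrt_pos.mpr x0
    have hss : Real.sqrt x * Real.sqrt x = x := Real.mul_self_sqrt x0.le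
    have h1 : Real.log x ≤ 2 * Real.sqrt x := by
      have := Real.log_le_sub_one_of_pos hs
      rw [Real.log_sqrt x0.le] at this
      linarith
    have h2 : 20 / δ₁ ≤ Real.sqrt x := by
      apply Real.le_sqrt_of_sq_le
      calc (20 / δ₁) ^ 2 = 400 / δ₁ ^ 2 := by ring
        _ ≤ x := xd
    have h3 : 20 ≤ δ₁ * Real.sqrt x := by
      rw [div_le_iff₀ hδ₁] at h2; linarith
    have h4 : 20 * Real.sqrt x ≤ δ₁ * x := by
      calc 20 * Real.sqrt x ≤ (δ₁ * Real.sqrt x) * Real.sqrt x := mul_le_mul_of_nonneg_right h3 hs.le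
        _ = δ₁ * x := by rw [mul_assoc, hss]
    have h5 : 2 * Real.log (2 * A) ≤ δ₁ * x := by
      rw [div_le_iff₀ hδ₁] at xA; linarith
    linarith
  · have h1 : |logT| ≤ δ₁ * x := by
      rw [div_le_iff₀ hδ₁] at xT; linarith
    have h2 : δ₁ * x ≤ δ₁ * Real.exp x := mul_le_mul_of_nonneg_left hexpx hδ₁.le
    exact (le_abs_self _).trans (h1.trans h2)
  · have := le_abs_self logT
    linarith
  · have h1 : Real.exp x ≤ Real.exp (3 / 2 * x) := Real.exp_le_exp.mpr (by linarith)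
    have h2 : Real.exp (3 / 2 * x) + 4 * Real.exp x ≤ Real.exp 4 * Real.exp (3 / 2 * x) := by
      have := Real.add_one_le_exp (4 : ℝ)
      nlinarith [Real.exp_pos (3 / 2 * x)]
    refine h2.trans ?_
    rw [← Real.exp_add]
    apply Real.exp_le_exp.mpr
    have h3 : (4 : ℝ) ^ 4 ≤ x ^ 4 := pow_le_pow_left₀ (by norm_num) x4 4
    have h4 : x * 4 ^ 4 ≤ x * x ^ 4 := mul_le_mul_of_nonneg_left h3 x0.le
    have h5 : x * x ^ 4 = x ^ 5 := by ring
    rw [h5] at h4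
    linarith


/-! ### the exponent sequences -/

/-- `(c_k, P_k)` -/
def cP (δ : ℝ) : ℕ → ℝ × ℝ
  | 0 => (7 / 5, 139 / 50)
  | k + 1 => ((cP δ k).2 / 2 - δ, (cP δ k).2 + min (1 / 2) ((cP δ k).1 / 8) - δ)

/-- `c_k` -/
def cc (δ : ℝ) (k : ℕ) : ℝ := (cP δ k).1
/-- `P_k` -/
def PP (δ : ℝ) (k : ℕ) : ℝ := (cP δ k).2

theorem cc_zero (δ : ℝ) : cc δ 0 = 7 / 5 := rfl
theorem PP_zero (δ : ℝ) : PP δ 0 = 139 / 50 := rfl
theorem cc_succ (δ : ℝ) (k : ℕ) : cc δ (k + 1) = PP δ k / 2 - δ := rfl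
theorem PP_succ (δ : ℝ) (k : ℕ) : PP δ (k + 1) = PP δ k + min (1 / 2) (cc δ k / 8) - δ := rfl

theorem basic_cP {δ : ℝ} (hδ : 0 < δ) (hδ1 : δ ≤ 1 / 10) (k : ℕ) :
    139 / 50 + (k : ℝ) / 20 ≤ PP δ k ∧ 5 / 4 ≤ cc δ k ∧ PP δ k ≤ 3 * cc δ k ∧
      PP δ k ≤ 139 / 50 + (k : ℝ) / 2 := by
  induction k with
  | zero => rw [cc_zero, PP_zero]; norm_num
  | succ k ih =>
    obtain ⟨h1, h2, h3, h4⟩ := ih
    have hk : (0 : ℝ) ≤ k := Nat.cast_nonneg k
    have h5 : (3 : ℝ) / 20 ≤ min (1 / 2) (cc δ k / 8) := le_min (by norm_num) (by linarith)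
    have h6 : min (1 / 2) (cc δ k / 8) ≤ 1 / 2 := min_le_left _ _
    rw [cc_succ, PP_succ]
    push_cast
    refine ⟨by linarith, by linarith, by linarith, by linarith⟩

theorem PP_step {δ : ℝ} (hδ : 0 < δ) (hδ1 : δ ≤ 1 / 10) (k : ℕ) : PP δ k ≤ PP δ (k + 1) := by
  obtain ⟨h1, h2, h3, h4⟩ := basic_cP hδ hδ1 k
  have h5 : (3 : ℝ) / 20 ≤ min (1 / 2) (cc δ k / 8) := le_min (by norm_num) (by linarith)
  rw [PP_succ]
  linarith

theorem PP_mono {δ : ℝ} (hδ : 0 < δ) (hδ1 : δ ≤ 1 / 10) {i j : ℕ} (h : i ≤ j) :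
    PP δ i ≤ PP δ j := monotone_nat_of_le_succ (PP_step hδ hδ1) h

theorem PP_growth {δ : ℝ} (hδ : 0 < δ) (hδ1 : δ ≤ 1 / 10) (k : ℕ) :
    ((k : ℝ) - 125) * (1 / 2 - δ) ≤ PP δ k := by
  induction k with
  | zero =>
    rw [PP_zero]
    push_cast
    nlinarith
  | succ k ih =>
    obtain ⟨h1, h2, h3, h4⟩ := basic_cP hδ hδ1 k
    rcases Nat.lt_or_ge k 121 with hk | hk
    · have hk' : (k : ℝ) ≤ 120 := by exact_mod_cast (by omega : k ≤ 120)
      have h5 := (basic_cP hδ hδ1 (k + 1)).1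
      have hk0 : (0 : ℝ) ≤ k := Nat.cast_nonneg k
      push_cast at h5 ⊢
      have h6 : ((k : ℝ) + 1 - 125) * (1 / 2 - δ) ≤ 0 :=
        mul_nonpos_of_nonpos_of_nonneg (by linarith) (by linarith)
      linarith
    · obtain ⟨j, rfl⟩ : ∃ j, k = j + 1 := ⟨k - 1, by omega⟩
      have hj : (120 : ℝ) ≤ j := by exact_mod_cast (by omega : 120 ≤ j)
      have h7 := (basic_cP hδ hδ1 j).1
      have h8 : (4 : ℝ) ≤ cc δ (j + 1) := by
        rw [cc_succ]; linarith
      have h9 : min (1 / 2) (cc δ (j + 1) / 8) = 1 / 2 := min_eq_left (by linarith)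
      rw [PP_succ, h9]
      push_cast at ih ⊢
      linarith

theorem cc_growth {δ : ℝ} (hδ : 0 < δ) (hδ1 : δ ≤ 1 / 10) (k : ℕ) :
    ((k : ℝ) + 1) * (1 / 4 - δ / 2) - 32 ≤ cc δ k := by
  rcases Nat.eq_zero_or_pos k with rfl | hk
  · rw [cc_zero]; push_cast; linarith
  · obtain ⟨j, rfl⟩ : ∃ j, k = j + 1 := ⟨k - 1, by omega⟩
    have h1 := PP_growth hδ hδ1 j
    rw [cc_succ]
    push_cast
    nlinarith

/-- `L_k = Lam k * L_0` -/
def Lam (δ : ℝ) : ℕ → ℝ
  | 0 => 1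
  | i + 1 => (2 + δ / PP δ i) * Lam δ i

theorem PP_pos {δ : ℝ} (hδ : 0 < δ) (hδ1 : δ ≤ 1 / 10) (k : ℕ) : 5 / 2 < PP δ k := by
  have := (basic_cP hδ hδ1 k).1
  have hk : (0 : ℝ) ≤ k := Nat.cast_nonneg k
  linarith

theorem Lam_pos {δ : ℝ} (hδ : 0 < δ) (hδ1 : δ ≤ 1 / 10) (i : ℕ) : 0 < Lam δ i := by
  induction i with
  | zero => simp [Lam]
  | succ i ih =>
    rw [Lam]
    have h1 := PP_pos hδ hδ1 i
    have h2 : 0 < δ / PP δ i := div_pos hδ (by linarith)
    positivity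

theorem Lam_succ_ge {δ : ℝ} (hδ : 0 < δ) (hδ1 : δ ≤ 1 / 10) (i : ℕ) :
    2 * Lam δ i ≤ Lam δ (i + 1) := by
  rw [Lam]
  have h1 := PP_pos hδ hδ1 i
  have h2 : 0 < δ / PP δ i := div_pos hδ (by linarith)
  exact mul_le_mul_of_nonneg_right (by linarith) (Lam_pos hδ hδ1 i).le

theorem Lam_ge {δ : ℝ} (hδ : 0 < δ) (hδ1 : δ ≤ 1 / 10) (i : ℕ) : (2 : ℝ) ^ i ≤ Lam δ i := by
  induction i with
  | zero => simp [Lam]
  | succ i ih =>
    rw [pow_succ']
    exact le_trans (by linarith) (Lam_succ_ge hδ hδ1 i)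

theorem Lam_mono {δ : ℝ} (hδ : 0 < δ) (hδ1 : δ ≤ 1 / 10) {i j : ℕ} (h : i ≤ j) :
    Lam δ i ≤ Lam δ j := by
  refine monotone_nat_of_le_succ (fun i => ?_) h
  have h1 := Lam_succ_ge hδ hδ1 i
  have h2 := Lam_pos hδ hδ1 i
  linarith

theorem log_Lam {δ : ℝ} (hδ : 0 < δ) (hδ1 : δ ≤ 1 / 10) (i : ℕ) :
    Real.log (Lam δ i) ≤ i * (Real.log 2 + δ / 5) := by
  induction i with
  | zero => simp [Lam]
  | succ i ih =>
    have hp := Lam_pos hδ hδ1 i
    have h1 := PP_pos hδ hδ1 i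
    have h0 : 0 < δ / PP δ i := div_pos hδ (by linarith)
    rw [Lam, Real.log_mul (by positivity) hp.ne']
    have h2 : Real.log (2 + δ / PP δ i) ≤ Real.log 2 + δ / 5 := by
      have e : 2 + δ / PP δ i = 2 * (1 + δ / PP δ i / 2) := by ring
      rw [e, Real.log_mul (by norm_num) (by positivity)]
      have h3 : Real.log (1 + δ / PP δ i / 2) ≤ δ / PP δ i / 2 := by
        have := Real.log_le_sub_one_of_pos (show 0 < 1 + δ / PP δ i / 2 by positivity)
        linarith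
      have h4 : δ / PP δ i ≤ δ / (5 / 2) := div_le_div_of_nonneg_left hδ.le (by norm_num) h1.le
      have h5 : δ / (5 / 2) / 2 = δ / 5 := by ring
      linarith
    push_cast
    linarith

/-! ### iteration -/

/-- existence of a state -/
def Ex2 (q L c P u τ : ℝ) : Prop :=
  ∃ (x y : List Bool) (a b : MA BW), St2 q L c P u τ x y a b

theorem Ex2.mono {q L c P u τ τ' : ℝ} (h : Ex2 q L c P u τ) (hτ : τ ≤ τ') :
    Ex2 q L c P u τ' := by
  obtain ⟨x, y, a, b, h⟩ := h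
  exact ⟨x, y, a, b, { h with
    ta := fun f hf => (h.ta f hf).trans hτ
    tb := fun f hf => (h.tb f hf).trans hτ }⟩

theorem iter {δ C : ℝ} (hC : 1 ≤ C) (hδ : 0 < δ) (hδ1 : δ ≤ 1 / 10)
    (hstep : ∀ q : ℝ, 0 < q → q ≤ 1 / 16 → ∀ L c P u τ : ℝ,
      11 / 10 ≤ c → 27 / 10 ≤ P → P ≤ 3 * c → C * P ^ 4 ≤ L →
      0 < u → u * (Real.exp (C * P ^ 2) * L) ≤ 1 → 0 ≤ τ →
      ∀ (x y : List Bool) (a b : MA BW), St2 q L c P u τ x y a b →
        ∃ (x' y' : List Bool) (a' b' : MA BW),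
          St2 q ((2 + δ / P) * L) (P / 2 - δ) (P + min (1 / 2) (c / 8) - δ)
            (Real.exp (C * P ^ 2) * u) (Real.exp ((2 + δ / P) * L) * τ) x' y' a' b')
    {q L u τ : ℝ} (hq : 0 < q) (hq1 : q ≤ 1 / 16) {K : ℕ}
    (hL : C * PP δ K ^ 4 ≤ L) (hu : 0 < u)
    (huK : u * Real.exp (C * ((K + 1) * PP δ K ^ 2)) * (Lam δ K * L) ≤ 1) (hτ : 0 ≤ τ)
    (h0 : Ex2 q L (7 / 5) (139 / 50) u τ) :
    ∀ i : ℕ, i ≤ K → Ex2 q (Lam δ i * L) (cc δ i) (PP δ i)
      (Real.exp (C * ∑ j ∈ range i, PP δ j ^ 2) * u)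
      (Real.exp (2 * (Lam δ i * L)) * τ) := by
  have hCpos : 0 < C := by linarith
  have hPpos : ∀ k, 0 < PP δ k := fun k => by have := PP_pos hδ hδ1 k; linarith
  have hL0 : 0 < L := lt_of_lt_of_le (mul_pos hCpos (pow_pos (hPpos K) 4)) hL
  intro i
  induction i with
  | zero =>
    intro _
    have h1 : (1 : ℝ) ≤ Real.exp (2 * (Lam δ 0 * L)) := by
      rw [Lam, one_mul]
      exact Real.one_le_exp (by positivity)
    have h2 : τ ≤ Real.exp (2 * (Lam δ 0 * L)) * τ := le_mul_of_one_le_left hτ h1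
    have h3 := h0.mono h2
    have e1 : Lam δ 0 = 1 := rfl
    rw [e1, range_zero, sum_empty, mul_zero, Real.exp_zero, one_mul, one_mul, cc_zero, PP_zero]
    rw [e1, one_mul] at h3
    exact h3
  | succ i ih =>
    intro hi
    obtain ⟨x, y, a, b, h⟩ := ih (by omega)
    obtain ⟨b1, b2, b3, b4⟩ := basic_cP hδ hδ1 i
    have hi0 : (0 : ℝ) ≤ i := Nat.cast_nonneg i
    set Li := Lam δ i * L with hLi
    have hPK : PP δ i ≤ PP δ K := PP_mono hδ hδ1 (by omega)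
    have hLam1 : (1 : ℝ) ≤ Lam δ i :=
      le_trans (one_le_pow₀ (by norm_num)) (Lam_ge hδ hδ1 i)
    have hLamK : Lam δ i ≤ Lam δ K := Lam_mono hδ hδ1 (by omega)
    have hLiL : L ≤ Li := by rw [hLi]; exact le_mul_of_one_le_left hL0.le hLam1
    have hsum : ∑ j ∈ range i, PP δ j ^ 2 ≤ K * PP δ K ^ 2 := by
      calc ∑ j ∈ range i, PP δ j ^ 2 ≤ ∑ j ∈ range i, PP δ K ^ 2 := by
            refine sum_le_sum (fun j hj => ?_)
            exact pow_le_pow_left₀ (hPpos j).le (PP_mono hδ hδ1 (by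
              have := mem_range.mp hj; omega)) 2
        _ = i * PP δ K ^ 2 := by rw [sum_const, card_range, nsmul_eq_mul]
        _ ≤ K * PP δ K ^ 2 := by
            refine mul_le_mul_of_nonneg_right ?_ (by positivity)
            exact_mod_cast (by omega : i ≤ K)
    have h1 := hstep q hq hq1 Li (cc δ i) (PP δ i) (Real.exp (C * ∑ j ∈ range i, PP δ j ^ 2) * u)
      (Real.exp (2 * Li) * τ) (by linarith) (by linarith) b3
      (by
        refine le_trans ?_ (hL.trans hLiL)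
        exact mul_le_mul_of_nonneg_left (pow_le_pow_left₀ (hPpos i).le hPK 4) hCpos.le)
      (by positivity)
      (by
        refine le_trans ?_ huK
        have e1 : Real.exp (C * ∑ j ∈ range i, PP δ j ^ 2) * u * (Real.exp (C * PP δ i ^ 2) * Li) =
            (u * Real.exp (C * (∑ j ∈ range i, PP δ j ^ 2 + PP δ i ^ 2))) * Li := by
          rw [mul_add, Real.exp_add]; ring
        rw [e1]
        have e2 : ∑ j ∈ range i, PP δ j ^ 2 + PP δ i ^ 2 ≤ (K + 1) * PP δ K ^ 2 := by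
          have : PP δ i ^ 2 ≤ PP δ K ^ 2 := pow_le_pow_left₀ (hPpos i).le hPK 2
          linarith
        have e3 : Li ≤ Lam δ K * L := mul_le_mul_of_nonneg_right hLamK hL0.le
        refine mul_le_mul (mul_le_mul_of_nonneg_left (Real.exp_le_exp.mpr
          (mul_le_mul_of_nonneg_left e2 hCpos.le)) hu.le) e3 (by positivity) (by positivity))
      (by positivity) x y a b h
    obtain ⟨x', y', a', b', h'⟩ := h1
    have h2 : Ex2 q ((2 + δ / PP δ i) * Li) (PP δ i / 2 - δ)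
      (PP δ i + min (1 / 2) (cc δ i / 8) - δ)
      (Real.exp (C * PP δ i ^ 2) * (Real.exp (C * ∑ j ∈ range i, PP δ j ^ 2) * u))
      (Real.exp ((2 + δ / PP δ i) * Li) * (Real.exp (2 * Li) * τ)) := ⟨x', y', a', b', h'⟩
    have e1 : (2 + δ / PP δ i) * Li = Lam δ (i + 1) * L := by
      rw [Lam, hLi]; ring
    have e3 : Real.exp (C * PP δ i ^ 2) * (Real.exp (C * ∑ j ∈ range i, PP δ j ^ 2) * u) =
        Real.exp (C * ∑ j ∈ range (i + 1), PP δ j ^ 2) * u := by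
      rw [sum_range_succ, mul_add, Real.exp_add]; ring
    rw [cc_succ, PP_succ, ← e1, ← e3]
    refine h2.mono ?_
    rw [← mul_assoc, ← Real.exp_add]
    refine mul_le_mul_of_nonneg_right (Real.exp_le_exp.mpr ?_) hτ
    have h5 := Lam_succ_ge hδ hδ1 i
    have h6 : 2 * Li ≤ (2 + δ / PP δ i) * Li := by
      rw [e1, hLi, ← mul_assoc]
      exact mul_le_mul_of_nonneg_right h5 hL0.le
    linarith

theorem SB.mono' {G : Type*} [Monoid G] {p p' : ℝ} {a Z : MA G} {z Pd Pd' : ℕ}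
    (h : SB p a Z z Pd) (ha : Prob a) (hp : p ≤ p') (hPd : Pd ≤ Pd') : SB p' a Z z Pd' := by
  intro T f
  have h1 := h T f
  refine le_trans (sum_le_sum_of_subset_of_nonneg ?_ (fun _ _ _ => sq_nonneg _)) (h1.trans ?_)
  · exact Finset.Icc_subset_Icc hPd (by omega)
  · exact mul_le_mul_of_nonneg_right hp ((ha.pow _).pos _ (fun w => sq_nonneg _))

theorem base_state (hDom : DomSBStatement) {q L u τ : ℝ} (hL : 200 ≤ L) {x y : List Bool}
    {a b : MA BW} (h : St q L (7 / 5) u τ x y a b) :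
    St2 q L (7 / 5) (139 / 50) u τ x y a b where
  len := h.len
  ne := h.ne
  lenL := h.lenL
  pa := h.pa
  pb := h.pb
  ta := h.ta
  tb := h.tb
  bd := h.bd
  dom := h.dom
  slip := h.slip
  pair := by
    intro g Pd hg hPd
    have hV : 0 ≤ Real.exp (-(7 / 5 * L)) := (Real.exp_pos _).le
    have hm : mass (a - b) = 0 := by rw [mass_sub, h.pa.one, h.pb.one, sub_self]
    have h1 : Dom (Real.exp (-(7 / 5 * L)) * 1 * Real.exp (-(7 / 5 * L))) (a * a ^ g * a)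
        ((a - b) * a ^ g * (a - b)) :=
      Dom.mul (Dom.mul h.dom (Dom.self_prob (h.pa.pow g)) hV h.pa.pos) h.dom (by positivity)
        (h.pa.pos.mul (h.pa.pow g).pos)
    have e1 : a * a ^ g * a = a ^ (g + 2) := by
      rw [← pow_succ', ← pow_succ]
    rw [e1] at h1
    have h2 := hDom BW a ((a - b) * a ^ g * (a - b)) (g + 2) _ h.pa
      (by rw [mass_mul, hm, mul_zero]) (by positivity) (by omega) h1
    refine SB.mono' h2 h.pa ?_ (Nat.zero_le _)
    have e2 : Real.exp (-(7 / 5 * L)) * 1 * Real.exp (-(7 / 5 * L)) =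
        Real.exp (-(14 / 5 * L)) := by
      rw [mul_one, ← Real.exp_add]; congr 1; ring
    have e3 : Real.exp (-(139 / 50 * L)) = Real.exp (L / 50) * Real.exp (-(14 / 5 * L)) := by
      rw [← Real.exp_add]; congr 1; ring
    rw [e2, e3]
    refine mul_le_mul_of_nonneg_right ?_ (Real.exp_pos _).le
    set t := Real.exp (L / 100) with ht
    have h3 : Real.exp (L / 50) = t * t := by
      rw [ht, ← Real.exp_add]; congr 1; ring
    have h4 : 3 ≤ t := by
      have := Real.add_one_le_exp (L / 100)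
      rw [ht]; linarith
    rw [h3]
    push_cast
    nlinarith

/-- the real-number content of the choice of the number of steps -/
theorem choose_k {CB q CH M logT δ₁ δ x Y W Z Lmin : ℝ}
    (hCB : 0 < CB) (hq : 0 < q) (hq1 : q ≤ 1 / 16) (hδ₁ : 0 < δ₁) (hδ₁1 : δ₁ < 1)
    (hδ : 0 < δ) (hδ1 : δ ≤ 1 / 10) (hxpos : 0 < x)
    (hbig : Big 1 CH M 1 logT δ₁ 0 (Real.log x))
    (hT0 : 0 ≤ logT) (hY : Y = Real.log (q ^ 3 * x)) (hYR : Real.log (2 * CB) / δ₁ ≤ Y)
    (hY0 : 0 ≤ Y)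
    (hW : W = x - logT) (hZ : Z = Real.log 2 + δ / 5)
    (hLmin : Lmin = max (CB / q ^ 3) (Real.log x ^ 5)) :
    ∃ k : ℕ, Lmin * Lam δ k ≤ W ∧ (k : ℝ) ≤ 2 * Real.log x ∧ (1 - δ₁) * Y ≤ (k + 1) * Z := by
  set y := Real.log x with hy
  have hexp : Real.exp y = x := Real.exp_log hxpos
  have hy4 : 4 ≤ y := hbig.c1
  have hWx : W ≤ x := by rw [hW]; linarith
  have hW2 : x / 2 ≤ W := by
    have := hbig.c6'
    rw [hexp] at this
    rw [hW]; linarith
  have hq3 : 0 < q ^ 3 := by positivity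
  have hq31 : q ^ 3 ≤ 1 := pow_le_one₀ hq.le (by linarith)
  have hYy : Y ≤ y := by
    rw [hY, hy]
    exact Real.log_le_log (by positivity) (mul_le_of_le_one_left hxpos.le hq31)
  have hexpY : Real.exp Y = q ^ 3 * x := by rw [hY]; exact Real.exp_log (by positivity)
  have hLmin1 : 1 ≤ Lmin := by
    rw [hLmin]
    exact le_trans (one_le_pow₀ (by linarith)) (le_max_right _ _)
  -- main inequality
  have key : Lmin * Real.exp ((1 - δ₁) * Y) ≤ W := by
    refine le_trans ?_ hW2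
    rw [hLmin]
    rcases le_total (CB / q ^ 3) (y ^ 5) with h | h
    · rw [max_eq_right h]
      have h1 : 2 * y ^ 5 ≤ Real.exp (y - (1 - δ₁) * Y) := by
        have h2 : Real.log (2 * y ^ 5) ≤ y - (1 - δ₁) * Y := by
          rw [Real.log_mul (by positivity) (by positivity), Real.log_pow]
          have h3 := hbig.c5
          rw [mul_one] at h3
          have h4 : (1 - δ₁) * Y ≤ (1 - δ₁) * y := mul_le_mul_of_nonneg_left hYy (by linarith)
          push_cast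
          linarith
        calc 2 * y ^ 5 = Real.exp (Real.log (2 * y ^ 5)) := by
              rw [Real.exp_log (by positivity)]
          _ ≤ _ := Real.exp_le_exp.mpr h2
      have h5 : 2 * y ^ 5 * Real.exp ((1 - δ₁) * Y) ≤ x := by
        calc 2 * y ^ 5 * Real.exp ((1 - δ₁) * Y)
            ≤ Real.exp (y - (1 - δ₁) * Y) * Real.exp ((1 - δ₁) * Y) :=
              mul_le_mul_of_nonneg_right h1 (Real.exp_pos _).le
          _ = x := by rw [← Real.exp_add, sub_add_cancel, hexp]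
      linarith
    · rw [max_eq_left h]
      have h1 : 2 * CB ≤ Real.exp (δ₁ * Y) := by
        have h2 : Real.log (2 * CB) ≤ δ₁ * Y := by
          rw [div_le_iff₀ hδ₁] at hYR; linarith
        calc 2 * CB = Real.exp (Real.log (2 * CB)) := by
              rw [Real.exp_log (by positivity)]
          _ ≤ _ := Real.exp_le_exp.mpr h2
      have h5 : 2 * CB * Real.exp ((1 - δ₁) * Y) ≤ q ^ 3 * x := by
        calc 2 * CB * Real.exp ((1 - δ₁) * Y)
            ≤ Real.exp (δ₁ * Y) * Real.exp ((1 - δ₁) * Y) :=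
              mul_le_mul_of_nonneg_right h1 (Real.exp_pos _).le
          _ = q ^ 3 * x := by rw [← Real.exp_add, ← hexpY]; congr 1; ring
      have e : CB / q ^ 3 * Real.exp ((1 - δ₁) * Y) =
          (2 * CB * Real.exp ((1 - δ₁) * Y)) / q ^ 3 / 2 := by
        field_simp
      rw [e]
      have h6 : (2 * CB * Real.exp ((1 - δ₁) * Y)) / q ^ 3 ≤ x := by
        rw [div_le_iff₀ hq3]; linarith
      linarith
  have hLpos : 0 < Lmin := by linarith
  have hP0 : Lmin * Lam δ 0 ≤ W := by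
    rw [Lam, mul_one]
    refine le_trans ?_ key
    have h1 : 1 ≤ Real.exp ((1 - δ₁) * Y) := Real.one_le_exp (mul_nonneg (by linarith) hY0)
    exact le_mul_of_one_le_right hLpos.le h1
  have hex : ∃ k : ℕ, ¬ (Lmin * Lam δ k ≤ W) := by
    obtain ⟨k, hk⟩ := pow_unbounded_of_one_lt W (by norm_num : (1 : ℝ) < 2)
    refine ⟨k, fun h => ?_⟩
    have h1 := Lam_ge hδ hδ1 k
    have h2 : Lam δ k ≤ Lmin * Lam δ k := le_mul_of_one_le_left (Lam_pos hδ hδ1 k).le hLmin1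
    linarith
  classical
  have hk0 : Nat.find hex ≠ 0 := by
    intro h0
    have := Nat.find_spec hex
    rw [h0] at this
    exact this hP0
  obtain ⟨k, hk⟩ : ∃ k, Nat.find hex = k + 1 := ⟨Nat.find hex - 1, by omega⟩
  have hPk : Lmin * Lam δ k ≤ W := by
    have := Nat.find_min hex (m := k) (by omega)
    exact not_not.mp this
  have hPk1 : W < Lmin * Lam δ (k + 1) := by
    have := Nat.find_spec hex
    rw [hk] at this
    exact not_le.mp this
  refine ⟨k, hPk, ?_, ?_⟩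
  · have h1 := Lam_ge hδ hδ1 k
    have h2 : (2 : ℝ) ^ k ≤ x := by
      have h3 : Lam δ k ≤ Lmin * Lam δ k := le_mul_of_one_le_left (Lam_pos hδ hδ1 k).le hLmin1
      linarith
    have h4 : (k : ℝ) * Real.log 2 ≤ y := by
      rw [← Real.log_pow, hy]
      exact Real.log_le_log (by positivity) h2
    have h5 := log2_ge
    have h6 : (0 : ℝ) ≤ k := Nat.cast_nonneg k
    have h7 : (k : ℝ) * (1 / 2) ≤ k * Real.log 2 := mul_le_mul_of_nonneg_left h5 h6
    linarith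
  · have h1 : Real.exp ((1 - δ₁) * Y) < Lam δ (k + 1) := by
      have h2 : Lmin * Real.exp ((1 - δ₁) * Y) < Lmin * Lam δ (k + 1) :=
        lt_of_le_of_lt key hPk1
      exact lt_of_mul_lt_mul_left h2 hLpos.le
    have h2 : (1 - δ₁) * Y ≤ Real.log (Lam δ (k + 1)) := by
      rw [Real.le_log_iff_exp_le (Lam_pos hδ hδ1 _)]
      exact h1.le
    have h3 := log_Lam hδ hδ1 (k + 1)
    rw [hZ]
    push_cast at h3
    linarith

theorem kappa_ge {δ₁ δ : ℝ} (h2 : δ₁ < 1) (hδ : 0 < δ) (hδ2 : δ ≤ δ₁ / 4) :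
    (1 - δ₁) / (4 * Real.log 2) * (Real.log 2 + δ / 5) ≤ 1 / 4 - δ / 2 := by
  have hl := log2_ge
  have hl0 : 0 < Real.log 2 := by linarith
  have e1 : (1 - δ₁) / (4 * Real.log 2) * (Real.log 2 + δ / 5) =
      (1 - δ₁) / 4 * (1 + δ / 5 / Real.log 2) := by
    field_simp
  rw [e1]
  have h3 : δ / 5 / Real.log 2 ≤ δ / 2 := by
    rw [div_le_iff₀ hl0]
    nlinarith
  have h5 : (1 - δ₁) / 4 * (1 + δ / 5 / Real.log 2) ≤ (1 - δ₁) / 4 * (1 + δ / 2) :=
    mul_le_mul_of_nonneg_left (by linarith) (by linarith)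
  have h6 : 0 ≤ δ₁ * δ := mul_nonneg (by linarith) hδ.le
  nlinarith

set_option maxHeartbeats 2000000 in
theorem iterStatement : IterStatement := by
  intro hB hDom hStep δ₀ hδ₀ hδ₀1 T hT
  obtain ⟨CB, hCB, hbase⟩ := hB
  have hl2 := log2_ge
  have hl20 : 0 < Real.log 2 := by linarith
  set δ₁ := δ₀ / 4 with hδ₁def
  have hδ₁ : 0 < δ₁ := by rw [hδ₁def]; linarith
  have hδ₁1 : δ₁ < 1 := by rw [hδ₁def]; linarith
  set δ := min (1 / 10) (δ₁ / 4) with hδdef
  have hδ : 0 < δ := lt_min (by norm_num) (by linarith)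
  have hδ1 : δ ≤ 1 / 10 := min_le_left _ _
  have hδ2 : δ ≤ δ₁ / 4 := min_le_right _ _
  obtain ⟨CH, hCH, hstep⟩ := hStep δ hδ hδ1
  have hTpos : (1 : ℝ) ≤ T := by exact_mod_cast hT
  set logT := Real.log T with hlogT
  have hlogT0 : 0 ≤ logT := Real.log_nonneg hTpos
  obtain ⟨B, hBig⟩ := exists_big (CL := 1) (CH := CH) (M := 4) (A := 1) (logT := logT) (δ₁ := δ₁)
    (J := 0) (le_refl _) hCH (by norm_num) (le_refl _) hδ₁ (le_refl _)
  set κ := (1 - δ₁) ^ 2 / (4 * Real.log 2) with hκ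
  have hκpos : 0 < κ := by
    rw [hκ]; have : 0 < 1 - δ₁ := by linarith
    positivity
  obtain ⟨n₀, hn₀⟩ := exists_nat_ge (Real.exp (Real.exp B))
  refine ⟨n₀, Real.exp (|Real.log (2 * CB)| / δ₁ + 32 / (δ₁ * κ)), ?_⟩
  intro n hn q hq hq1 hR
  have hnR : Real.exp (Real.exp B) ≤ n := hn₀.trans (by exact_mod_cast hn)
  have hnpos : (0 : ℝ) < n := lt_of_lt_of_le (Real.exp_pos _) hnR
  set x := Real.log n with hx
  have hxB : Real.exp B ≤ x := by rw [hx, Real.le_log_iff_exp_le hnpos]; exact hnR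
  have hxpos : 0 < x := lt_of_lt_of_le (Real.exp_pos _) hxB
  set y := Real.log x with hy
  have hyB : B ≤ y := by rw [hy, Real.le_log_iff_exp_le hxpos]; exact hxB
  have big := hBig y hyB
  have hexpy : Real.exp y = x := Real.exp_log hxpos
  have hexpx : Real.exp x = n := Real.exp_log hnpos
  have hq3 : 0 < q ^ 3 := by positivity
  set Y := Real.log (q ^ 3 * x) with hY
  have hYR : |Real.log (2 * CB)| / δ₁ + 32 / (δ₁ * κ) ≤ Y := by
    rw [hY, Real.le_log_iff_exp_le (by positivity)]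
    exact hR
  have hp1 : 0 ≤ |Real.log (2 * CB)| / δ₁ := by positivity
  have hp2 : 0 ≤ 32 / (δ₁ * κ) := by positivity
  have hY0 : 0 ≤ Y := by linarith
  have hYR1 : Real.log (2 * CB) / δ₁ ≤ Y := by
    have : Real.log (2 * CB) / δ₁ ≤ |Real.log (2 * CB)| / δ₁ :=
      div_le_div_of_nonneg_right (le_abs_self _) hδ₁.le
    linarith
  have hYR2 : 32 ≤ δ₁ * κ * Y := by
    have h1 : 32 / (δ₁ * κ) ≤ Y := by linarith
    rw [div_le_iff₀ (by positivity)] at h1
    linarith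
  set W := x - logT with hW
  set Lmin := max (CB / q ^ 3) (y ^ 5) with hLmin
  set Z := Real.log 2 + δ / 5 with hZ
  obtain ⟨k, hk1, hk2, hk3⟩ := choose_k (M := 4) hCB hq hq1 hδ₁ hδ₁1 hδ hδ1 hxpos big hlogT0 hY hYR1
    hY0 hW hZ hLmin
  have hLk := Lam_pos hδ hδ1 k
  set L0 := W / Lam δ k with hL0
  have hLamL : Lam δ k * L0 = W := by rw [hL0]; field_simp
  have hLminL0 : Lmin ≤ L0 := by
    rw [hL0, le_div_iff₀ hLk]; exact hk1
  have hy4 : 4 ≤ y := big.c1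
  have hy5 : y ^ 5 ≤ L0 := (le_max_right _ _).trans hLminL0
  have h1024 : (1024 : ℝ) ≤ y ^ 5 := by
    calc (1024 : ℝ) = 4 ^ 5 := by norm_num
      _ ≤ y ^ 5 := pow_le_pow_left₀ (by norm_num) hy4 5
  have hL200 : 200 ≤ L0 := by linarith
  have hWx : W ≤ x := by rw [hW]; linarith
  have hWδ : (1 - δ₁) * x ≤ W := by
    have := big.c6
    rw [hexpy] at this
    rw [hW]; linarith
  have hWpos : 0 ≤ W := le_trans (mul_nonneg (by linarith) hxpos.le) hWδ
  obtain ⟨x0, y0, a0, b0, hst⟩ := hbase q hq hq1 L0 ((le_max_left _ _).trans hLminL0)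
  have hst2 := base_state hDom hL200 hst
  obtain ⟨b1, b2, b3, b4⟩ := basic_cP hδ hδ1 k
  have hk0 : (0 : ℝ) ≤ k := Nat.cast_nonneg k
  have hPk2 : PP δ k ≤ 2 * y := by linarith
  have hPk0 : 0 ≤ PP δ k := by linarith
  have hfin := iter hCH hδ hδ1 hstep hq hq1 (K := k) (L := L0)
    (u := Real.exp (-(L0 / 20))) (τ := Real.exp (-(Real.exp (L0 / 4))))
    (by
      have h1 : PP δ k ^ 4 ≤ (4 * y) ^ 4 := pow_le_pow_left₀ hPk0 (by linarith) 4
      have h2 := big.c4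
      have h3 := mul_le_mul_of_nonneg_left h1 (by linarith : (0:ℝ) ≤ CH)
      linarith)
    (Real.exp_pos _)
    (by
      rw [hLamL]
      have h1 : ((k : ℝ) + 1) * PP δ k ^ 2 ≤ (y + 1) * (4 * y) ^ 2 := by
        have h2 : PP δ k ^ 2 ≤ (2 * y) ^ 2 := pow_le_pow_left₀ hPk0 hPk2 2
        calc ((k : ℝ) + 1) * PP δ k ^ 2 ≤ (2 * y + 1) * (2 * y) ^ 2 :=
              mul_le_mul (by linarith) h2 (sq_nonneg _) (by linarith)
          _ ≤ (y + 1) * (4 * y) ^ 2 := by nlinarith [sq_nonneg y]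
      have h3 := big.c3
      rw [Real.log_one, mul_zero, zero_add] at h3
      have h4 := mul_le_mul_of_nonneg_left h1 (by linarith : (0:ℝ) ≤ CH)
      calc Real.exp (-(L0 / 20)) * Real.exp (CH * ((k + 1) * PP δ k ^ 2)) * W
          ≤ Real.exp (-(L0 / 20)) * Real.exp (CH * ((k + 1) * PP δ k ^ 2)) * Real.exp y := by
            rw [hexpy]
            exact mul_le_mul_of_nonneg_left hWx (by positivity)
        _ = Real.exp (-(L0 / 20) + CH * ((k + 1) * PP δ k ^ 2) + y) := by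
            rw [← Real.exp_add, ← Real.exp_add]
        _ ≤ 1 := Real.exp_le_one_iff.mpr (by linarith))
    (Real.exp_pos _).le ⟨x0, y0, a0, b0, hst2⟩ k (le_refl _)
  rw [hLamL] at hfin
  obtain ⟨x', y', a', b', h⟩ := hfin
  refine ⟨x', y', a', b', Real.exp (-(cc δ k * W)),
    Real.exp (2 * W) * Real.exp (-(Real.exp (L0 / 4))), h.len, h.ne, ?_, h.pa, h.pb, h.ta, h.tb,
    (Real.exp_pos _).le, h.dom, ?_, ?_⟩
  · have h1 := h.lenL
    have h2 : Real.exp W = n / T := by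
      rw [hW, Real.exp_sub, hexpx, hlogT, Real.exp_log (by linarith)]
    rw [h2, le_div_iff₀ (by linarith)] at h1
    have h3 : ((T * x'.length : ℕ) : ℝ) ≤ (n : ℝ) := by push_cast; linarith
    exact_mod_cast h3
  · rw [Real.rpow_def_of_pos hnpos, ← hx]
    apply Real.exp_le_exp.mpr
    have hcg := cc_growth hδ hδ1 k
    have hkap := kappa_ge hδ₁1 hδ hδ2
    have h1 : κ * Y ≤ (k + 1) * (1 / 4 - δ / 2) := by
      have h2 : (1 - δ₁) / (4 * Real.log 2) * ((1 - δ₁) * Y) ≤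
          (1 - δ₁) / (4 * Real.log 2) * ((k + 1) * Z) :=
        mul_le_mul_of_nonneg_left hk3 (div_nonneg (by linarith) (by linarith))
      have h3 : ((k : ℝ) + 1) * ((1 - δ₁) / (4 * Real.log 2) * Z) ≤ (k + 1) * (1 / 4 - δ / 2) :=
        mul_le_mul_of_nonneg_left hkap (by linarith)
      have e1 : κ * Y = (1 - δ₁) / (4 * Real.log 2) * ((1 - δ₁) * Y) := by rw [hκ]; ring
      have e2 : (1 - δ₁) / (4 * Real.log 2) * ((k + 1) * Z) =
        ((k : ℝ) + 1) * ((1 - δ₁) / (4 * Real.log 2) * Z) := by ring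
      linarith
    have h4 : κ * (1 - δ₁) * Y ≤ cc δ k := by
      have : κ * (1 - δ₁) * Y = κ * Y - δ₁ * κ * Y := by ring
      linarith
    have h5 : κ * (1 - δ₁) * Y * ((1 - δ₁) * x) ≤ cc δ k * W :=
      mul_le_mul h4 hWδ (mul_nonneg (by linarith) hxpos.le) (by linarith)
    have h6 : (1 - δ₀) / (4 * Real.log 2) ≤ κ * (1 - δ₁) * (1 - δ₁) := by
      have e : κ * (1 - δ₁) * (1 - δ₁) = (1 - δ₁) ^ 4 / (4 * Real.log 2) := by rw [hκ]; ring
      rw [e]
      apply div_le_div_of_nonneg_right _ (by linarith)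
      have h7 := one_add_mul_le_pow (show (-2 : ℝ) ≤ -δ₁ by linarith) 4
      have e2 : (1 : ℝ) + -δ₁ = 1 - δ₁ := by ring
      rw [e2] at h7
      push_cast at h7
      have : 1 - δ₀ = 1 + 4 * -δ₁ := by rw [hδ₁def]; ring
      linarith
    have h8 : (1 - δ₀) / (4 * Real.log 2) * (Y * x) ≤ κ * (1 - δ₁) * (1 - δ₁) * (Y * x) :=
      mul_le_mul_of_nonneg_right h6 (mul_nonneg hY0 hxpos.le)
    have e3 : κ * (1 - δ₁) * Y * ((1 - δ₁) * x) = κ * (1 - δ₁) * (1 - δ₁) * (Y * x) := by ring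
    have e4 : x * -((1 - δ₀) / (4 * Real.log 2) * Y) = -((1 - δ₀) / (4 * Real.log 2) * (Y * x)) := by
      ring
    rw [e4]
    linarith
  · rw [← Real.exp_add]
    apply Real.exp_le_exp.mpr
    have h1 := big.c7
    have h2 : x ^ (3 / 2 : ℝ) = Real.exp (3 / 2 * y) := by
      rw [Real.rpow_def_of_pos hxpos, ← hy]; congr 1; ring
    have h3 : Real.exp (y ^ 5 / 4) ≤ Real.exp (L0 / 4) := Real.exp_le_exp.mpr (by linarith)
    rw [h2]
    rw [hexpy] at h1
    linarith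

end Itr

end

end Crest.Agent.R300LB
private theorem rz_b0930df44e : type_of% @_root_.Crest.Agent.R300LB.Itr.Lam.eq_def := @_root_.Crest.Agent.R300LB.Itr.Lam.eq_def -- L202
private theorem rz_fc831ea34a : type_of% @_root_.Crest.Agent.R300LB.Itr.Lam.eq_1 := @_root_.Crest.Agent.R300LB.Itr.Lam.eq_1 -- L202
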