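import Crest.Agent.R300.LBPlan
import Crest.Agent.R300.LBOrth
import Crest.Agent.R300.LBCoin
import Crest.Agent.R300.LBLaw2
import Crest.Agent.R300.LBOneLevel

-- ▼ part R300/LBTM
section

/-!
# Row 300, lower bounds, piece E4: Thue–Morse core (`TMStatement`)
-/

set_option autoImplicit false

namespace Crest.Agent.R300LB

namespace TM

open Finset

noncomputable section

variable {G : Type*} [Monoid G]

/-! ## algebra of `SB` (local versions) -/

theorem sb_zero {p : ℝ} {a : MA G} (ha : Pos a) (hp : 0 ≤ p) (z Pd : ℕ) : SB p a 0 z Pd := by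
  intro T f
  simp only [mul_zero, zero_mul, ev_zero]
  have := mul_nonneg hp ((ha.pow (T + z)) (fun w => f w ^ 2) (fun _ => sq_nonneg _))
  simpa using this

theorem sb_mono {p p' : ℝ} {a Z : MA G} {z Pd : ℕ} (ha : Pos a) (h : SB p a Z z Pd)
    (hp : p ≤ p') : SB p' a Z z Pd := fun T f =>
  le_trans (h T f) (mul_le_mul_of_nonneg_right hp ((ha.pow _) _ (fun _ => sq_nonneg _)))

theorem sb_pad {p : ℝ} {a Z : MA G} {z Pd Pd' : ℕ} (h : SB p a Z z Pd)
    (hP : Pd ≤ Pd') : SB p a Z z Pd' := fun T f => by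
  refine le_trans (sum_le_sum_of_subset_of_nonneg ?_ (fun _ _ _ => sq_nonneg _)) (h T f)
  exact Finset.Icc_subset_Icc hP (by omega)

/-- Minkowski in `ℓ²` -/
theorem mink {ι : Type*} (s : Finset ι) (α β : ι → ℝ) {x y E : ℝ} (hx : 0 ≤ x) (hy : 0 ≤ y)
    (hE : 0 ≤ E) (hα : ∑ i ∈ s, α i ^ 2 ≤ x ^ 2 * E) (hβ : ∑ i ∈ s, β i ^ 2 ≤ y ^ 2 * E) :
    ∑ i ∈ s, (α i + β i) ^ 2 ≤ (x + y) ^ 2 * E := by
  have h1 : ∑ i ∈ s, (α i + β i) ^ 2 =
      ∑ i ∈ s, α i ^ 2 + 2 * ∑ i ∈ s, α i * β i + ∑ i ∈ s, β i ^ 2 := by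
    rw [mul_sum, ← sum_add_distrib, ← sum_add_distrib]
    exact sum_congr rfl (fun i _ => by ring)
  have h2 : (∑ i ∈ s, α i * β i) ^ 2 ≤ (x * y * E) ^ 2 := by
    refine le_trans (sum_mul_sq_le_sq_mul_sq s α β) ?_
    have a0 : 0 ≤ ∑ i ∈ s, α i ^ 2 := sum_nonneg (fun _ _ => sq_nonneg _)
    have b0 : 0 ≤ ∑ i ∈ s, β i ^ 2 := sum_nonneg (fun _ _ => sq_nonneg _)
    calc _ ≤ (x ^ 2 * E) * (y ^ 2 * E) := mul_le_mul hα hβ b0 (by positivity)
      _ = _ := by ring
  have h3 : ∑ i ∈ s, α i * β i ≤ x * y * E :=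
    (abs_le_of_sq_le_sq' h2 (by positivity)).2
  rw [h1]
  nlinarith

theorem sb_add {x y : ℝ} {a Z Z' : MA G} {z Pd : ℕ} (ha : Pos a) (hx : 0 ≤ x) (hy : 0 ≤ y)
    (h : SB (x ^ 2) a Z z Pd) (h' : SB (y ^ 2) a Z' z Pd) : SB ((x + y) ^ 2) a (Z + Z') z Pd := by
  intro T f
  have e : ∀ i, ev (a ^ i * (Z + Z') * a ^ (T - i)) f =
      ev (a ^ i * Z * a ^ (T - i)) f + ev (a ^ i * Z' * a ^ (T - i)) f := by
    intro i
    rw [mul_add, add_mul, ev_add]
  simp only [e]
  exact mink _ _ _ hx hy ((ha.pow _) _ (fun _ => sq_nonneg _)) (h T f) (h' T f)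

theorem sb_neg {p : ℝ} {a Z : MA G} {z Pd : ℕ} (h : SB p a Z z Pd) : SB p a (-Z) z Pd := by
  intro T f
  have e : ∀ i, (ev (a ^ i * (-Z) * a ^ (T - i)) f) ^ 2 = (ev (a ^ i * Z * a ^ (T - i)) f) ^ 2 := by
    intro i
    rw [mul_neg, neg_mul, ev_neg, neg_sq]
  simp only [e]
  exact h T f

theorem sb_sub {x y : ℝ} {a Z Z' : MA G} {z Pd : ℕ} (ha : Pos a) (hx : 0 ≤ x) (hy : 0 ≤ y)
    (h : SB (x ^ 2) a Z z Pd) (h' : SB (y ^ 2) a Z' z Pd) : SB ((x + y) ^ 2) a (Z - Z') z Pd := by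
  rw [sub_eq_add_neg]
  exact sb_add ha hx hy h (sb_neg h')

theorem sb_right {p : ℝ} {a Z : MA G} {z Pd : ℕ} (j : ℕ) (h : SB p a Z z Pd) :
    SB p a (Z * a ^ j) (z + j) Pd := by
  intro T f
  have h1 := h (T + j) f
  have e : T + (z + j) = T + j + z := by ring
  rw [e]
  refine le_trans ?_ h1
  have hsub : Finset.Icc Pd (T - Pd) ⊆ Finset.Icc Pd (T + j - Pd) :=
    Finset.Icc_subset_Icc le_rfl (by omega)
  refine le_trans (le_of_eq ?_) (sum_le_sum_of_subset_of_nonneg hsub (fun _ _ _ => sq_nonneg _))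
  refine sum_congr rfl (fun x hx => ?_)
  have hx := Finset.mem_Icc.mp hx
  have e2 : a ^ x * (Z * a ^ j) * a ^ (T - x) = a ^ x * Z * a ^ (T + j - x) := by
    have : T + j - x = j + (T - x) := by omega
    rw [this, pow_add]
    simp only [mul_assoc]
  show (ev (a ^ x * (Z * a ^ j) * a ^ (T - x)) f) ^ 2 = _
  rw [e2]

theorem sb_left {p : ℝ} {a Z : MA G} {z Pd : ℕ} (j : ℕ) (h : SB p a Z z Pd) :
    SB p a (a ^ j * Z) (z + j) Pd := by
  intro T f
  have h1 := h (T + j) f
  have e : T + (z + j) = T + j + z := by ring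
  rw [e]
  refine le_trans ?_ h1
  have e2 : ∀ x ∈ Finset.Icc Pd (T - Pd), (ev (a ^ x * (a ^ j * Z) * a ^ (T - x)) f) ^ 2 =
      (ev (a ^ (x + j) * Z * a ^ (T + j - (x + j))) f) ^ 2 := by
    intro x hx
    have hx := Finset.mem_Icc.mp hx
    have : T + j - (x + j) = T - x := by omega
    rw [this, pow_add]
    simp only [mul_assoc]
  rw [sum_congr rfl e2]
  have e3 := Finset.sum_map (Finset.Icc Pd (T - Pd)) (addRightEmbedding j)
    (fun x => (ev (a ^ x * Z * a ^ (T + j - x)) f) ^ 2)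
  simp only [addRightEmbedding_apply] at e3
  rw [← e3]
  refine sum_le_sum_of_subset_of_nonneg ?_ (fun _ _ _ => sq_nonneg _)
  intro y hy
  rw [Finset.mem_map] at hy
  obtain ⟨x, hx, rfl⟩ := hy
  have hx := Finset.mem_Icc.mp hx
  rw [Finset.mem_Icc]
  simp only [addRightEmbedding_apply]
  omega

/-! ## expansion of a word -/

/-- first-order part -/
def L1 (a Δ : MA G) : List Bool → MA G
  | [] => 0
  | (c :: w) => a * L1 a Δ w - (if c then Δ * a ^ w.length else 0)

/-- second-order part -/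
def L2 (a Δ : MA G) : List Bool → MA G
  | [] => 0
  | (c :: w) => a * L2 a Δ w - (if c then Δ * L1 a Δ w else 0)

/-- third- and higher-order part -/
def L3 (a Δ : MA G) : List Bool → MA G
  | [] => 0
  | (c :: w) => a * L3 a Δ w - (if c then Δ * (L2 a Δ w + L3 a Δ w) else 0)

theorem wd_expand (a b : MA G) (w : List Bool) :
    Wd a b w = a ^ w.length + L1 a (a - b) w + L2 a (a - b) w + L3 a (a - b) w := by
  induction w with
  | nil => simp [Wd_nil, L1, L2, L3]
  | cons c w ih =>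
    rw [Wd_cons, List.length_cons, L1, L2, L3]
    cases c
    · simp only [Bool.false_eq_true, if_false, sub_zero]
      rw [ih, pow_succ']
      noncomm_ring
    · simp only [if_true]
      rw [ih, pow_succ']
      noncomm_ring

theorem L1_append (a Δ : MA G) (w v : List Bool) :
    L1 a Δ (w ++ v) = L1 a Δ w * a ^ v.length + a ^ w.length * L1 a Δ v := by
  induction w with
  | nil => simp [L1]
  | cons c w ih =>
    rw [List.cons_append, L1, ih, L1, List.length_cons, List.length_append]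
    cases c
    · simp only [Bool.false_eq_true, if_false, sub_zero]
      rw [pow_succ' a]
      noncomm_ring
    · simp only [if_true]
      rw [pow_add, pow_succ' a]
      noncomm_ring

theorem map_not_not (w : List Bool) : (w.map not).map not = w := by
  rw [List.map_map]
  have : (not ∘ not) = (id : Bool → Bool) := by funext b; simp
  rw [this, List.map_id]

theorem lin_eq_L1 (a X : MA G) (r : ℕ) :
    lin a r X = L1 a X (tm r) - L1 a X ((tm r).map not) := by
  induction r with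
  | zero => simp [lin, tm, tsg, L1]
  | succ r ih =>
    rw [lin_succ, ih, tm, List.map_append, map_not_not, L1_append, L1_append, List.length_map,
      tm_length]
    noncomm_ring

theorem mass_L2 {a Δ : MA G} (h0 : mass Δ = 0) (w : List Bool) : mass (L2 a Δ w) = 0 := by
  induction w with
  | nil => exact ev_zero _
  | cons c w ih =>
    rw [L2, mass_sub, mass_mul, ih]
    cases c
    · simp only [Bool.false_eq_true, if_false]
      have : mass (0 : MA G) = 0 := ev_zero _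
      rw [this]; ring
    · simp only [if_true]
      rw [mass_mul, h0]; ring

theorem mass_L3 {a Δ : MA G} (h0 : mass Δ = 0) (w : List Bool) : mass (L3 a Δ w) = 0 := by
  induction w with
  | nil => exact ev_zero _
  | cons c w ih =>
    rw [L3, mass_sub, mass_mul, ih]
    cases c
    · simp only [Bool.false_eq_true, if_false]
      have : mass (0 : MA G) = 0 := ev_zero _
      rw [this]; ring
    · simp only [if_true]
      rw [mass_mul, h0]; ring

/-! ## norms -/

section norms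

variable {a b : MA G} {V : ℝ}

theorem ite_dom {c : Bool} {h : ℝ} {π H : MA G} (hπ : Pos π) (hh : 0 ≤ h) (hH : Dom h π H) :
    Dom h π (if c then -H else 0) := by
  cases c
  · simpa using Dom.zero π hπ hh
  · simpa using hH.neg

/-- recursion step: `a * S - [c] Δ * H` -/
theorem step_dom {a Δ H S π : MA G} {V h T : ℝ} (c : Bool) (ha : Prob a) (hπ : Pos π)
    (hΔ0 : mass Δ = 0) (hΔ : Dom V a Δ) (hV : 0 ≤ V) (hH : Dom h π H) (hh : 0 ≤ h)
    (hS : Dom T π S) (hT : 0 ≤ T) :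
    Dom (V * h + T) (a * π) (a * S - (if c then Δ * H else 0)) := by
  have h1 := orth_step ha hπ hΔ0 hΔ hV (ite_dom (c := c) hπ hh hH) hh hS hT
  have e : Δ * (if c = true then -H else 0) + a * S = a * S - (if c = true then Δ * H else 0) := by
    cases c
    · simp
    · simp only [if_true, mul_neg]; abel
  rwa [e] at h1

theorem L23_dom (ha : Prob a) (hb : Prob b) (hV : 0 ≤ V) (h : Dom V a (a - b)) (w : List Bool)
    (hn : w.length * V ≤ 1) :
    Dom ((w.length * V) ^ 2) (a ^ w.length) (L2 a (a - b) w + L3 a (a - b) w) := by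
  have h0 : mass (a - b) = 0 := by rw [mass_sub, ha.one, hb.one]; ring
  induction w with
  | nil => simpa [L2, L3] using Dom.zero (1 : MA G) Pos.one (le_refl (0:ℝ))
  | cons c w ih =>
    have hlen : ((c :: w).length : ℝ) = w.length + 1 := by simp
    rw [hlen] at hn ⊢
    have hn' : (w.length : ℝ) * V ≤ 1 := by nlinarith
    have ih' := ih hn'
    -- L1+L2+L3 = Wd - a^n
    have h1 : Dom (2 * (w.length * V)) (a ^ w.length)
        (L1 a (a - b) w + L2 a (a - b) w + L3 a (a - b) w) := by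
      have := (Wd_dom ha hb hV h w).mono (one_add_pow_sub_le hV w.length hn') (ha.pos.pow _)
      rw [wd_expand] at this
      have e : a ^ w.length + L1 a (a - b) w + L2 a (a - b) w + L3 a (a - b) w - a ^ w.length =
        L1 a (a - b) w + L2 a (a - b) w + L3 a (a - b) w := by abel
      rwa [e] at this
    have h2 := step_dom c ha (ha.pos.pow w.length) h0 h hV h1 (by positivity) ih' (sq_nonneg _)
    have e : L2 a (a - b) (c :: w) + L3 a (a - b) (c :: w) =
        a * (L2 a (a - b) w + L3 a (a - b) w) - (if c = true then (a - b) *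
          (L1 a (a - b) w + L2 a (a - b) w + L3 a (a - b) w) else 0) := by
      rw [L2, L3]
      cases c
      · simp only [Bool.false_eq_true, if_false, sub_zero]
        rw [mul_add]
      · simp only [if_true]
        noncomm_ring
    rw [e, List.length_cons, pow_succ' a]
    refine h2.mono ?_ (ha.pos.mul (ha.pos.pow _))
    nlinarith [mul_nonneg hV hV]

theorem L3_dom (ha : Prob a) (hb : Prob b) (hV : 0 ≤ V) (h : Dom V a (a - b)) (w : List Bool)
    (hn : w.length * V ≤ 1) :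
    Dom ((w.length * V) ^ 3) (a ^ w.length) (L3 a (a - b) w) := by
  have h0 : mass (a - b) = 0 := by rw [mass_sub, ha.one, hb.one]; ring
  induction w with
  | nil => simpa [L3] using Dom.zero (1 : MA G) Pos.one (le_refl (0:ℝ))
  | cons c w ih =>
    have hlen : ((c :: w).length : ℝ) = w.length + 1 := by simp
    rw [hlen] at hn ⊢
    have hn' : (w.length : ℝ) * V ≤ 1 := by nlinarith
    have h2 := step_dom c ha (ha.pos.pow w.length) h0 h hV (L23_dom ha hb hV h w hn')
      (by positivity) (ih hn') (by positivity)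
    rw [L3, List.length_cons, pow_succ' a]
    refine h2.mono ?_ (ha.pos.mul (ha.pos.pow _))
    have hw : (0:ℝ) ≤ w.length := Nat.cast_nonneg _
    have h3 : V * (w.length * V) ^ 2 + (w.length * V) ^ 3 = V ^ 3 * (w.length ^ 2 + w.length ^ 3) := by
      ring
    have h4 : ((w.length + 1 : ℝ) * V) ^ 3 = V ^ 3 * (w.length + 1) ^ 3 := by ring
    rw [h3, h4]
    refine mul_le_mul_of_nonneg_left ?_ (by positivity)
    nlinarith [mul_nonneg hw hw]

end norms

/-! ## shift-Bessel bounds -/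

theorem sb_ite {x : ℝ} {a Z : MA G} {z Pd : ℕ} (c : Bool) (ha : Pos a)
    (h : SB (x ^ 2) a Z z Pd) : SB (x ^ 2) a (if c then Z else 0) z Pd := by
  cases c
  · simpa using sb_zero ha (sq_nonneg x) z Pd
  · simpa using h

theorem L1_sb {a Δ : MA G} {x : ℝ} {gm Pd : ℕ} (ha : Prob a) (hx : 0 ≤ x)
    (hp : ∀ g : ℕ, g ≤ gm → SB (x ^ 2) a (Δ * a ^ g * Δ) (g + 2) Pd) (w : List Bool) :
    ∀ i : ℕ, i + w.length ≤ gm + 1 →
      SB ((w.length * x) ^ 2) a (Δ * a ^ i * L1 a Δ w) (1 + i + w.length) Pd := by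
  induction w with
  | nil =>
    intro i _
    rw [L1, mul_zero]
    exact sb_zero ha.pos (sq_nonneg _) _ _
  | cons c w ih =>
    intro i hi
    rw [List.length_cons] at hi ⊢
    have h1 := ih (i + 1) (by omega)
    have h2 := sb_right w.length (hp i (by omega))
    have e1 : 1 + (i + 1) + w.length = 1 + i + (w.length + 1) := by ring
    have e2 : i + 2 + w.length = 1 + i + (w.length + 1) := by ring
    rw [e1] at h1
    rw [e2] at h2
    have h3 := sb_sub ha.pos (by positivity) hx h1 (sb_ite c ha.pos h2)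
    have e : Δ * a ^ i * L1 a Δ (c :: w) = Δ * a ^ (i + 1) * L1 a Δ w -
        (if c = true then Δ * a ^ i * Δ * a ^ w.length else 0) := by
      rw [L1, mul_sub]
      cases c
      · simp only [Bool.false_eq_true, if_false, mul_zero, sub_zero]
        rw [pow_succ]
        simp only [mul_assoc]
      · simp only [if_true]
        rw [pow_succ]
        simp only [mul_assoc]
    rw [e]
    refine sb_mono ha.pos h3 (le_of_eq ?_)
    push_cast
    ring

theorem L2_sb {a Δ : MA G} {x : ℝ} {gm Pd : ℕ} (ha : Prob a) (hx : 0 ≤ x)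
    (hp : ∀ g : ℕ, g ≤ gm → SB (x ^ 2) a (Δ * a ^ g * Δ) (g + 2) Pd) (w : List Bool)
    (hw : w.length ≤ gm + 1) :
    SB ((w.length ^ 2 / 2 * x) ^ 2) a (L2 a Δ w) w.length Pd := by
  induction w with
  | nil =>
    rw [L2]
    exact sb_zero ha.pos (sq_nonneg _) _ _
  | cons c w ih =>
    rw [List.length_cons] at hw ⊢
    have h1 := sb_left 1 (ih (by omega))
    rw [pow_one] at h1
    have h2 := L1_sb ha hx hp w 0 (by omega)
    rw [pow_zero, mul_one] at h2
    have e1 : 1 + 0 + w.length = w.length + 1 := by ring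
    rw [e1] at h2
    have h3 := sb_sub ha.pos (by positivity) (by positivity) h1 (sb_ite c ha.pos h2)
    rw [L2]
    refine sb_mono ha.pos h3 ?_
    refine pow_le_pow_left₀ (by positivity) ?_ 2
    push_cast
    have : 0 ≤ x * (1 / 2) := by positivity
    nlinarith

/-- **E4** -/
theorem tmStatement (hD : DomSBStatement) : TMStatement := by
  intro G _ a b s R m r gm Pd V p ha hb hV hp hdom hVp hNV hr hgm hpair hs hm
  have h0 : mass (a - b) = 0 := by rw [mass_sub, ha.one, hb.one]; ring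
  set Δ := a - b with hΔ
  obtain ⟨x, hx, hxp⟩ : ∃ x : ℝ, 0 ≤ x ∧ x ^ 2 = p := ⟨√p, Real.sqrt_nonneg _, Real.sq_sqrt hp⟩
  rw [← hxp] at hpair
  have hlen : (tm r).length = 2 ^ r := tm_length r
  have hlen' : ((tm r).map not).length = 2 ^ r := by rw [List.length_map, hlen]
  set N : ℝ := (2 : ℝ) ^ r with hN
  have hN0 : 0 < N := by positivity
  have hcast : (((2 : ℕ) ^ r : ℕ) : ℝ) = N := by push_cast; rfl
  -- generic bound for one word
  have key : ∀ w : List Bool, w.length = 2 ^ r →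
      SB ((3 / 2 * N ^ 2 * x) ^ 2) a (L2 a Δ w + L3 a Δ w) (2 ^ r) Pd := by
    intro w hw
    have hwN : (w.length : ℝ) = N := by rw [hw, hcast]
    have h2 := L2_sb ha hx hpair w (by omega)
    rw [hwN, hw] at h2
    have h3 := L3_dom ha hb hV hdom w (by rw [hwN]; exact hNV)
    have h4 := hD G a (L3 a Δ w) w.length _ ha (mass_L3 h0 w) (by positivity)
      (by rw [hw]; exact Nat.one_le_two_pow) h3
    rw [hwN, hw] at h4
    have h5 : SB ((N ^ 2 * x) ^ 2) a (L3 a Δ w) (2 ^ r) Pd := by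
      refine sb_pad (sb_mono ha.pos h4 ?_) (Nat.zero_le _)
      rw [← hxp] at hVp
      calc N * (N * V) ^ 3 = N ^ 4 * V ^ 3 := by ring
        _ ≤ N ^ 4 * x ^ 2 := mul_le_mul_of_nonneg_left hVp (by positivity)
        _ = _ := by ring
    have h6 := sb_add ha.pos (by positivity) (by positivity) h2 h5
    refine sb_mono ha.pos h6 (le_of_eq ?_)
    ring
  refine ⟨(L2 a Δ (tm r) + L3 a Δ (tm r)) -
    (L2 a Δ ((tm r).map not) + L3 a Δ ((tm r).map not)), lin a r Δ, ?_, ?_, ?_, ?_⟩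
  · rw [lin_eq_L1, wd_expand a b (tm r), wd_expand a b ((tm r).map not), hlen, hlen']
    rw [← hΔ]
    abel
  · rw [mass_sub, mass_add, mass_add, mass_L2 h0, mass_L2 h0, mass_L3 h0, mass_L3 h0]
    ring
  · have h1 := sb_sub ha.pos (by positivity) (by positivity) (key (tm r) hlen)
      (key ((tm r).map not) hlen')
    refine sb_mono ha.pos h1 ?_
    rw [← hxp]
    have : (3 / 2 * N ^ 2 * x + 3 / 2 * N ^ 2 * x) ^ 2 = 9 * N ^ 4 * x ^ 2 := by ring
    rw [this]
    have : 0 ≤ N ^ 4 * x ^ 2 := by positivity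
    nlinarith
  · -- linear part
    have hms := hs.mpos
    have hm1 := hs.mass_le_one ha
    rw [lin_eq, mul_smul_comm, smul_mul_assoc]
    set k := m / (R + 1) with hk
    have hkm : (R + 1) * k ≤ m := Nat.mul_div_le m (R + 1)
    have hkm2 : m < (R + 1) * (k + 1) := Nat.lt_mul_div_succ m (Nat.succ_pos R)
    have hV2 : Dom ((√V) ^ 2) a Δ := by rwa [Real.sq_sqrt hV]
    have g1 := GG_dom ha (Real.sqrt_nonneg V) hV2 r
    have g2 := deriv_bound k r (2 ^ r - r) ha hs (sq_nonneg _) g1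
    obtain ⟨j, hj⟩ : ∃ j, m = (R + 1) * k + j := ⟨m - (R + 1) * k, by omega⟩
    have g3 := (g2.mulLeft (ha.pow j)).mulRight (ha.pow j) (by positivity)
      ((ha.pos.pow j).mul (ha.pos.pow _))
    have hrr : r < 2 ^ r := Nat.lt_two_pow_self
    have e1 : a ^ j * a ^ (2 * ((R + 1) * k) + r + (2 ^ r - r)) * a ^ j = a ^ (2 * m + 2 ^ r) := by
      rw [← pow_add, ← pow_add]
      congr 1
      omega
    have e2 : a ^ j * (a ^ ((R + 1) * k) * (Dif a)^[r] (GG a r Δ) * a ^ ((R + 1) * k)) * a ^ j =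
        a ^ m * (Dif a)^[r] (GG a r Δ) * a ^ m := by
      have e3 : a ^ m = a ^ j * a ^ ((R + 1) * k) := by rw [← pow_add, hj]; congr 1; ring
      have e4 : a ^ m = a ^ ((R + 1) * k) * a ^ j := by rw [← pow_add, hj]
      calc _ = (a ^ j * a ^ ((R + 1) * k)) * (Dif a)^[r] (GG a r Δ) *
            (a ^ ((R + 1) * k) * a ^ j) := by noncomm_ring
        _ = _ := by rw [← e3, ← e4]
    rw [e1, e2] at g3
    have g4 := g3.smul ((-1 : ℝ) ^ r)
    refine g4.mono ?_ (ha.pos.pow _)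
    have es : ((-1 : ℝ) ^ r) ^ 2 = 1 := by rw [← pow_mul, mul_comm r 2, pow_mul]; norm_num
    rw [es, one_mul, mul_pow, Real.sq_sqrt hV]
    set h := (mass s) ^ 2 with hh
    have hh0 : 0 < h := by positivity
    have hm0 : (0 : ℝ) < m := by exact_mod_cast hm
    have hC0 : (0 : ℝ) < ((k + r).choose r : ℝ) := by
      exact_mod_cast Nat.choose_pos (Nat.le_add_left r k)
    have hC : ((k : ℝ) + 1) ^ r ≤ (r : ℝ) ^ r * ((k + r).choose r : ℝ) := by
      have h1 : (k + 1) ^ r ≤ r ^ r * (k + r).choose r := by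
        calc (k + 1) ^ r ≤ (k + 1).ascFactorial r := Nat.pow_succ_le_ascFactorial (k + 1) r
          _ = r.factorial * (k + r).choose r := Nat.ascFactorial_eq_factorial_mul_choose _ _
          _ ≤ r ^ r * (k + r).choose r := Nat.mul_le_mul_right _ (Nat.factorial_le_pow r)
      exact_mod_cast h1
    have hmk : (m : ℝ) ≤ (R + 1) * (k + 1) := by exact_mod_cast hkm2.le
    have h2 : ((2 : ℝ) ^ (r * (r - 1) / 2)) ^ 2 ≤ ((2 : ℝ) ^ r) ^ r := by
      rw [← pow_mul, ← pow_mul]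
      refine pow_le_pow_right₀ (by norm_num) ?_
      calc r * (r - 1) / 2 * 2 ≤ r * (r - 1) := Nat.div_mul_le_self _ _
        _ ≤ r * r := Nat.mul_le_mul_left _ (Nat.sub_le _ _)
    have h3 : (4 / h) ^ r / ((k + r).choose r : ℝ) ≤ (4 * r * (R + 1) / (h * m)) ^ r := by
      have hk1 : (0 : ℝ) < (k : ℝ) + 1 := by positivity
      have a1 : 1 / ((k + r).choose r : ℝ) ≤ (r / ((k : ℝ) + 1)) ^ r := by
        rw [div_pow, div_le_div_iff₀ hC0 (by positivity), one_mul]
        exact hC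
      have a2 : (r : ℝ) / ((k : ℝ) + 1) ≤ r * (R + 1) / m := by
        rw [div_le_div_iff₀ hk1 hm0]
        have : (0 : ℝ) ≤ r := Nat.cast_nonneg r
        nlinarith
      calc (4 / h) ^ r / ((k + r).choose r : ℝ) = (4 / h) ^ r * (1 / ((k + r).choose r : ℝ)) := by
            rw [mul_one_div]
        _ ≤ (4 / h) ^ r * (r / ((k : ℝ) + 1)) ^ r :=
            mul_le_mul_of_nonneg_left a1 (by positivity)
        _ ≤ (4 / h) ^ r * (r * (R + 1) / m) ^ r :=
            mul_le_mul_of_nonneg_left (pow_le_pow_left₀ (by positivity) a2 r) (by positivity)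
        _ = (4 * r * (R + 1) / (h * m)) ^ r := by
            rw [← mul_pow]
            congr 1
            field_simp
    calc ((2 : ℝ) ^ (r * (r - 1) / 2)) ^ 2 * V * ((4 / h) ^ r / ((k + r).choose r : ℝ))
        ≤ ((2 : ℝ) ^ r) ^ r * V * (4 * r * (R + 1) / (h * m)) ^ r := by
          apply mul_le_mul (mul_le_mul_of_nonneg_right h2 hV) h3 (by positivity) (by positivity)
      _ = (2 ^ r * 4 * r * (R + 1) / (h * m)) ^ r * V := by
          have : (2 : ℝ) ^ r * 4 * r * (R + 1) / (h * m) =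
            2 ^ r * (4 * r * (R + 1) / (h * m)) := by ring
          rw [this, mul_pow]
          ring

end

end TM

end Crest.Agent.R300LB
private theorem rz_5752ab9f57 : type_of% @_root_.Crest.Agent.R300LB.TM.L1.eq_def := @_root_.Crest.Agent.R300LB.TM.L1.eq_def -- L130
private theorem rz_b9a07cf14d : type_of% @_root_.Crest.Agent.R300LB.TM.L1.eq_1 := @_root_.Crest.Agent.R300LB.TM.L1.eq_1 -- L130
private theorem rz_4493078baa : type_of% @_root_.Crest.Agent.R300LB.TM.L2.eq_def := @_root_.Crest.Agent.R300LB.TM.L2.eq_def -- L135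
private theorem rz_a0f65164c8 : type_of% @_root_.Crest.Agent.R300LB.TM.L2.eq_1 := @_root_.Crest.Agent.R300LB.TM.L2.eq_1 -- L135
private theorem rz_8578833197 : type_of% @_root_.Crest.Agent.R300LB.TM.L3.eq_def := @_root_.Crest.Agent.R300LB.TM.L3.eq_def -- L140
private theorem rz_f17ae4caa6 : type_of% @_root_.Crest.Agent.R300LB.TM.L3.eq_1 := @_root_.Crest.Agent.R300LB.TM.L3.eq_1 -- L140
end

-- ▼ part R300/LBWord
section

/-!
# Row 300, lower bounds: words and `ℓ¹` errors of the next level (`WordStatement`)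
-/

set_option autoImplicit false

namespace Crest.Agent.R300LB

open Finset

noncomputable section

namespace Word

theorem blk_length (x y : List Bool) (h : x.length = y.length) (w : List Bool) :
    (blk x y w).length = w.length * x.length := by
  induction w with
  | nil => simp [blk]
  | cons c w ih =>
    have : blk x y (c :: w) = (if c then y else x) ++ blk x y w := by simp [blk]
    rw [this, List.length_append, ih, List.length_cons]
    cases c
    · simp; ring
    · simp only [if_true]; rw [← h]; ring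

theorem blk_inj (x y : List Bool) (h : x.length = y.length) (hne : x ≠ y) :
    ∀ (w w' : List Bool), w.length = w'.length → blk x y w = blk x y w' → w = w' := by
  intro w
  induction w with
  | nil => intro w' hl _; exact (List.length_eq_zero_iff.mp hl.symm).symm
  | cons c w ih =>
    intro w' hl he
    cases w' with
    | nil => simp at hl
    | cons c' w' =>
      have e1 : blk x y (c :: w) = (if c then y else x) ++ blk x y w := by simp [blk]
      have e2 : blk x y (c' :: w') = (if c' then y else x) ++ blk x y w' := by simp [blk]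
      rw [e1, e2] at he
      have hlen : (if c = true then y else x).length = (if c' = true then y else x).length := by
        cases c <;> cases c' <;> simp [h]
      obtain ⟨h1, h2⟩ := List.append_inj he hlen
      have hc : c = c' := by
        cases c <;> cases c'
        · rfl
        · simp at h1; exact absurd h1 hne
        · simp at h1; exact absurd h1.symm hne
        · rfl
      rw [hc, ih w' (by simpa using hl) h2]

theorem pat_length (m r : ℕ) (c : Bool) : (pat m r c).length = 2 * m + 2 ^ r := by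
  simp only [pat, List.length_append, List.length_replicate, List.length_map, tm_length]
  ring

theorem pat_ne (m r : ℕ) : pat m r false ≠ pat m r true := by
  intro h
  unfold pat at h
  rw [List.append_assoc, List.append_assoc] at h
  have h1 := List.append_cancel_left h
  have h2 := List.append_cancel_right h1
  have hpos : 0 < (tm r).length := by rw [tm_length]; positivity
  cases hT : tm r with
  | nil => rw [hT] at hpos; simp at hpos
  | cons t l =>
    rw [hT] at h2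
    simp at h2

theorem D_blk (q : ℝ) (x y : List Bool) (w : List Bool) :
    D q (blk x y w) = (w.map (fun c => if c then D q y else D q x)).prod := by
  induction w with
  | nil => rfl
  | cons c w ih =>
    have e1 : blk x y (c :: w) = (if c then y else x) ++ blk x y w := by simp [blk]
    rw [e1, D_append, ih, List.map_cons, List.prod_cons]
    cases c <;> rfl

theorem tv_words {G : Type*} [Monoid G] {τ : ℝ} {a b a' b' : MA G} (ha : Prob a) (hb : Prob b)
    (ha' : Prob a') (hb' : Prob b') (h1 : TVle τ (a - a')) (h2 : TVle τ (b - b')) (w : List Bool) :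
    TVle (w.length * τ) (Wd a b w - (w.map (fun c => if c then b' else a')).prod) := by
  have h := (TVle.prod (τ := τ) (w.map (fun c => ((if c then b else a), (if c then b' else a')))) (by
    intro p hp
    obtain ⟨c, -, rfl⟩ := List.mem_map.mp hp
    cases c
    · exact ⟨TVle.of_prob ha, TVle.of_prob ha', h1⟩
    · exact ⟨TVle.of_prob hb, TVle.of_prob hb', h2⟩)).1
  rw [List.length_map, List.map_map, List.map_map] at h
  exact h

theorem Wd_replicate {G : Type*} [Monoid G] (a b : MA G) (m : ℕ) :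
    Wd a b (List.replicate m false) = a ^ m := by
  simp [Wd]

end Word

open Word in
theorem wordStatement : WordStatement := by
  intro q τ x y a b m r hq hq' hτ hlen hne ha hb hta htb
  have hDx : Prob (D q x) := prob_D hq.le (by linarith) x
  have hDy : Prob (D q y) := prob_D hq.le (by linarith) y
  refine ⟨?_, ?_, ?_, ?_, ?_⟩
  · intro c
    rw [blk_length x y hlen, pat_length]
  · intro h
    exact pat_ne m r (blk_inj x y hlen hne _ _ (by rw [pat_length, pat_length]) h)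
  · intro c
    have h := tv_words ha hb hDx hDy hta htb (pat m r c)
    rw [← D_blk, pat_length] at h
    push_cast at h
    exact h
  · unfold pat
    rw [Wd_append, Wd_append, Wd_replicate]
    have : (tm r).map (fun t => xor false t) = tm r := by
      conv_rhs => rw [← List.map_id (tm r)]
      congr 1
      funext t
      simp
    rw [this]
  · unfold pat
    rw [Wd_append, Wd_append, Wd_replicate]
    have : (tm r).map (fun t => xor true t) = (tm r).map not := by
      congr 1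
      funext t
      simp
    rw [this]

end

end Crest.Agent.R300LB
end

-- ▼ part R300/LBPair
section

/-!
# Row 300, lower bounds, piece E6: the pair recursion
-/

set_option autoImplicit false

namespace Crest.Agent.R300LB

open Finset

noncomputable section

variable {G : Type*} [Monoid G]

namespace PairAux

/-- product rule in the `x ^ 2` form -/
theorem nmul {x y : ℝ} {π ρ μ ν : MA G} (h1 : Dom (x ^ 2) π μ) (h2 : Dom (y ^ 2) ρ ν)
    (hπ : Pos π) : Dom ((x * y) ^ 2) (π * ρ) (μ * ν) := by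
  rw [mul_pow]
  exact h1.mul h2 (sq_nonneg x) hπ

theorem nself {a : MA G} (ha : Prob a) : Dom ((1 : ℝ) ^ 2) a a := by
  rw [one_pow]; exact Dom.self_prob ha

theorem nmono {x y : ℝ} {π ν : MA G} (h : Dom (x ^ 2) π ν) (hx : 0 ≤ x) (hxy : x ≤ y)
    (hπ : Pos π) : Dom (y ^ 2) π ν :=
  h.mono (pow_le_pow_left₀ hx hxy 2) hπ

theorem nsmul' {x : ℝ} {π ν : MA G} (h : Dom (x ^ 2) π ν) (c : ℝ) :
    Dom ((|c| * x) ^ 2) π (c • ν) := by
  have := h.smul c
  rw [mul_pow, sq_abs]
  exact this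

theorem sum_abs_le (S : ℕ) (c : ℕ → ℝ) :
    ∑ x ∈ range S, |c x| ≤ √S * √(∑ x ∈ range S, c x ^ 2) := by
  rw [← Real.sqrt_mul (Nat.cast_nonneg _)]
  apply Real.le_sqrt_of_sq_le
  have := Finset.sum_mul_sq_le_sq_mul_sq (range S) (fun _ => (1:ℝ)) (fun x => |c x|)
  simpa [sq_abs] using this

/-- sum over the window of terms bounded by `|c x| * y` -/
theorem nsum {S : ℕ} {y : ℝ} (hy : 0 ≤ y) {π : MA G} {F : ℕ → MA G} (hπ : Pos π) (c : ℕ → ℝ)
    (h : ∀ x ∈ range S, Dom (y ^ 2) π (F x)) :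
    Dom ((√S * y * √(∑ x ∈ range S, c x ^ 2)) ^ 2) π (∑ x ∈ range S, c x • F x) := by
  have h1 := Dom.sum (range S) (x := fun x => |c x| * y) (π := π) (ν := fun x => c x • F x)
    (fun x hx => nsmul' (h x hx) (c x)) (fun x _ => by positivity) hπ
  rw [← Finset.sum_mul] at h1
  refine nmono h1 (mul_nonneg (Finset.sum_nonneg fun _ _ => abs_nonneg _) hy) ?_ hπ
  have := mul_le_mul_of_nonneg_right (sum_abs_le S c) hy
  calc _ ≤ _ := this
    _ = _ := by ring

theorem bes_dom {ι : Type*} {S : Finset ι} {p : ℝ} {π : MA G} {U : ι → MA G}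
    (h : Bes S p π U) (c : ι → ℝ) : Dom (p * ∑ i ∈ S, c i ^ 2) π (∑ i ∈ S, c i • U i) := fun f => by
  rw [ev_sum]
  have e : ∑ i ∈ S, ev (c i • U i) f = ∑ i ∈ S, c i * ev (U i) f :=
    Finset.sum_congr rfl fun i _ => ev_smul _ _ _
  rw [e]
  refine (Finset.sum_mul_sq_le_sq_mul_sq S c fun i => ev (U i) f).trans ?_
  have := mul_le_mul_of_nonneg_left (h f) (Finset.sum_nonneg fun i (_ : i ∈ S) => sq_nonneg (c i))
  calc _ ≤ _ := this
    _ = _ := by ring

theorem bes_of_dom {ι : Type*} {S : Finset ι} {p : ℝ} {π : MA G} {U : ι → MA G} (hp : 0 ≤ p)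
    (hπ : Pos π) (h : ∀ c : ι → ℝ, Dom (p * ∑ i ∈ S, c i ^ 2) π (∑ i ∈ S, c i • U i)) :
    Bes S p π U := fun f => by
  have h1 := h (fun i => ev (U i) f) f
  rw [ev_sum] at h1
  have e : ∑ i ∈ S, ev ((ev (U i) f) • U i) f = ∑ i ∈ S, (ev (U i) f) ^ 2 :=
    Finset.sum_congr rfl fun i _ => by rw [ev_smul]; ring
  rw [e] at h1
  set Q := ∑ i ∈ S, (ev (U i) f) ^ 2 with hQ
  have hQ0 : 0 ≤ Q := Finset.sum_nonneg fun i _ => sq_nonneg _
  have hE : 0 ≤ ev π (fun w => f w ^ 2) := hπ _ fun _ => sq_nonneg _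
  rcases eq_or_lt_of_le hQ0 with h0 | h0
  · rw [← h0]; exact mul_nonneg hp hE
  · have h2 : Q * Q ≤ Q * (p * ev π (fun w => f w ^ 2)) := by nlinarith
    exact le_of_mul_le_mul_left h2 h0

end PairAux

open PairAux

set_option maxHeartbeats 1600000 in
/-- E6 -/
theorem pairStep (hBl : BlockStatement) (hTe : TensorStatement) (hLo : LocationStatement) :
    PairStepStatement := by
  intro G _ a P P' W E s R m N0 Pd S g k pW θ χ u' e0 ha hP hP' hs hN0 hS hm hG hW0 hpW hSB hPd hN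
    hθ hE hχ hχ1 hPM hg hk hu' hu hee hRef
  set n := 2 * m + N0 with hn
  set Gp := P - P' with hGp
  set T := a ^ n with hT
  set w := a ^ m * W * a ^ m with hw
  have hTp : Prob T := ha.pow n
  have hPpos := hP.pos
  have hTk : ∀ k, Pos (T ^ k) := fun k => hTp.pos.pow k
  have hmG : mass Gp = 0 := by rw [hGp, mass_sub, hP.one, hP'.one, sub_self]
  have hmZ : mass (Gp * P ^ g * Gp) = 0 := by rw [mass_mul, hmG, mul_zero]
  have hSpos : (0:ℝ) ≤ √S := Real.sqrt_nonneg _
  -- norms of the basic objects w.r.t. the pure reference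
  have hPn : ∀ M, M ≤ 3 * S → Dom ((√χ) ^ 2) (T ^ M) (P ^ M - T ^ M) := by
    intro M hM
    rw [Real.sq_sqrt hχ]
    have := hPM M hM
    rwa [pow_mul] at this
  have hsχ : √χ ≤ 1 := by
    rw [show (1:ℝ) = √1 by simp]; exact Real.sqrt_le_sqrt hχ1
  have hPn2 : ∀ M, M ≤ 3 * S → Dom ((2:ℝ) ^ 2) (T ^ M) (P ^ M) := by
    intro M hM
    have h1 := (nself (hTp.pow M)).add (hPn M hM) zero_le_one (Real.sqrt_nonneg _) (hTk M)
    rw [add_sub_cancel] at h1
    exact nmono h1 (by positivity) (by linarith) (hTk M)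
  have hwn : Dom ((√pW) ^ 2) T w := by
    rw [Real.sq_sqrt hpW]
    have h1 := hSB (2 * m)
    intro f
    have h2 := h1 f
    have h3 : m ∈ Finset.Icc Pd (2 * m - Pd) := by
      rw [Finset.mem_Icc]; omega
    have h4 : (ev (a ^ m * W * a ^ (2 * m - m)) f) ^ 2 ≤
        ∑ x ∈ Finset.Icc Pd (2 * m - Pd), (ev (a ^ x * W * a ^ (2 * m - x)) f) ^ 2 :=
      Finset.single_le_sum (f := fun x => (ev (a ^ x * W * a ^ (2 * m - x)) f) ^ 2)
        (fun _ _ => sq_nonneg _) h3
    have h5 : 2 * m - m = m := by omega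
    rw [h5] at h4
    exact h4.trans h2
  have hEn : Dom ((√θ) ^ 2) T E := by rw [Real.sq_sqrt hθ]; exact hE
  set κ := √pW + √θ with hκ
  have hκ0 : 0 ≤ κ := by positivity
  have hGn : Dom (κ ^ 2) T Gp := by
    rw [hG]
    exact hwn.add hEn (Real.sqrt_nonneg _) (Real.sqrt_nonneg _) hTp.pos
  -- the three parts
  set X := XTB S n k (mass s) pW θ χ with hX
  set κ1 := √5 * pW * √(1 / n + 2 / (mass s * √(k + 1))) with hκ1
  set κ2 := √θ * (2 * √pW + √θ) with hκ2
  set κ3 := 7 * (√pW + √θ) ^ 2 * √χ with hκ3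
  have hκ1' : 0 ≤ κ1 := by positivity
  have hκ2' : 0 ≤ κ2 := by positivity
  have hκ3' : 0 ≤ κ3 := by positivity
  have hXe : X = κ1 + √S * κ2 + √S * κ3 := by
    rw [hX, XTB, hκ1, hκ2, hκ3]; ring
  have hX0 : 0 ≤ X := by rw [hXe]; positivity
  set M0 : ℕ → MA G := fun x => T ^ (S + x) * (w * T ^ g * w) * T ^ (2 * S - x) with hM0
  set M2 : ℕ → MA G := fun x =>
    T ^ (S + x) * (w * T ^ g * E + E * T ^ g * w + E * T ^ g * E) * T ^ (2 * S - x) with hM2
  set M3 : ℕ → MA G := fun x =>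
    (P ^ (S + x) - T ^ (S + x)) * (Gp * P ^ g * Gp) * P ^ (2 * S - x) +
    T ^ (S + x) * (Gp * (P ^ g - T ^ g) * Gp) * P ^ (2 * S - x) +
    T ^ (S + x) * (Gp * T ^ g * Gp) * (P ^ (2 * S - x) - T ^ (2 * S - x)) with hM3
  have hdec : ∀ x, P ^ (S + x) * (Gp * P ^ g * Gp) * P ^ (2 * S - x) = M0 x + M2 x + M3 x := by
    intro x
    simp only [hM0, hM2, hM3]
    have e1 : w * T ^ g * w + (w * T ^ g * E + E * T ^ g * w + E * T ^ g * E) = Gp * T ^ g * Gp := by
      rw [hG]
      generalize T ^ g = tg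
      simp only [add_mul, mul_add]
      abel
    have e2 : T ^ (S + x) * (w * T ^ g * w) * T ^ (2 * S - x) +
        T ^ (S + x) * (w * T ^ g * E + E * T ^ g * w + E * T ^ g * E) * T ^ (2 * S - x) =
        T ^ (S + x) * (Gp * T ^ g * Gp) * T ^ (2 * S - x) := by
      rw [← add_mul, ← mul_add, e1]
    rw [e2]
    generalize T ^ (S + x) = t1
    generalize T ^ (2 * S - x) = t2
    generalize P ^ (S + x) = p1
    generalize P ^ (2 * S - x) = p2
    generalize P ^ g = pg
    generalize T ^ g = tg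
    simp only [sub_mul, mul_sub]
    abel
  have hlen : ∀ x, x < S → T ^ (S + x) * (T * T ^ g * T) * T ^ (2 * S - x) = T ^ (3 * S + g + 2) := by
    intro x hx
    rw [← pow_succ', ← pow_succ, ← pow_add, ← pow_add]
    congr 1
    omega
  have hgS : g ≤ 3 * S := by omega
  -- error terms from `E`
  have hb2 : ∀ x ∈ range S, Dom (κ2 ^ 2) (T ^ (3 * S + g + 2)) (M2 x) := by
    intro x hx
    have hx' := mem_range.mp hx
    have t1 := nmul (nmul hwn (nself (hTp.pow g)) hTp.pos) hEn (hTp.pos.mul (hTk g))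
    have t2 := nmul (nmul hEn (nself (hTp.pow g)) hTp.pos) hwn (hTp.pos.mul (hTk g))
    have t3 := nmul (nmul hEn (nself (hTp.pow g)) hTp.pos) hEn (hTp.pos.mul (hTk g))
    have hpos := (hTp.pos.mul (hTk g)).mul hTp.pos
    have t4 := (t1.add t2 (by positivity) (by positivity) hpos).add t3 (by positivity)
      (by positivity) hpos
    have t5 := nmul (nmul (nself (hTp.pow (S + x))) t4 (hTk _)) (nself (hTp.pow (2 * S - x)))
      ((hTk _).mul hpos)
    rw [hlen x hx'] at t5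
    refine nmono t5 (by positivity) (le_of_eq ?_) (hTk _)
    rw [hκ2]; ring
  have hb3 : ∀ x ∈ range S, Dom (κ3 ^ 2) (T ^ (3 * S + g + 2)) (M3 x) := by
    intro x hx
    have hx' := mem_range.mp hx
    have hpos := (hTp.pos.mul (hTk g)).mul hTp.pos
    have t1 := nmul (nmul (hPn (S + x) (by omega))
      (nmul (nmul hGn (hPn2 g hgS) hTp.pos) hGn (hTp.pos.mul (hTk g))) (hTk _))
      (hPn2 (2 * S - x) (by omega)) ((hTk _).mul hpos)
    have t2 := nmul (nmul (nself (hTp.pow (S + x)))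
      (nmul (nmul hGn (hPn g hgS) hTp.pos) hGn (hTp.pos.mul (hTk g))) (hTk _))
      (hPn2 (2 * S - x) (by omega)) ((hTk _).mul hpos)
    have t3 := nmul (nmul (nself (hTp.pow (S + x)))
      (nmul (nmul hGn (nself (hTp.pow g)) hTp.pos) hGn (hTp.pos.mul (hTk g))) (hTk _))
      (hPn (2 * S - x) (by omega)) ((hTk _).mul hpos)
    rw [hlen x hx'] at t1 t2 t3
    have t4 := (t1.add t2 (by positivity) (by positivity) (hTk _)).add t3 (by positivity)
      (by positivity) (hTk _)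
    refine nmono t4 (by positivity) (le_of_eq ?_) (hTk _)
    rw [hκ3, hκ]; ring
  -- main term
  set D := 2 * m + n * g with hD
  have hSBZ := hTe G a W N0 Pd D pW ha hW0 hpW (by omega) (by omega) (by omega) hSB
  have h5 : 0 ≤ 5 * pW ^ 2 := by positivity
  have hDn : 2 * D ≤ n * S := by
    have h1 : D ≤ n * (g + 1) := by
      rw [hD, mul_add, mul_one]; omega
    have h2 : n * (2 * (g + 1)) ≤ n * S := Nat.mul_le_mul_left n hg
    nlinarith
  have hbes0 := hLo G a s (W * a ^ D * W) R k (2 * N0 + D) D n (n * S + m) S (3 * (n * S) + 2 * m)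
    (5 * pW ^ 2) ha hs h5 hSBZ (by omega) hS (by omega) (by
      have h1 : n * (S - 1) ≤ n * S := Nat.mul_le_mul_left n (by omega)
      omega)
  have hlen0 : 3 * (n * S) + 2 * m + (2 * N0 + D) = n * (3 * S + g + 2) := by
    rw [hD, hn]; ring
  rw [hlen0, pow_mul, ← hT] at hbes0
  have hM0e : ∀ x ∈ range S, a ^ (n * S + m + n * x) * (W * a ^ D * W) *
      a ^ (3 * (n * S) + 2 * m - (n * S + m + n * x)) = M0 x := by
    intro x hx
    have hx' := mem_range.mp hx
    simp only [hM0, hw, hT]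
    have e1 : n * S + m + n * x = n * (S + x) + m := by ring
    have e2 : 3 * (n * S) + 2 * m - (n * S + m + n * x) = m + n * (2 * S - x) := by
      have h1 : n * x ≤ n * S := Nat.mul_le_mul_left n hx'.le
      rw [Nat.mul_sub]
      have : n * (2 * S) = 2 * (n * S) := by ring
      omega
    have e3 : a ^ D = a ^ m * (a ^ n) ^ g * a ^ m := by
      rw [← pow_mul, ← pow_add, ← pow_add, hD]; congr 1; ring
    rw [e2, e1, e3, pow_add a (n * (S + x)) m, pow_add a m (n * (2 * S - x)), pow_mul, pow_mul]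
    simp only [mul_assoc]
  have hb0 : ∀ c : ℕ → ℝ, Dom ((κ1 * √(∑ x ∈ range S, c x ^ 2)) ^ 2) (T ^ (3 * S + g + 2))
      (∑ x ∈ range S, c x • M0 x) := by
    intro c
    have h1 := bes_dom hbes0 c
    have e1 : ∑ x ∈ range S, c x • (a ^ (n * S + m + n * x) * (W * a ^ D * W) *
        a ^ (3 * (n * S) + 2 * m - (n * S + m + n * x))) = ∑ x ∈ range S, c x • M0 x :=
      Finset.sum_congr rfl fun x hx => by rw [hM0e x hx]
    rw [e1] at h1
    have h2 : 0 ≤ ∑ x ∈ range S, c x ^ 2 := Finset.sum_nonneg fun _ _ => sq_nonneg _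
    have hη : 0 < mass s := hs.mpos
    have h3 : (0:ℝ) ≤ 1 / n + 2 / (mass s * √(k + 1)) := by positivity
    have e2 : (κ1 * √(∑ x ∈ range S, c x ^ 2)) ^ 2 =
        5 * pW ^ 2 * (1 / n + 2 / (mass s * √(k + 1))) * ∑ x ∈ range S, c x ^ 2 := by
      rw [hκ1, mul_pow, mul_pow, mul_pow, Real.sq_sqrt h2, Real.sq_sqrt h3,
        Real.sq_sqrt (by norm_num : (0:ℝ) ≤ 5)]
    rw [e2]
    exact h1
  -- the combination
  set p : ℝ := (√2 * X + √S * u' ^ 2 * e0) ^ 2 with hp
  have hpp : 0 ≤ p := sq_nonneg _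
  have hkey : Bes (range S) p (P ^ (S + 2 * S + (g + 2)))
      (fun x => P ^ (S + x) * (Gp * P ^ g * Gp) * P ^ (2 * S - x)) := by
    refine bes_of_dom hpp (hPpos.pow _) fun c => ?_
    set cc := √(∑ x ∈ range S, c x ^ 2) with hcc
    have hcc0 : 0 ≤ cc := Real.sqrt_nonneg _
    have h2 : 0 ≤ ∑ x ∈ range S, c x ^ 2 := Finset.sum_nonneg fun _ _ => sq_nonneg _
    have hν : ∑ x ∈ range S, c x • (P ^ (S + x) * (Gp * P ^ g * Gp) * P ^ (2 * S - x)) =
        (∑ x ∈ range S, c x • M0 x) + (∑ x ∈ range S, c x • M2 x) +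
          (∑ x ∈ range S, c x • M3 x) := by
      rw [← Finset.sum_add_distrib, ← Finset.sum_add_distrib]
      refine Finset.sum_congr rfl fun x _ => ?_
      rw [hdec x, smul_add, smul_add]
    have d1 := ((hb0 c).add (nsum hκ2' (hTk (3 * S + g + 2)) c hb2) (by positivity) (by positivity)
      (hTk _)).add (nsum hκ3' (hTk (3 * S + g + 2)) c hb3) (by positivity) (by positivity) (hTk _)
    rw [← hν] at d1
    have d2 : Dom ((X * cc) ^ 2) (a ^ (n * (3 * S + g + 2)))
        (∑ x ∈ range S, c x • (P ^ (S + x) * (Gp * P ^ g * Gp) * P ^ (2 * S - x))) := by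
      rw [pow_mul]
      refine nmono d1 (by positivity) (le_of_eq ?_) (hTk _)
      rw [hXe]; ring
    -- pointwise bound
    have b1 : ∀ x ∈ range S, Bd (|c x| * u' ^ 2) (P ^ (3 * S + g + 2))
        (c x • (P ^ (S + x) * (Gp * P ^ g * Gp) * P ^ (2 * S - x))) := by
      intro x hx
      have hx' := mem_range.mp hx
      have h1 := (hu.mul (Bd.self (hPpos.pow g)) hu' hPpos).mul hu (by positivity)
        (hPpos.mul (hPpos.pow g))
      have h2 := ((h1.mulLeft (hPpos.pow (S + x))).mulRight (by positivity)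
        ((hPpos.pow _).mul ((hPpos.mul (hPpos.pow g)).mul hPpos)) (hPpos.pow (2 * S - x))).smul (c x)
      have e1 : P ^ (S + x) * (P * P ^ g * P) * P ^ (2 * S - x) = P ^ (3 * S + g + 2) := by
        rw [← pow_succ', ← pow_succ, ← pow_add, ← pow_add]
        congr 1
        omega
      rw [e1] at h2
      have e2 : |c x| * (u' * 1 * u') = |c x| * u' ^ 2 := by ring
      rwa [e2] at h2
    have b2 := Bd.sum (s := range S) (hPpos.pow (3 * S + g + 2)) b1
    have b3 : Bd (√S * cc * u' ^ 2) (P ^ (3 * S + g + 2))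
        (∑ x ∈ range S, c x • (P ^ (S + x) * (Gp * P ^ g * Gp) * P ^ (2 * S - x))) := by
      refine b2.mono ?_ (hPpos.pow _)
      rw [← Finset.sum_mul]
      exact mul_le_mul_of_nonneg_right (sum_abs_le S c) (sq_nonneg _)
    have r1 := hRef _ (X * cc) (√S * cc * u' ^ 2) (by positivity) (by positivity) d2 b3
    have e3 : S + 2 * S + (g + 2) = 3 * S + g + 2 := by ring
    rw [e3]
    refine r1.congr ?_
    have e4 : √2 * (X * cc) + √S * cc * u' ^ 2 * e0 = (√2 * X + √S * u' ^ 2 * e0) * cc := by ring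
    rw [e4, mul_pow, hcc, Real.sq_sqrt h2]
  have hfin := hBl G P (Gp * P ^ g * Gp) (g + 2) S S (2 * S) 5 p hP hmZ hpp hS (by omega) (by omega)
    hkey
  have e5 : S + 2 * S = 3 * S := by ring
  rw [e5] at hfin
  push_cast at hfin
  exact hfin

end

end Crest.Agent.R300LB
end

-- ▼ part R300/LBDrift
section

/-!
# Row 300, lower bounds, piece E5a: drift of the powers of a cell
-/

set_option autoImplicit false
set_option linter.unusedSectionVars false

namespace Crest.Agent.R300LB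

open Finset

noncomputable section

variable {G : Type*} [Monoid G]

theorem Bes.drift_dom_sum {ι : Type*} {S : Finset ι} {p : ℝ} {π : MA G} {U : ι → MA G}
    (h : Bes S p π U) : Dom (S.card * p) π (∑ i ∈ S, U i) := fun f => by
  rw [ev_sum, mul_assoc]
  exact (sq_sum_le_card_mul_sum_sq).trans
    (mul_le_mul_of_nonneg_left (h f) (Nat.cast_nonneg _))

/-- dyadic decomposition of a sum over positions -/
theorem drift_dyadic {π : MA G} (hπ : Pos π) {x : ℕ → ℝ} (hx : ∀ κ, 0 ≤ x κ) {M : ℕ}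
    {f : ℕ → MA G}
    (hf : ∀ j0 w κ : ℕ, 1 ≤ w → w ≤ κ → κ ≤ j0 + 1 → j0 + w + κ ≤ M + 1 →
      Dom (x κ ^ 2) π (∑ j ∈ range w, f (j0 + j))) :
    ∀ l h : ℕ, h + 1 ≤ 2 ^ l → 2 * h ≤ M + 1 →
      Dom ((∑ i ∈ range l, x (2 ^ i)) ^ 2) π (∑ j ∈ range h, f j) := by
  intro l
  induction l with
  | zero =>
    intro h hh _
    have : h = 0 := by simpa using hh
    subst this
    simpa using Dom.zero π hπ (le_refl (0 : ℝ))
  | succ l ih =>
    intro h hh hM
    rw [sum_range_succ]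
    have hs : 0 ≤ ∑ i ∈ range l, x (2 ^ i) := sum_nonneg fun i _ => hx _
    by_cases hc : h + 1 ≤ 2 ^ l
    · refine (ih h hc hM).mono ?_ hπ
      exact pow_le_pow_left₀ hs (le_add_of_nonneg_right (hx _)) 2
    · have h1 : 1 ≤ 2 ^ l := Nat.one_le_two_pow
      have h2 : 2 ^ (l + 1) = 2 ^ l + 2 ^ l := by rw [pow_succ]; ring
      have e : ∑ j ∈ range h, f j = ∑ j ∈ range (2 ^ l - 1), f j +
          ∑ j ∈ range (h + 1 - 2 ^ l), f (2 ^ l - 1 + j) := by
        rw [← sum_range_add]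
        congr 2
        omega
      rw [e]
      refine Dom.add (ih _ (by omega) (by omega)) (hf _ _ _ (by omega) (by omega) (by omega)
        (by omega)) hs (hx _) hπ

theorem drift_flip {π : MA G} {x : ℕ → ℝ} {M : ℕ} {f : ℕ → MA G}
    (hf : ∀ j0 w κ : ℕ, 1 ≤ w → w ≤ κ → κ ≤ j0 + 1 → j0 + w + κ ≤ M + 1 →
      Dom (x κ ^ 2) π (∑ j ∈ range w, f (j0 + j))) :
    ∀ j0 w κ : ℕ, 1 ≤ w → w ≤ κ → κ ≤ j0 + 1 → j0 + w + κ ≤ M + 1 →
      Dom (x κ ^ 2) π (∑ j ∈ range w, (fun j => f (M - 1 - j)) (j0 + j)) := by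
  intro j0 w κ hw hwk hk hj
  have := hf (M - (j0 + w)) w κ hw hwk (by omega) (by omega)
  rw [← sum_range_reflect] at this
  have e : ∑ j ∈ range w, (fun j => f (M - 1 - j)) (j0 + j) =
      ∑ j ∈ range w, f (M - (j0 + w) + (w - 1 - j)) := by
    refine sum_congr rfl fun j hj' => ?_
    have := mem_range.mp hj'
    show f _ = f _
    congr 1
    omega
  rw [e]
  exact this

theorem drift_two_halves {f : ℕ → MA G} {M p q : ℕ} (e0 : M = p + q) :
    ∑ j ∈ range M, f j = ∑ j ∈ range p, f j + ∑ j ∈ range q, f (M - 1 - j) := by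
  have e1 : ∑ j ∈ range q, f (M - 1 - j) = ∑ j ∈ range q, f (p + j) := by
    rw [← sum_range_reflect]
    refine sum_congr rfl fun j hj' => ?_
    have := mem_range.mp hj'
    congr 1
    omega
  rw [e1, ← sum_range_add, ← e0]

/-- both halves of a sum over positions -/
theorem drift_dyadic_two {π : MA G} (hπ : Pos π) {x : ℕ → ℝ} (hx : ∀ κ, 0 ≤ x κ) {M l p q : ℕ}
    {f : ℕ → MA G} (e0 : M = p + q) (hp1 : p + 1 ≤ 2 ^ l) (hq1 : q + 1 ≤ 2 ^ l)
    (hp2 : 2 * p ≤ M + 1) (hq2 : 2 * q ≤ M + 1)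
    (hf : ∀ j0 w κ : ℕ, 1 ≤ w → w ≤ κ → κ ≤ j0 + 1 → j0 + w + κ ≤ M + 1 →
      Dom (x κ ^ 2) π (∑ j ∈ range w, f (j0 + j))) :
    Dom (((∑ i ∈ range l, x (2 ^ i)) + (∑ i ∈ range l, x (2 ^ i))) ^ 2) π
      (∑ j ∈ range M, f j) := by
  obtain ⟨S, hS⟩ : ∃ S, S = ∑ i ∈ range l, x (2 ^ i) := ⟨_, rfl⟩
  have hs : 0 ≤ S := by rw [hS]; exact sum_nonneg fun i _ => hx _
  have A := drift_dyadic hπ hx hf l p hp1 hp2
  have B := drift_dyadic (f := fun j => f (M - 1 - j)) hπ hx (drift_flip hf) l q hq1 hq2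
  rw [drift_two_halves e0, ← hS]
  rw [← hS] at A B
  exact Dom.add A B hs hs hπ

/-- geometric sum with ratio `√2` -/
theorem drift_geo_one (l : ℕ) (A : ℝ) (hA : 0 ≤ A) :
    ∑ i ∈ range (l + 1), √(2 ^ i) * A ≤ 7 / 2 * (√(2 ^ l) * A) := by
  induction l with
  | zero => simp; nlinarith
  | succ l ih =>
    rw [sum_range_succ]
    have e : √((2 : ℝ) ^ (l + 1)) = √(2 ^ l) * √2 := by
      rw [pow_succ, Real.sqrt_mul (by positivity)]
    have h2 : (1.414 : ℝ) ≤ √2 := Real.le_sqrt_of_sq_le (by norm_num)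
    have h0 : 0 ≤ √((2 : ℝ) ^ l) * A := by positivity
    rw [e]
    nlinarith [mul_nonneg h0 (sub_nonneg.mpr h2)]

/-- geometric sum with ratio `2^(1/4)` -/
theorem drift_geo_two (l : ℕ) (A : ℝ) (hA : 0 ≤ A) :
    ∑ i ∈ range (l + 1), √(√(2 ^ i)) * A ≤ 13 / 2 * (√(√(2 ^ l)) * A) := by
  induction l with
  | zero => simp; nlinarith
  | succ l ih =>
    rw [sum_range_succ]
    have e : √(√((2 : ℝ) ^ (l + 1))) = √(√(2 ^ l)) * √(√2) := by
      rw [pow_succ, Real.sqrt_mul (by positivity), Real.sqrt_mul (by positivity)]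
    have h2 : (1.189 : ℝ) ≤ √(√2) :=
      Real.le_sqrt_of_sq_le (Real.le_sqrt_of_sq_le (by norm_num))
    have h0 : 0 ≤ √(√((2 : ℝ) ^ l)) * A := by positivity
    rw [e]
    nlinarith [mul_nonneg h0 (sub_nonneg.mpr h2)]

end

/-! ### one window -/

section

variable {G : Type} [Monoid G]

/-- norm of a window of `κ` positions -/
noncomputable def xwin (n : ℕ) (V ρ : ℝ) (κ : ℕ) : ℝ :=
  √V * (√(κ / n) + √(2 * ρ * √κ))

theorem drift_xwin_nonneg (n : ℕ) (V ρ : ℝ) (κ : ℕ) : 0 ≤ xwin n V ρ κ := by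
  unfold xwin; positivity

theorem drift_window (hLoc : LocationStatement) {a s Z : MA G} {R m N0 : ℕ} {V ρ : ℝ}
    (ha : Prob a) (hs : Slip a R s) (hm : 1 ≤ m) (hV : 0 ≤ V) (hρ : 0 < ρ)
    (hR : ((R : ℝ) + 1) ≤ ρ ^ 2 * (mass s) ^ 2 * m) (hSB : SB V a Z N0 0)
    (M j0 w κ : ℕ) (hw : 1 ≤ w) (hwk : w ≤ κ) (hk : κ ≤ j0 + 1) (hj : j0 + w + κ ≤ M + 1) :
    Dom (xwin (2 * m + N0) V ρ κ ^ 2) (a ^ ((2 * m + N0) * M))
      (∑ j ∈ range w, (fun j => a ^ ((2 * m + N0) * j + m) * Z *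
        a ^ ((2 * m + N0) * (M - 1 - j) + m)) (j0 + j)) := by
  set n := 2 * m + N0 with hn
  set k := m * κ / (R + 1) with hkd
  have hκ : 1 ≤ κ := hw.trans hwk
  have hk1 : (R + 1) * k ≤ m * κ := Nat.mul_div_le _ _
  have hmκ : m * κ ≤ m * j0 + m := by
    calc m * κ ≤ m * (j0 + 1) := Nat.mul_le_mul_left m hk
      _ = m * j0 + m := by ring
  have hnj : m * j0 ≤ n * j0 := Nat.mul_le_mul_right j0 (by omega)
  have hMw : n * (j0 + w) + n * κ ≤ n * M + n := by
    calc n * (j0 + w) + n * κ = n * (j0 + w + κ) := by ring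
      _ ≤ n * (M + 1) := Nat.mul_le_mul_left n hj
      _ = n * M + n := by ring
  have hnκ : n * κ = m * κ + (m + N0) * κ := by rw [hn]; ring
  have hmN : m + N0 ≤ (m + N0) * κ := Nat.le_mul_of_pos_right _ hκ
  have hw1 : n * (w - 1) + n = n * w := by
    calc n * (w - 1) + n = n * (w - 1 + 1) := by ring
      _ = n * w := by congr 1; omega
  have hjw : n * (j0 + w) = n * j0 + n * w := by ring
  have hM1 : n ≤ n * M := Nat.le_mul_of_pos_right _ (by omega)
  have hB := hLoc G a s Z R k N0 0 n (n * j0 + m) w (n * M - N0) V ha hs hV hSB (by omega) hw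
    (by omega) (by omega)
  have h1 := hB.drift_dom_sum
  rw [card_range] at h1
  have e1 : n * M - N0 + N0 = n * M := by omega
  rw [e1] at h1
  have e2 : ∑ j ∈ range w, (fun j => a ^ (n * j + m) * Z * a ^ (n * (M - 1 - j) + m)) (j0 + j) =
      ∑ j ∈ range w, a ^ (n * j0 + m + n * j) * Z * a ^ (n * M - N0 - (n * j0 + m + n * j)) := by
    refine sum_congr rfl fun j hj' => ?_
    have hjw' := mem_range.mp hj'
    have e3 : n * (j0 + j) + m = n * j0 + m + n * j := by ring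
    have e4 : n * (M - 1 - (j0 + j)) + m = n * M - N0 - (n * j0 + m + n * j) := by
      have e5 : n * M = n * (M - 1 - (j0 + j)) + n * (j0 + j) + n := by
        calc n * M = n * (M - 1 - (j0 + j) + (j0 + j) + 1) := by congr 1; omega
          _ = _ := by ring
      have e6 : n * (j0 + j) = n * j0 + n * j := by ring
      omega
    simp only [e3, e4]
  rw [e2]
  refine h1.mono ?_ (ha.pos.pow _)
  -- numerical part
  have hη : 0 < mass s := hs.mpos
  have hκ0 : (0 : ℝ) < κ := by exact_mod_cast hκ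
  have hn0 : (0 : ℝ) < n := by
    have : 0 < n := by omega
    exact_mod_cast this
  have hR0 : (0 : ℝ) < (R : ℝ) + 1 := by positivity
  have hkk : (m : ℝ) * κ ≤ ((R : ℝ) + 1) * (k + 1) := by
    have : m * κ < (R + 1) * (k + 1) := Nat.lt_mul_div_succ (m * κ) (Nat.succ_pos R)
    exact_mod_cast this.le
  have hsq : κ ≤ (ρ * mass s) ^ 2 * ((k : ℝ) + 1) := by
    have h3 : ((R : ℝ) + 1) * κ ≤ ρ ^ 2 * (mass s) ^ 2 * (m * κ) := by
      calc ((R : ℝ) + 1) * κ ≤ (ρ ^ 2 * (mass s) ^ 2 * m) * κ :=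
            mul_le_mul_of_nonneg_right hR hκ0.le
        _ = _ := by ring
    have h4 : ((R : ℝ) + 1) * κ ≤ ((R : ℝ) + 1) * ((ρ * mass s) ^ 2 * ((k : ℝ) + 1)) := by
      calc ((R : ℝ) + 1) * κ ≤ ρ ^ 2 * (mass s) ^ 2 * (m * κ) := h3
        _ ≤ ρ ^ 2 * (mass s) ^ 2 * (((R : ℝ) + 1) * (k + 1)) :=
            mul_le_mul_of_nonneg_left hkk (by positivity)
        _ = _ := by ring
    exact le_of_mul_le_mul_left h4 hR0
  have hroot : √(κ : ℝ) ≤ ρ * (mass s * √((k : ℝ) + 1)) := by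
    rw [← mul_assoc]
    apply Real.sqrt_le_iff.mpr
    refine ⟨by positivity, ?_⟩
    rw [mul_pow, Real.sq_sqrt (by positivity)]
    exact hsq
  have hκr : 0 < √(κ : ℝ) := Real.sqrt_pos.mpr hκ0
  have hms : 0 < mass s * √((k : ℝ) + 1) := by positivity
  have hq : 2 / (mass s * √((k : ℝ) + 1)) ≤ 2 * ρ / √(κ : ℝ) := by
    rw [div_le_div_iff₀ hms hκr]
    nlinarith
  unfold xwin
  rw [mul_pow, Real.sq_sqrt hV]
  have hA : √((κ : ℝ) / n) ^ 2 = κ / n := Real.sq_sqrt (by positivity)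
  have hBq : √(2 * ρ * √(κ : ℝ)) ^ 2 = 2 * ρ * √(κ : ℝ) := Real.sq_sqrt (by positivity)
  have hAB : 0 ≤ √((κ : ℝ) / n) * √(2 * ρ * √(κ : ℝ)) := by positivity
  have hwκ : (w : ℝ) ≤ κ := by exact_mod_cast hwk
  calc (w : ℝ) * (V * (1 / n + 2 / (mass s * √((k : ℝ) + 1))))
      ≤ κ * (V * (1 / n + 2 * ρ / √(κ : ℝ))) := by
        refine mul_le_mul hwκ (mul_le_mul_of_nonneg_left (by linarith) hV) (by positivity) hκ0.le
    _ = V * (κ / n + 2 * ρ * (κ / √(κ : ℝ))) := by ring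
    _ = V * (κ / n + 2 * ρ * √(κ : ℝ)) := by rw [Real.div_sqrt]
    _ ≤ V * (√((κ : ℝ) / n) + √(2 * ρ * √(κ : ℝ))) ^ 2 := by
        refine mul_le_mul_of_nonneg_left ?_ hV
        nlinarith

/-! ### the sum of the window norms -/

theorem drift_sigmaB_nonneg {N0 m l : ℕ} {VZ ρ : ℝ} (hV : 0 ≤ VZ) (hρ : 0 ≤ ρ) :
    0 ≤ sigmaB N0 m l VZ ρ := by
  unfold sigmaB; positivity

theorem drift_xwin_sum {N0 m l : ℕ} {VZ ρ : ℝ} (hm : 1 ≤ m) (hV : 0 ≤ VZ) (hρ : 0 < ρ) :
    ((∑ i ∈ range (l + 1), xwin (2 * m + N0) (N0 * VZ) ρ (2 ^ i)) +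
      (∑ i ∈ range (l + 1), xwin (2 * m + N0) (N0 * VZ) ρ (2 ^ i))) ^ 2 ≤
      sigmaB N0 m l VZ ρ := by
  have hn0 : (0 : ℝ) < ((2 * m + N0 : ℕ) : ℝ) := by
    have : 0 < 2 * m + N0 := by omega
    exact_mod_cast this
  have e : ∀ i : ℕ, xwin (2 * m + N0) (N0 * VZ) ρ (2 ^ i) =
      √(N0 * VZ) * (√(2 ^ i) * (1 / √((2 * m + N0 : ℕ) : ℝ)) + √(√(2 ^ i)) * √(2 * ρ)) := by
    intro i
    unfold xwin
    push_cast
    rw [Real.sqrt_div (by positivity), Real.sqrt_mul (by positivity) (√((2 : ℝ) ^ i))]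
    ring
  have hS : ∑ i ∈ range (l + 1), xwin (2 * m + N0) (N0 * VZ) ρ (2 ^ i) ≤
      √(N0 * VZ) * (7 / 2 * (√(2 ^ l) * (1 / √((2 * m + N0 : ℕ) : ℝ))) +
        13 / 2 * (√(√(2 ^ l)) * √(2 * ρ))) := by
    rw [sum_congr rfl fun i _ => e i, ← mul_sum, sum_add_distrib]
    exact mul_le_mul_of_nonneg_left (add_le_add (drift_geo_one l _ (by positivity))
      (drift_geo_two l _ (by positivity))) (Real.sqrt_nonneg _)
  have hS0 : 0 ≤ ∑ i ∈ range (l + 1), xwin (2 * m + N0) (N0 * VZ) ρ (2 ^ i) :=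
    sum_nonneg fun i _ => drift_xwin_nonneg _ _ _ _
  set S := ∑ i ∈ range (l + 1), xwin (2 * m + N0) (N0 * VZ) ρ (2 ^ i)
  set x : ℝ := √(2 ^ l) * (1 / √((2 * m + N0 : ℕ) : ℝ)) with hx
  set y : ℝ := √(√(2 ^ l)) * √(2 * ρ) with hy
  have hx2 : x ^ 2 = 2 ^ l / (2 * m + N0) := by
    rw [hx, mul_pow, div_pow, one_pow, Real.sq_sqrt (by positivity), Real.sq_sqrt hn0.le]
    push_cast
    ring
  have hy2 : y ^ 2 = 2 * (ρ * √(2 ^ l)) := by
    rw [hy, mul_pow, Real.sq_sqrt (by positivity), Real.sq_sqrt (by positivity)]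
    ring
  have hx0 : 0 ≤ x := by positivity
  have hy0 : 0 ≤ y := by positivity
  have hV2 : √(N0 * VZ) ^ 2 = N0 * VZ := Real.sq_sqrt (by positivity)
  have h1 : (S + S) ^ 2 ≤ (2 * (√(N0 * VZ) * (7 / 2 * x + 13 / 2 * y))) ^ 2 :=
    pow_le_pow_left₀ (by linarith) (by linarith) 2
  refine h1.trans ?_
  have h2 : (2 * (√(N0 * VZ) * (7 / 2 * x + 13 / 2 * y))) ^ 2 =
      N0 * VZ * (4 * (7 / 2 * x + 13 / 2 * y) ^ 2) := by
    rw [mul_pow, mul_pow, hV2]; ring
  rw [h2]
  unfold sigmaB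
  have h3 : 4 * (7 / 2 * x + 13 / 2 * y) ^ 2 ≤ 1000 * (x ^ 2 + y ^ 2 / 2) := by
    nlinarith [sq_nonneg (7 * x - 13 * y), sq_nonneg x, sq_nonneg y]
  have h4 : 0 ≤ (N0 : ℝ) * VZ := by positivity
  calc (N0 : ℝ) * VZ * (4 * (7 / 2 * x + 13 / 2 * y) ^ 2)
      ≤ N0 * VZ * (1000 * (x ^ 2 + y ^ 2 / 2)) := mul_le_mul_of_nonneg_left h3 h4
    _ = _ := by rw [hx2, hy2]; ring

/-! ### the doubling argument -/

/-- first order part of `P ^ M - T ^ M` -/
noncomputable def dF1 (P T : MA G) (M : ℕ) : MA G := ∑ j ∈ range M, T ^ j * (P - T) * T ^ (M - 1 - j)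

theorem dF1_add (P T : MA G) (M1 M2 : ℕ) :
    dF1 P T (M1 + M2) = dF1 P T M1 * T ^ M2 + T ^ M1 * dF1 P T M2 := by
  unfold dF1
  rw [sum_range_add, sum_mul, mul_sum]
  congr 1
  · refine sum_congr rfl fun j hj => ?_
    have := mem_range.mp hj
    have e : M1 + M2 - 1 - j = (M1 - 1 - j) + M2 := by omega
    rw [e, pow_add]
    simp only [mul_assoc]
  · refine sum_congr rfl fun j hj => ?_
    have := mem_range.mp hj
    have e : M1 + M2 - 1 - (M1 + j) = M2 - 1 - j := by omega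
    rw [e, pow_add]
    simp only [mul_assoc]

theorem mass_dF1 {P T : MA G} (hP : Prob P) (hT : Prob T) (M : ℕ) : mass (dF1 P T M) = 0 := by
  unfold dF1 mass
  rw [ev_sum]
  refine sum_eq_zero fun j _ => ?_
  have : mass (T ^ j * (P - T) * T ^ (M - 1 - j)) = 0 := by
    rw [mass_mul, mass_mul, mass_sub, hP.one, hT.one]; ring
  exact this

/-- remainder -/
noncomputable def dH2 (P T : MA G) (M : ℕ) : MA G := P ^ M - T ^ M - dF1 P T M

theorem dH2_add (P T : MA G) (M1 M2 : ℕ) :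
    dH2 P T (M1 + M2) = (dH2 P T M1 * T ^ M2 + T ^ M1 * dH2 P T M2) +
      (P ^ M1 - T ^ M1) * (P ^ M2 - T ^ M2) := by
  unfold dH2
  rw [dF1_add, pow_add, pow_add]
  noncomm_ring

theorem mass_dH2 {P T : MA G} (hP : Prob P) (hT : Prob T) (M : ℕ) : mass (dH2 P T M) = 0 := by
  unfold dH2
  rw [mass_sub, mass_sub, mass_dF1 hP hT, (hP.pow M).one, (hT.pow M).one]; ring

theorem drift_sigmaB_mono {N0 m l : ℕ} {VZ ρ : ℝ} (hV : 0 ≤ VZ) (hρ : 0 ≤ ρ) :
    √2 * sigmaB N0 m l VZ ρ ≤ sigmaB N0 m (l + 1) VZ ρ := by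
  unfold sigmaB
  have h2 : √2 ≤ 2 := by
    rw [Real.sqrt_le_left (by norm_num)]; norm_num
  have e1 : √((2 : ℝ) ^ (l + 1)) = √(2 ^ l) * √2 := by
    rw [pow_succ, Real.sqrt_mul (by positivity)]
  have h3 : (2 : ℝ) ^ l / (2 * m + N0) * √2 ≤ 2 ^ (l + 1) / (2 * m + N0) := by
    rw [pow_succ, mul_div_right_comm]
    exact mul_le_mul_of_nonneg_left h2 (by positivity)
  rw [e1]
  have h4 : 0 ≤ 1000 * (N0 : ℝ) * VZ := by positivity
  calc √2 * (1000 * N0 * VZ * (2 ^ l / (2 * m + N0) + ρ * √(2 ^ l)))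
      = 1000 * N0 * VZ * (2 ^ l / (2 * m + N0) * √2 + ρ * (√(2 ^ l) * √2)) := by ring
    _ ≤ _ := mul_le_mul_of_nonneg_left (by linarith) h4

/-- the doubling recursion -/
theorem drift_doubling {P T : MA G} (hP : Prob P) (hT : Prob T) {σ : ℕ → ℝ} (hσ0 : ∀ l, 0 ≤ σ l)
    (hσ : ∀ l, √2 * σ l ≤ σ (l + 1))
    (h1 : ∀ l M, M ≤ 2 ^ l → Dom (σ l) (T ^ M) (dF1 P T M)) :
    ∀ l : ℕ, 16 * ((l : ℝ) + 1) ^ 2 * σ l ≤ 1 → ∀ M, M ≤ 2 ^ l →
      Dom ((4 * l * σ l) ^ 2) (T ^ M) (dH2 P T M) := by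
  intro l
  induction l with
  | zero =>
    intro _ M hM
    have hM' : M = 0 ∨ M = 1 := by
      have : M ≤ 1 := by simpa using hM
      omega
    have hz : dH2 P T M = 0 := by
      rcases hM' with rfl | rfl
      · simp [dH2, dF1]
      · simp [dH2, dF1]
    rw [hz]
    exact Dom.zero _ (hT.pos.pow _) (sq_nonneg _)
  | succ l ih =>
    intro hl M hM
    have hσσ : σ l ≤ σ (l + 1) := by
      have h2 : (1 : ℝ) ≤ √2 := by
        rw [Real.one_le_sqrt]; norm_num
      nlinarith [hσ l, hσ0 l]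
    have hl' : 16 * ((l : ℝ) + 1) ^ 2 * σ l ≤ 1 := by
      refine le_trans ?_ hl
      push_cast
      have h3 : ((l : ℝ) + 1) ^ 2 ≤ ((l : ℝ) + 1 + 1) ^ 2 := by
        have : (0 : ℝ) ≤ l := Nat.cast_nonneg l
        nlinarith
      calc 16 * ((l : ℝ) + 1) ^ 2 * σ l ≤ 16 * ((l : ℝ) + 1 + 1) ^ 2 * σ l :=
            mul_le_mul_of_nonneg_right (by linarith) (hσ0 l)
        _ ≤ _ := mul_le_mul_of_nonneg_left hσσ (by positivity)
    have hp : 2 ^ (l + 1) = 2 ^ l + 2 ^ l := by rw [pow_succ]; ring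
    obtain ⟨M1, M2, rfl, hM1, hM2⟩ : ∃ M1 M2, M = M1 + M2 ∧ M1 ≤ 2 ^ l ∧ M2 ≤ 2 ^ l :=
      ⟨M / 2, M - M / 2, by omega, by omega, by omega⟩
    obtain ⟨h, hh⟩ : ∃ h : ℝ, h = 4 * l * σ l := ⟨_, rfl⟩
    have hh0 : 0 ≤ h := by
      rw [hh]; exact mul_nonneg (by positivity) (hσ0 l)
    have H1 := ih hl' M1 hM1
    have dH2' := ih hl' M2 hM2
    rw [← hh] at H1 dH2'
    obtain ⟨t, ht0, ht⟩ : ∃ t : ℝ, 0 ≤ t ∧ t ^ 2 = σ l := ⟨√(σ l), Real.sqrt_nonneg _, Real.sq_sqrt (hσ0 l)⟩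
    have hF : ∀ N, N ≤ 2 ^ l → Dom (h ^ 2) (T ^ N) (dH2 P T N) →
        Dom ((t + h) ^ 2) (T ^ N) (P ^ N - T ^ N) := by
      intro N hN hHN
      have e : P ^ N - T ^ N = dF1 P T N + dH2 P T N := by unfold dH2; abel
      rw [e]
      have := h1 l N hN
      rw [← ht] at this
      exact Dom.add this hHN ht0 hh0 (hT.pos.pow _)
    have A := orth_step (hT.pow M1) (hT.pos.pow M2) (mass_dH2 hP hT M1) H1 (sq_nonneg _)
      (Dom.self_prob (hT.pow M2)) zero_le_one dH2' (sq_nonneg _)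
    have B := Dom.mul (hF M1 hM1 H1) (hF M2 hM2 dH2') (sq_nonneg _) (hT.pos.pow M1)
    have eA : h ^ 2 * 1 + h ^ 2 = (√2 * h) ^ 2 := by
      rw [mul_pow, Real.sq_sqrt (by norm_num)]; ring
    have eB : (t + h) ^ 2 * (t + h) ^ 2 = ((t + h) ^ 2) ^ 2 := by ring
    rw [eA] at A
    rw [eB] at B
    rw [dH2_add, pow_add]
    refine (Dom.add A B (by positivity) (by positivity) ((hT.pos.pow _).mul (hT.pos.pow _))).mono
      ?_ ((hT.pos.pow _).mul (hT.pos.pow _))
    refine pow_le_pow_left₀ (by positivity) ?_ 2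
    -- √2 h + (t+h)² ≤ 4 (l+1) σ_{l+1}
    have ht4 : 4 * ((l : ℝ) + 1) * t ≤ 1 := by
      have h5 : (4 * ((l : ℝ) + 1) * t) ^ 2 ≤ 1 ^ 2 := by
        calc (4 * ((l : ℝ) + 1) * t) ^ 2 = 16 * ((l : ℝ) + 1) ^ 2 * σ l := by rw [← ht]; ring
          _ ≤ 1 ^ 2 := by rw [one_pow]; exact hl'
      exact le_of_sq_le_sq h5 (by norm_num) |> fun h => h
    have hl0 : (0 : ℝ) ≤ l := Nat.cast_nonneg l
    have hht : h ≤ t := by
      have h6 : 4 * (l : ℝ) * t ≤ 1 := by nlinarith
      calc h = (4 * l * t) * t := by rw [hh, ← ht]; ring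
        _ ≤ 1 * t := mul_le_mul_of_nonneg_right h6 ht0
        _ = t := one_mul t
    have h7 : (t + h) ^ 2 ≤ 4 * σ l := by
      rw [← ht]; nlinarith
    have h8 : √2 * h ≤ 4 * l * σ (l + 1) := by
      rw [hh]
      calc √2 * (4 * l * σ l) = 4 * l * (√2 * σ l) := by ring
        _ ≤ _ := mul_le_mul_of_nonneg_left (hσ l) (by positivity)
    push_cast
    nlinarith

theorem drift (hLoc : LocationStatement) (hDSB : DomSBStatement) : DriftStatement := by
  intro G _ a c s R m N0 l VZ ρ ha hc hs hN0 hm hV hZ hρ hR hσ M hM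
  have hρ' : 0 < ρ := by
    rcases eq_or_lt_of_le hρ with h | h
    · exfalso
      rw [← h] at hR
      have : (0 : ℝ) < (R : ℝ) + 1 := by positivity
      nlinarith
    · exact h
  set n := 2 * m + N0 with hn
  set P : MA G := a ^ m * c * a ^ m with hPd
  set T : MA G := a ^ n with hTd
  have hP : Prob P := ((ha.pow m).mul hc).mul (ha.pow m)
  have hT : Prob T := ha.pow n
  have hZm : mass (c - a ^ N0) = 0 := by rw [mass_sub, hc.one, (ha.pow N0).one]; ring
  have hSB : SB (N0 * VZ) a (c - a ^ N0) N0 0 := hDSB G a _ N0 VZ ha hZm hV hN0 hZ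
  have hVN : 0 ≤ (N0 : ℝ) * VZ := by positivity
  have hPT : P - T = a ^ m * (c - a ^ N0) * a ^ m := by
    rw [hPd, hTd, hn, mul_sub, sub_mul, ← pow_add, ← pow_add]
    congr 2
    ring
  have hF1 : ∀ M, dF1 P T M = ∑ j ∈ range M, a ^ (n * j + m) * (c - a ^ N0) *
      a ^ (n * (M - 1 - j) + m) := by
    intro M
    unfold dF1
    refine sum_congr rfl fun j _ => ?_
    rw [hPT, hTd, ← pow_mul, ← pow_mul, pow_add, add_comm (n * (M - 1 - j)) m, pow_add]
    simp only [mul_assoc]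
  have h1 : ∀ l M, M ≤ 2 ^ l → Dom (sigmaB N0 m l VZ ρ) (T ^ M) (dF1 P T M) := by
    intro l M hM
    have hp : 2 ^ (l + 1) = 2 ^ l + 2 ^ l := by rw [pow_succ]; ring
    have hp1 : 1 ≤ 2 ^ l := Nat.one_le_two_pow
    obtain ⟨p, q, e0, hp1, hq1, hp2, hq2⟩ : ∃ p q, M = p + q ∧ p + 1 ≤ 2 ^ (l + 1) ∧
        q + 1 ≤ 2 ^ (l + 1) ∧ 2 * p ≤ M + 1 ∧ 2 * q ≤ M + 1 :=
      ⟨M - M / 2, M / 2, by omega, by omega, by omega, by omega, by omega⟩
    have := drift_dyadic_two (π := a ^ (n * M)) (ha.pos.pow _) (x := xwin n (N0 * VZ) ρ)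
      (fun κ => drift_xwin_nonneg _ _ _ _) e0 hp1 hq1 hp2 hq2
      (f := fun j => a ^ (n * j + m) * (c - a ^ N0) * a ^ (n * (M - 1 - j) + m))
      (fun j0 w κ hw hwk hk hj => drift_window hLoc ha hs hm hVN hρ' hR hSB M j0 w κ hw hwk hk hj)
    rw [hF1, hTd, ← pow_mul]
    exact this.mono (drift_xwin_sum hm hV hρ') (ha.pos.pow _)
  have h2 := drift_doubling hP hT (σ := fun l => sigmaB N0 m l VZ ρ)
    (fun l => drift_sigmaB_nonneg hV hρ) (fun l => drift_sigmaB_mono hV hρ) h1 l hσ M hM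
  have h3 := h1 l M hM
  have hσ0 : 0 ≤ sigmaB N0 m l VZ ρ := drift_sigmaB_nonneg hV hρ
  obtain ⟨t, ht0, ht⟩ : ∃ t : ℝ, 0 ≤ t ∧ t ^ 2 = sigmaB N0 m l VZ ρ :=
    ⟨√(sigmaB N0 m l VZ ρ), Real.sqrt_nonneg _, Real.sq_sqrt hσ0⟩
  simp only [← ht] at h2 h3 hσ
  have e : P ^ M - T ^ M = dF1 P T M + dH2 P T M := by unfold dH2; abel
  have h4 := Dom.add h3 h2 ht0 (by positivity) (hT.pos.pow _)
  rw [← e] at h4
  rw [pow_mul, ← ht]
  refine h4.mono ?_ (hT.pos.pow _)
  have hl0 : (0 : ℝ) ≤ l := Nat.cast_nonneg l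
  have ht4 : 4 * ((l : ℝ) + 1) * t ≤ 1 := by
    have h5 : (4 * ((l : ℝ) + 1) * t) ^ 2 ≤ 1 ^ 2 := by
      calc (4 * ((l : ℝ) + 1) * t) ^ 2 = 16 * ((l : ℝ) + 1) ^ 2 * t ^ 2 := by ring
        _ ≤ 1 ^ 2 := by rw [one_pow]; exact hσ
    exact le_of_sq_le_sq h5 (by norm_num)
  have hht : 4 * (l : ℝ) * t ^ 2 ≤ t := by
    have h6 : 4 * (l : ℝ) * t ≤ 1 := by nlinarith
    calc 4 * (l : ℝ) * t ^ 2 = (4 * l * t) * t := by ring
      _ ≤ 1 * t := mul_le_mul_of_nonneg_right h6 ht0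
      _ = t := one_mul t
  have h9 : 0 ≤ 4 * (l : ℝ) * t ^ 2 := by positivity
  nlinarith

end

end Crest.Agent.R300LB
end

-- ▼ part R300/LBConv
section

/-!
# Row 300, lower bounds, piece L5: change of reference measure by moment bounds

`Mom k C π ν` : dual form of `∑ ν^(k+1)/π^k ≤ C` (`ν, π ≥ 0`).  It is multiplicative.
`Dom.toPure`: tiny terms with respect to `P` are tiny with respect to `π`, if `P` has a third moment
with respect to `π`.  `Dom.toRef`: main terms with respect to `π` are (almost as) small with respect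
to `P`, if `π` has a high moment with respect to `P`.
-/

set_option autoImplicit false

namespace Crest.Agent.R300LB

open Finset

noncomputable section

variable {G : Type*} [Monoid G]

/-! ### Hölder -/

theorem cv_holder {ι : Type*} (s : Finset ι) (k : ℕ) (A B C : ι → ℝ)
    (hA : ∀ i ∈ s, 0 ≤ A i) (hB : ∀ i ∈ s, 0 ≤ B i) (hC : ∀ i ∈ s, 0 ≤ C i)
    (h : ∀ i ∈ s, A i ^ (k + 2) ≤ B i ^ (k + 1) * C i) :
    (∑ i ∈ s, A i) ^ (k + 2) ≤ (∑ i ∈ s, B i) ^ (k + 1) * ∑ i ∈ s, C i := by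
  have hAB : ∀ i ∈ s, B i = 0 → A i = 0 := by
    intro i hi h0
    have := h i hi
    rw [h0, zero_pow (by omega), zero_mul] at this
    have h2 : A i ^ (k + 2) = 0 := le_antisymm this (pow_nonneg (hA i hi) _)
    exact pow_eq_zero_iff (by omega) |>.mp h2
  rcases eq_or_lt_of_le (Finset.sum_nonneg hB) with h0 | hpos
  · have hz : ∀ i ∈ s, A i = 0 := by
      intro i hi
      exact hAB i hi ((Finset.sum_eq_zero_iff_of_nonneg hB).mp h0.symm i hi)
    rw [Finset.sum_eq_zero hz, ← h0, zero_pow (by omega), zero_pow (by omega), zero_mul]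
  · set T := ∑ i ∈ s, B i with hT
    have h1 := Real.pow_arith_mean_le_arith_mean_pow s (fun i => B i / T) (fun i => A i / B i)
      (fun i hi => div_nonneg (hB i hi) hpos.le)
      (by rw [← Finset.sum_div, ← hT, div_self hpos.ne'])
      (fun i hi => div_nonneg (hA i hi) (hB i hi)) (k + 2)
    have e1 : ∑ i ∈ s, B i / T * (A i / B i) = (∑ i ∈ s, A i) / T := by
      rw [Finset.sum_div]
      refine Finset.sum_congr rfl (fun i hi => ?_)
      by_cases hb : B i = 0
      · rw [hb, hAB i hi hb]; simp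
      · field_simp
    have e2 : ∑ i ∈ s, B i / T * (A i / B i) ^ (k + 2) ≤ (∑ i ∈ s, C i) / T := by
      rw [Finset.sum_div]
      refine Finset.sum_le_sum (fun i hi => ?_)
      by_cases hb : B i = 0
      · rw [hb, hAB i hi hb]
        simp only [zero_div, zero_mul]
        exact div_nonneg (hC i hi) hpos.le
      · have hb' : 0 < B i := lt_of_le_of_ne (hB i hi) (Ne.symm hb)
        rw [div_pow, div_mul_div_comm, mul_comm (B i), div_le_div_iff₀ (by positivity) hpos]
        have := h i hi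
        have h3 : A i ^ (k + 2) * B i * T ≤ (B i ^ (k + 1) * C i) * B i * T := by
          gcongr
        calc A i ^ (k + 2) * B i * T ≤ (B i ^ (k + 1) * C i) * B i * T := h3
          _ = C i * (T * B i ^ (k + 2)) := by ring
    rw [e1, div_pow] at h1
    have h2 := le_trans h1 e2
    rw [div_le_div_iff₀ (by positivity) hpos] at h2
    have h3 : (∑ i ∈ s, A i) ^ (k + 2) * T ≤ (T ^ (k + 1) * ∑ i ∈ s, C i) * T := by
      calc (∑ i ∈ s, A i) ^ (k + 2) * T ≤ (∑ i ∈ s, C i) * T ^ (k + 2) := h2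
        _ = (T ^ (k + 1) * ∑ i ∈ s, C i) * T := by ring
    exact le_of_mul_le_mul_right h3 hpos

/-! ### coefficient descriptions -/

theorem cv_ev_eq {ν : MA G} {S : Finset G} (hS : ν.coeff.support ⊆ S) (f : G → ℝ) :
    ev ν f = ∑ w ∈ S, ν.coeff w * f w := by
  unfold ev
  exact Finsupp.sum_of_support_subset _ hS _ (by simp)

theorem cv_coeff_nonneg {ν : MA G} (h : Pos ν) (w : G) : 0 ≤ ν.coeff w := by
  classical
  have := h (fun v => if v = w then 1 else 0) (fun v => by split_ifs <;> norm_num)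
  rw [cv_ev_eq (S := insert w ν.coeff.support) (Finset.subset_insert _ _)] at this
  simpa using this

/-- primal form of `Dom` -/
theorem cv_dom_primal {V : ℝ} {π ν : MA G} (hπ : Pos π) (hV : 0 ≤ V) (h : Dom V π ν) :
    (∀ w, π.coeff w = 0 → ν.coeff w = 0) ∧
      ∑ w ∈ ν.coeff.support, ν.coeff w ^ 2 / π.coeff w ≤ V := by
  classical
  have h0 : ∀ w, π.coeff w = 0 → ν.coeff w = 0 := by
    intro w hw
    have := h (fun v => if v = w then 1 else 0)
    rw [cv_ev_eq (S := insert w ν.coeff.support) (Finset.subset_insert _ _),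
      cv_ev_eq (S := insert w π.coeff.support) (Finset.subset_insert _ _)] at this
    simp [hw] at this
    exact this
  refine ⟨h0, ?_⟩
  set T := ∑ w ∈ ν.coeff.support, ν.coeff w ^ 2 / π.coeff w with hT
  have h1 := h (fun w => ν.coeff w / π.coeff w)
  have e1 : ev ν (fun w => ν.coeff w / π.coeff w) = T := by
    rw [cv_ev_eq (Finset.Subset.refl _), hT]
    exact Finset.sum_congr rfl (fun w _ => by ring)
  have e2 : ev π (fun w => (ν.coeff w / π.coeff w) ^ 2) = T := by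
    have hsub : ν.coeff.support ⊆ π.coeff.support := by
      intro w hw
      rw [Finsupp.mem_support_iff] at hw ⊢
      exact fun hh => hw (h0 w hh)
    rw [cv_ev_eq (Finset.Subset.refl _), hT]
    symm
    rw [Finset.sum_subset hsub]
    · refine Finset.sum_congr rfl (fun w hw => ?_)
      rw [Finsupp.mem_support_iff] at hw
      field_simp
    · intro w _ hw
      rw [Finsupp.notMem_support_iff] at hw
      rw [hw]; simp
  rw [e1, e2] at h1
  have hT0 : 0 ≤ T := Finset.sum_nonneg (fun w _ => div_nonneg (sq_nonneg _) (cv_coeff_nonneg hπ w))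
  rcases eq_or_lt_of_le hT0 with h2 | h2
  · rw [← h2]; exact hV
  · nlinarith


theorem cv_bd_coeff {u : ℝ} {a Δ : MA G} (h : Bd u a Δ) (w : G) :
    |Δ.coeff w| ≤ u * a.coeff w := by
  classical
  have := h (fun v => if v = w then 1 else 0) (fun v => by split_ifs <;> norm_num)
  rw [cv_ev_eq (S := insert w Δ.coeff.support) (Finset.subset_insert _ _),
    cv_ev_eq (S := insert w a.coeff.support) (Finset.subset_insert _ _)] at this
  simpa using this

/-! ### moments -/

/-- dual form of `∑ ν^(k+1)/π^k ≤ C` -/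
def Mom (k : ℕ) (C : ℝ) (π ν : MA G) : Prop :=
  ∀ h : G → ℝ, (∀ w, 0 ≤ h w) →
    (ev ν (fun w => h w ^ k)) ^ (k + 1) ≤ C * (ev π (fun w => h w ^ (k + 1))) ^ k

theorem Mom.mono {k : ℕ} {C C' : ℝ} {π ν : MA G} (h : Mom k C π ν) (hπ : Pos π) (hC : C ≤ C') :
    Mom k C' π ν := fun f hf =>
  le_trans (h f hf) (mul_le_mul_of_nonneg_right hC
    (pow_nonneg (hπ _ (fun w => pow_nonneg (hf w) _)) _))

/-- `Mom` from the primal form -/
theorem cv_mom_of_primal {k : ℕ} (hk : 1 ≤ k) {C : ℝ} {π ν : MA G} (hπ : Pos π) (hν : Pos ν)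
    (h0 : ∀ w, π.coeff w = 0 → ν.coeff w = 0)
    (h : ∑ w ∈ ν.coeff.support, ν.coeff w ^ (k + 1) / π.coeff w ^ k ≤ C) : Mom k C π ν := by
  intro f hf
  obtain ⟨j, rfl⟩ : ∃ j, k = j + 1 := ⟨k - 1, by omega⟩
  have hsub : ν.coeff.support ⊆ π.coeff.support := by
    intro w hw
    rw [Finsupp.mem_support_iff] at hw ⊢
    exact fun hh => hw (h0 w hh)
  rw [cv_ev_eq (Finset.Subset.refl _)]
  have hn := cv_coeff_nonneg hν
  have hp := cv_coeff_nonneg hπ
  have h1 := cv_holder ν.coeff.support j (fun w => ν.coeff w * f w ^ (j + 1))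
    (fun w => π.coeff w * f w ^ (j + 2)) (fun w => ν.coeff w ^ (j + 2) / π.coeff w ^ (j + 1))
    (fun w _ => mul_nonneg (hn w) (pow_nonneg (hf w) _))
    (fun w _ => mul_nonneg (hp w) (pow_nonneg (hf w) _))
    (fun w _ => div_nonneg (pow_nonneg (hn w) _) (pow_nonneg (hp w) _))
    (fun w hw => by
      have := hsub hw
      rw [Finsupp.mem_support_iff] at this
      have h3 : π.coeff w ^ (j + 1) ≠ 0 := pow_ne_zero _ this
      refine le_of_eq ?_
      rw [mul_pow, mul_pow, ← pow_mul, ← pow_mul]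
      field_simp
      ring)
  have h2 : ∑ w ∈ ν.coeff.support, π.coeff w * f w ^ (j + 2) ≤ ev π (fun w => f w ^ (j + 2)) := by
    rw [cv_ev_eq (Finset.Subset.refl _)]
    exact Finset.sum_le_sum_of_subset_of_nonneg hsub
      (fun w _ _ => mul_nonneg (hp w) (pow_nonneg (hf w) _))
  have h3 : 0 ≤ ∑ w ∈ ν.coeff.support, π.coeff w * f w ^ (j + 2) :=
    Finset.sum_nonneg (fun w _ => mul_nonneg (hp w) (pow_nonneg (hf w) _))
  have h4 : 0 ≤ ∑ w ∈ ν.coeff.support, ν.coeff w ^ (j + 2) / π.coeff w ^ (j + 1) :=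
    Finset.sum_nonneg (fun w _ => div_nonneg (pow_nonneg (hn w) _) (pow_nonneg (hp w) _))
  refine le_trans h1 ?_
  rw [mul_comm]
  exact mul_le_mul h (pow_le_pow_left₀ h3 h2 _) (pow_nonneg h3 _) (le_trans h4 h)


theorem Mom.mul {k : ℕ} (hk : 1 ≤ k) {C1 C2 : ℝ} {π1 π2 ν1 ν2 : MA G}
    (hC2 : 0 ≤ C2) (hν1 : Pos ν1) (hν2 : Pos ν2) (hπ2 : Pos π2)
    (h1 : Mom k C1 π1 ν1) (h2 : Mom k C2 π2 ν2) : Mom k (C1 * C2) (π1 * π2) (ν1 * ν2) := by
  intro f hf
  rw [ev_mul, ev_mul]
  set X : G → ℝ := fun u => ev π2 (fun v => f (u * v) ^ (k + 1)) with hX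
  have hX0 : ∀ u, 0 ≤ X u := fun u => hπ2 _ (fun v => pow_nonneg (hf _) _)
  set c : ℝ := C2 ^ ((1 : ℝ) / k) with hc
  have hc0 : 0 ≤ c := Real.rpow_nonneg hC2 _
  have hck : c ^ k = C2 := by
    rw [hc, ← Real.rpow_natCast, ← Real.rpow_mul hC2, one_div_mul_cancel, Real.rpow_one]
    exact_mod_cast (show k ≠ 0 by omega)
  set g : G → ℝ := fun u => (c * X u) ^ ((1 : ℝ) / (k + 1 : ℕ)) with hg
  have hg0 : ∀ u, 0 ≤ g u := fun u => Real.rpow_nonneg (mul_nonneg hc0 (hX0 u)) _
  have hgk : ∀ u, g u ^ (k + 1) = c * X u := by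
    intro u
    rw [hg]
    show ((c * X u) ^ ((1 : ℝ) / (k + 1 : ℕ))) ^ (k + 1) = _
    rw [← Real.rpow_natCast, ← Real.rpow_mul (mul_nonneg hc0 (hX0 u)), one_div_mul_cancel,
      Real.rpow_one]
    exact_mod_cast (show k + 1 ≠ 0 by omega)
  have hle : ∀ u, ev ν2 (fun v => f (u * v) ^ k) ≤ g u ^ k := by
    intro u
    have h3 := h2 (fun v => f (u * v)) (fun v => hf _)
    have h4 : (g u ^ k) ^ (k + 1) = C2 * (X u) ^ k := by
      rw [← pow_mul, mul_comm k (k + 1), pow_mul, hgk, mul_pow, hck]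
    rw [← h4] at h3
    exact le_of_pow_le_pow_left₀ (by omega) (pow_nonneg (hg0 u) _) h3
  have h5 : ev ν1 (fun u => ev ν2 (fun v => f (u * v) ^ k)) ≤ ev ν1 (fun u => g u ^ k) :=
    hν1.mono hle
  have h6 : 0 ≤ ev ν1 (fun u => ev ν2 (fun v => f (u * v) ^ k)) :=
    hν1 _ (fun u => hν2 _ (fun v => pow_nonneg (hf _) _))
  calc (ev ν1 (fun u => ev ν2 (fun v => f (u * v) ^ k))) ^ (k + 1)
      ≤ (ev ν1 (fun u => g u ^ k)) ^ (k + 1) := pow_le_pow_left₀ h6 h5 _
    _ ≤ C1 * (ev π1 (fun u => g u ^ (k + 1))) ^ k := h1 g hg0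
    _ = C1 * (ev π1 (fun u => c * X u)) ^ k := by rw [ev_congr π1 hgk]
    _ = C1 * C2 * (ev π1 X) ^ k := by rw [ev_mul_fun, mul_pow, hck]; ring

theorem Mom.self {k : ℕ} (hk : 1 ≤ k) {a : MA G} (ha : Pos a) : Mom k (mass a) a a := by
  refine cv_mom_of_primal hk ha ha (fun w h => h) ?_
  have : mass a = ∑ w ∈ a.coeff.support, a.coeff w * 1 := cv_ev_eq (Finset.Subset.refl _) _
  rw [this]
  refine Finset.sum_le_sum (fun w hw => le_of_eq ?_)
  rw [Finsupp.mem_support_iff] at hw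
  rw [pow_succ]
  field_simp

theorem Mom.self_prob {k : ℕ} (hk : 1 ≤ k) {a : MA G} (ha : Prob a) : Mom k 1 a a := by
  have := Mom.self hk ha.pos
  rwa [ha.one] at this

/-! ### conversions -/



/-! ### powers and words -/

theorem Mom.pow {k : ℕ} (hk : 1 ≤ k) {C : ℝ} {π ν : MA G} (hC : 0 ≤ C) (hν : Pos ν) (hπ : Pos π)
    (h : Mom k C π ν) (n : ℕ) : Mom k (C ^ n) (π ^ n) (ν ^ n) := by
  induction n with
  | zero =>
    rw [pow_zero, pow_zero, pow_zero]
    exact Mom.self_prob hk Prob.one'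
  | succ n ih =>
    rw [pow_succ, pow_succ, pow_succ]
    exact Mom.mul hk hC (hν.pow n) hν hπ ih h

/-! ### moments of one cell -/


theorem cv_inv_pow_upper {x : ℝ} {n : ℕ} (hn : 1 ≤ n) (h : 2 * n * |x| ≤ 1) :
    ((1 - x) ^ n)⁻¹ ≤ 1 + n * x + 6 * (n * x) ^ 2 := by
  have hn' : (1 : ℝ) ≤ n := by exact_mod_cast hn
  have hx : |x| ≤ 1 / 2 := by
    have := abs_nonneg x
    nlinarith
  have hx1 := (abs_le.mp hx).1
  have hx2 := (abs_le.mp hx).2
  have h1 : 0 < 1 - x := by linarith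
  have h2 : (1 - x)⁻¹ ≤ Real.exp (x + 2 * x ^ 2) := by
    have h3 := Real.add_one_le_exp (x + 2 * x ^ 2)
    have h4 : (1 - x)⁻¹ ≤ x + 2 * x ^ 2 + 1 := by
      rw [inv_le_iff_one_le_mul₀' h1]
      nlinarith [sq_nonneg x]
    linarith
  have h5 : ((1 - x) ^ n)⁻¹ ≤ Real.exp (x + 2 * x ^ 2) ^ n := by
    rw [← inv_pow]
    exact pow_le_pow_left₀ (inv_nonneg.mpr h1.le) h2 n
  rw [← Real.exp_nat_mul] at h5
  set y := (n : ℝ) * (x + 2 * x ^ 2) with hy
  have hy2 : y ^ 2 ≤ 4 * (n * x) ^ 2 := by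
    have e : y = (n * x) * (1 + 2 * x) := by rw [hy]; ring
    rw [e, mul_pow]
    have : (1 + 2 * x) ^ 2 ≤ 4 := by nlinarith
    nlinarith [sq_nonneg ((n : ℝ) * x)]
  have hy1 : |y| ≤ 1 := by
    apply abs_le_of_sq_le_sq _ zero_le_one
    have : ((n : ℝ) * x) ^ 2 ≤ 1 / 4 := by
      have h6 : |(n : ℝ) * x| ≤ 1 / 2 := by
        rw [abs_mul, Nat.abs_cast]; linarith
      have := pow_le_pow_left₀ (abs_nonneg _) h6 2
      rw [sq_abs] at this
      linarith
    linarith
  have h7 := (abs_le.mp (Real.abs_exp_sub_one_sub_id_le hy1)).2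
  have h8 : 2 * n * x ^ 2 ≤ 2 * (n * x) ^ 2 := by nlinarith [sq_nonneg x]
  have : y = n * x + 2 * n * x ^ 2 := by rw [hy]; ring
  linarith


/-- `a` against `b` -/
theorem Mom.cell_inv {k : ℕ} (hk : 1 ≤ k) {u V : ℝ} {a b : MA G} (ha : Prob a) (hb : Prob b)
    (hV : 0 ≤ V) (hu : 2 * (k + 1) * u ≤ 1) (hbd : Bd u a (a - b)) (hd : Dom V a (a - b)) :
    Mom k (1 + 6 * k ^ 2 * V) b a := by
  have hn := cv_coeff_nonneg hb.pos
  have hp := cv_coeff_nonneg ha.pos
  have hk1 : (1 : ℝ) ≤ k := by exact_mod_cast hk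
  obtain ⟨a0, a1⟩ := cv_dom_primal ha.pos hV hd
  have hb0 : ∀ w, a.coeff w = 0 → b.coeff w = 0 := by
    intro w hw
    have := a0 w hw
    rw [MonoidAlgebra.coeff_sub, Finsupp.sub_apply, hw] at this
    linarith
  have hcoef : ∀ w, |a.coeff w - b.coeff w| ≤ u * a.coeff w := by
    intro w
    have := cv_bd_coeff hbd w
    rwa [MonoidAlgebra.coeff_sub, Finsupp.sub_apply] at this
  have hab0 : ∀ w, b.coeff w = 0 → a.coeff w = 0 := by
    intro w hw
    have h1 := hcoef w
    rw [hw, sub_zero, abs_of_nonneg (hp w)] at h1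
    have := hp w
    nlinarith
  refine cv_mom_of_primal hk hb.pos ha.pos hab0 ?_
  have hsub : b.coeff.support ⊆ a.coeff.support := by
    intro w hw
    rw [Finsupp.mem_support_iff] at hw ⊢
    exact fun hh => hw (hb0 w hh)
  have hsub2 : (a - b).coeff.support ⊆ a.coeff.support := by
    intro w hw
    rw [Finsupp.mem_support_iff] at hw ⊢
    exact fun hh => hw (a0 w hh)
  have hone : ∑ w ∈ a.coeff.support, a.coeff w = 1 := by
    have h1 := ha.one
    unfold mass at h1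
    rw [cv_ev_eq (Finset.Subset.refl _)] at h1
    simpa using h1
  have honeb : ∑ w ∈ a.coeff.support, b.coeff w = 1 := by
    have h1 := hb.one
    unfold mass at h1
    rw [cv_ev_eq hsub] at h1
    simpa using h1
  have hV2 : ∑ w ∈ a.coeff.support, (a - b).coeff w ^ 2 / a.coeff w ≤ V := by
    rw [← Finset.sum_subset hsub2]
    · exact a1
    · intro w _ hw
      rw [Finsupp.notMem_support_iff] at hw
      rw [hw]; simp
  calc ∑ w ∈ a.coeff.support, a.coeff w ^ (k + 1) / b.coeff w ^ k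
      ≤ ∑ w ∈ a.coeff.support, (a.coeff w + k * (a.coeff w - b.coeff w) +
          6 * k ^ 2 * ((a - b).coeff w ^ 2 / a.coeff w)) := by
        refine Finset.sum_le_sum (fun w hw => ?_)
        rw [Finsupp.mem_support_iff] at hw
        have hp' : 0 < a.coeff w := lt_of_le_of_ne (hp w) (Ne.symm hw)
        set θ := (a.coeff w - b.coeff w) / a.coeff w with hθ
        have hbθ : b.coeff w = (1 - θ) * a.coeff w := by rw [hθ]; field_simp; ring
        have habs : |θ| ≤ u := by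
          rw [hθ, abs_div, abs_of_pos hp', div_le_iff₀ hp']
          exact hcoef w
        have h1 : 2 * (k : ℝ) * |θ| ≤ 1 := by
          have := abs_nonneg θ
          nlinarith
        have hθ1 : θ < 1 := by
          have h3 := le_abs_self θ
          have := abs_nonneg θ
          nlinarith
        have h2 := cv_inv_pow_upper hk h1
        have h1θ : 0 < 1 - θ := by linarith
        have e1 : a.coeff w ^ (k + 1) / b.coeff w ^ k = a.coeff w * ((1 - θ) ^ k)⁻¹ := by
          rw [hbθ, mul_pow, pow_succ (a.coeff w)]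
          field_simp
        have e2 : (a - b).coeff w ^ 2 / a.coeff w = a.coeff w * θ ^ 2 := by
          rw [MonoidAlgebra.coeff_sub, Finsupp.sub_apply, hθ]
          field_simp
        have e3 : a.coeff w - b.coeff w = a.coeff w * θ := by rw [hθ]; field_simp
        rw [e1, e2, e3]
        calc a.coeff w * ((1 - θ) ^ k)⁻¹ ≤ a.coeff w * (1 + k * θ + 6 * (k * θ) ^ 2) :=
              mul_le_mul_of_nonneg_left h2 hp'.le
          _ = _ := by ring
    _ ≤ 1 + 6 * k ^ 2 * V := by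
        rw [Finset.sum_add_distrib, Finset.sum_add_distrib, ← Finset.mul_sum, ← Finset.mul_sum,
          Finset.sum_sub_distrib, hone, honeb]
        have h1 : 6 * (k : ℝ) ^ 2 * ∑ w ∈ a.coeff.support, (a - b).coeff w ^ 2 / a.coeff w ≤
            6 * (k : ℝ) ^ 2 * V := mul_le_mul_of_nonneg_left hV2 (by positivity)
        linarith


/-- the pure power against a word -/
theorem Mom.wd_inv {k : ℕ} (hk : 1 ≤ k) {u V : ℝ} {a b : MA G} (ha : Prob a) (hb : Prob b)
    (hV : 0 ≤ V) (hu : 2 * (k + 1) * u ≤ 1) (hbd : Bd u a (a - b)) (hd : Dom V a (a - b))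
    (w : List Bool) :
    Mom k ((1 + 6 * k ^ 2 * V) ^ (w.count true)) (Wd a b w) (a ^ w.length) := by
  induction w with
  | nil => simpa [Wd_nil] using Mom.self_prob hk (Prob.one' (G := G))
  | cons t w ih =>
    rw [Wd_cons, List.length_cons, pow_succ' a]
    have hM : (0 : ℝ) ≤ 1 + 6 * k ^ 2 * V := by positivity
    cases t
    · rw [List.count_cons_of_ne (by simp)]
      have := Mom.mul hk (pow_nonneg hM _) ha.pos (ha.pos.pow _) (Wd_prob ha hb w).pos
        (Mom.self_prob hk ha) ih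
      rw [one_mul] at this
      simpa using this
    · rw [List.count_cons_self, pow_succ']
      have := Mom.mul hk (pow_nonneg hM _) ha.pos (ha.pos.pow _) (Wd_prob ha hb w).pos
        (Mom.cell_inv hk ha hb hV hu hbd hd) ih
      simpa using this

end

end Crest.Agent.R300LB
namespace Crest.Agent.R300LB.Dom
end Crest.Agent.R300LB.Dom
end

-- ▼ part R300/LBRefCh2

/-!
# Row 300, lower bounds: change of reference (`RefChStatement`)
-/

set_option autoImplicit false

namespace Crest.Agent.R300LB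

open Finset

noncomputable section

namespace RefChP

variable {G : Type*} [Monoid G]

theorem refCh_of_mom {π P : MA G} {k : ℕ} (hk : 1 ≤ k) {M : ℝ} (hM : 0 ≤ M) (hπ : Pos π)
    (hP : Pos P) (h : Mom k M P π) {e0 : ℝ} (he0 : 0 ≤ e0) (hMe : M / 2 ^ k / 2 ≤ e0 ^ 2) :
    RefCh e0 π P := by
  classical
  intro ν X C hX hC hd hb f
  set B : Set G := {w | 2 * P.coeff w < π.coeff w} with hB
  set ind : G → ℝ := fun w => if w ∈ B then 1 else 0 with hind
  have hind0 : ∀ w, 0 ≤ ind w := fun w => by simp only [hind]; split_ifs <;> norm_num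
  have hn := cv_coeff_nonneg hP
  have hp := cv_coeff_nonneg hπ
  -- `P B ≤ π B / 2`
  have hPB : ev P ind ≤ ev π ind / 2 := by
    set S := P.coeff.support ∪ π.coeff.support with hS
    rw [cv_ev_eq (S := S) Finset.subset_union_left, cv_ev_eq (S := S) Finset.subset_union_right,
      Finset.sum_div]
    refine Finset.sum_le_sum (fun w _ => ?_)
    simp only [hind]
    split_ifs with hw
    · have : 2 * P.coeff w < π.coeff w := hw
      linarith
    · simp
  have hPB0 : 0 ≤ ev P ind := hP _ hind0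
  have hπB0 : 0 ≤ ev π ind := hπ _ hind0
  -- `π B ≤ M / 2 ^ k`
  have hπB : ev π ind ≤ M / 2 ^ k := by
    have h1 := h ind hind0
    have e1 : (fun w => ind w ^ k) = ind := by
      funext w; simp only [hind]; split_ifs
      · simp
      · simp [show k ≠ 0 by omega]
    have e2 : (fun w => ind w ^ (k + 1)) = ind := by
      funext w; simp only [hind]; split_ifs
      · simp
      · simp
    rw [e1, e2] at h1
    rcases eq_or_lt_of_le hπB0 with h0 | h0
    · rw [← h0]; positivity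
    · have h2 : (ev P ind) ^ k ≤ (ev π ind / 2) ^ k := pow_le_pow_left₀ hPB0 hPB k
      have h3 : (ev π ind) ^ (k + 1) ≤ M * (ev π ind / 2) ^ k :=
        h1.trans (mul_le_mul_of_nonneg_left h2 hM)
      rw [div_pow, pow_succ] at h3
      have h4 : 0 < (ev π ind) ^ k := pow_pos h0 k
      rw [le_div_iff₀ (by positivity)]
      have h5 : (ev π ind) ^ k * (ev π ind * 2 ^ k) ≤ (ev π ind) ^ k * M := by
        calc (ev π ind) ^ k * (ev π ind * 2 ^ k) = ((ev π ind) ^ k * ev π ind) * 2 ^ k := by ring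
          _ ≤ (M * ((ev π ind) ^ k / 2 ^ k)) * 2 ^ k :=
            mul_le_mul_of_nonneg_right h3 (by positivity)
          _ = (ev π ind) ^ k * M := by field_simp
      exact le_of_mul_le_mul_left h5 h4
  -- split
  set f1 : G → ℝ := fun w => if w ∈ B then 0 else f w with hf1
  set f2 : G → ℝ := fun w => if w ∈ B then f w else 0 with hf2
  have hsplit : ev ν f = ev ν f1 + ev ν f2 := by
    rw [← ev_add_fun]
    exact ev_congr ν (fun w => by simp only [hf1, hf2]; split_ifs <;> simp)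
  set Q := ev P (fun w => f w ^ 2) with hQ
  have hQ0 : 0 ≤ Q := hP _ (fun w => sq_nonneg _)
  have h1 : (ev ν f1) ^ 2 ≤ X ^ 2 * (2 * Q) := by
    refine (hd f1).trans (mul_le_mul_of_nonneg_left ?_ (sq_nonneg X))
    set S := P.coeff.support ∪ π.coeff.support with hS
    rw [hQ, cv_ev_eq (ν := π) (S := S) Finset.subset_union_right, cv_ev_eq (ν := P) (S := S) Finset.subset_union_left,
      Finset.mul_sum]
    refine Finset.sum_le_sum (fun w _ => ?_)
    simp only [hf1]
    split_ifs with hw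
    · have := mul_nonneg (hn w) (sq_nonneg (f w))
      simp only [ne_eq, OfNat.ofNat_ne_zero, not_false_eq_true, zero_pow, mul_zero]
      linarith
    · have : π.coeff w ≤ 2 * P.coeff w := by
        by_contra hcon
        exact hw (not_le.mp hcon)
      nlinarith [sq_nonneg (f w)]
  have h2 : |ev ν f2| ≤ C * (e0 * Real.sqrt Q) := by
    have h3 : |ev ν f2| ≤ C * ev P (fun w => |f2 w|) := by
      exact Bd.abs hb f2
    have h4 : (ev P (fun w => |f2 w|)) ^ 2 ≤ ev P ind * Q := by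
      have h5 := hP.cauchy ind (fun w => |f w|)
      have e1 : ev P (fun w => ind w * |f w|) = ev P (fun w => |f2 w|) :=
        ev_congr P (fun w => by simp only [hind, hf2]; split_ifs <;> simp)
      have e2 : ev P (fun w => ind w ^ 2) = ev P ind :=
        ev_congr P (fun w => by simp only [hind]; split_ifs <;> simp)
      have e3 : ev P (fun w => |f w| ^ 2) = Q := ev_congr P (fun w => sq_abs _)
      rw [e1, e2, e3] at h5
      exact h5
    have h6 : ev P (fun w => |f2 w|) ≤ e0 * Real.sqrt Q := by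
      apply abs_le_of_sq_le_sq' _ (by positivity) |>.2
      rw [mul_pow, Real.sq_sqrt hQ0]
      refine h4.trans (mul_le_mul_of_nonneg_right ?_ hQ0)
      calc ev P ind ≤ ev π ind / 2 := hPB
        _ ≤ M / 2 ^ k / 2 := by linarith
        _ ≤ e0 ^ 2 := hMe
    exact h3.trans (mul_le_mul_of_nonneg_left h6 hC)
  have h1' : |ev ν f1| ≤ √2 * X * Real.sqrt Q := by
    apply abs_le_of_sq_le_sq _ (by positivity)
    rw [mul_pow, mul_pow, Real.sq_sqrt hQ0, Real.sq_sqrt (by norm_num : (0:ℝ) ≤ 2)]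
    linarith
  have h7 : |ev ν f| ≤ (√2 * X + C * e0) * Real.sqrt Q := by
    rw [hsplit]
    refine (abs_add_le _ _).trans ?_
    nlinarith
  calc (ev ν f) ^ 2 = |ev ν f| ^ 2 := (sq_abs _).symm
    _ ≤ ((√2 * X + C * e0) * Real.sqrt Q) ^ 2 := pow_le_pow_left₀ (abs_nonneg _) h7 2
    _ = (√2 * X + C * e0) ^ 2 * Q := by rw [mul_pow, Real.sq_sqrt hQ0]

end RefChP

open RefChP in
theorem refChStatement2 : RefChStatement := by
  intro G _ a b V u lam w ha hb hd hbd hV hu hlam hul hcount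
  have hlam1 : (1 : ℝ) ≤ lam := by exact_mod_cast hlam
  have hu1 : u ≤ 1 / 4 := by nlinarith
  have hm := Mom.wd_inv hlam ha hb hV (by nlinarith : 2 * ((lam : ℝ) + 1) * u ≤ 1) hbd hd w
  refine refCh_of_mom hlam (by positivity) (ha.pos.pow _) (Wd_prob ha hb w).pos hm
    (Real.exp_pos _).le ?_
  -- numbers
  set N : ℝ := (w.count true : ℝ) with hN
  have hN0 : 0 ≤ N := Nat.cast_nonneg _
  have h1 : (1 + 6 * (lam : ℝ) ^ 2 * V) ^ (w.count true) ≤ Real.exp (3 * lam / 16) := by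
    have h2 : (1 + 6 * (lam : ℝ) ^ 2 * V) ≤ Real.exp (6 * (lam : ℝ) ^ 2 * V) := by
      have := Real.add_one_le_exp (6 * (lam : ℝ) ^ 2 * V)
      linarith
    calc (1 + 6 * (lam : ℝ) ^ 2 * V) ^ (w.count true)
        ≤ Real.exp (6 * (lam : ℝ) ^ 2 * V) ^ (w.count true) :=
          pow_le_pow_left₀ (by positivity) h2 _
      _ = Real.exp ((w.count true : ℝ) * (6 * (lam : ℝ) ^ 2 * V)) := by rw [← Real.exp_nat_mul]
      _ ≤ Real.exp (3 * lam / 16) := by
        apply Real.exp_le_exp.mpr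
        have : N * (6 * (lam : ℝ) ^ 2 * V) = (6 * lam / 32) * (32 * lam * V * N) := by ring
        rw [this]
        have h3 : (0 : ℝ) ≤ 6 * lam / 32 := by positivity
        nlinarith
  have h2 : Real.exp (lam / 2) ≤ (2 : ℝ) ^ lam := by
    have h3 : Real.exp (1 / 2) ≤ 2 := by
      have h4 : Real.exp 1 ≤ 2.7182818286 := Real.exp_one_lt_d9.le
      have h5 : Real.exp (1 / 2) ^ 2 = Real.exp 1 := by
        rw [← Real.exp_nat_mul]; norm_num
      nlinarith [Real.exp_pos (1 / 2)]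
    calc Real.exp (lam / 2) = Real.exp (1 / 2) ^ lam := by
          rw [← Real.exp_nat_mul]; congr 1; ring
      _ ≤ 2 ^ lam := pow_le_pow_left₀ (Real.exp_pos _).le h3 _
  have h3 : Real.exp (-((lam : ℝ) / 8)) ^ 2 = Real.exp (-(lam / 4)) := by
    rw [← Real.exp_nat_mul]; congr 1; push_cast; ring
  rw [h3]
  have h4 : (1 + 6 * (lam : ℝ) ^ 2 * V) ^ (w.count true) / 2 ^ lam ≤ Real.exp (-(lam / 4)) := by
    rw [div_le_iff₀ (by positivity)]
    calc (1 + 6 * (lam : ℝ) ^ 2 * V) ^ (w.count true) ≤ Real.exp (3 * lam / 16) := h1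
      _ ≤ Real.exp (-(lam / 4)) * Real.exp (lam / 2) := by
        rw [← Real.exp_add]
        apply Real.exp_le_exp.mpr
        linarith
      _ ≤ Real.exp (-(lam / 4)) * 2 ^ lam := mul_le_mul_of_nonneg_left h2 (Real.exp_pos _).le
  have h5 : 0 ≤ (1 + 6 * (lam : ℝ) ^ 2 * V) ^ (w.count true) / 2 ^ lam := by positivity
  linarith

end

end Crest.Agent.R300LB
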