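import Mathlib
import Crest.Agent.R300.LBDefs
import Crest.Agent.R300.LBInterface

-- ▼ part R300/LBSlipBin
section

/-!
# Row 300, lower bounds, piece L10 (base slip): binomial coefficient facts

`coin r = (1-r) + r X`.
-/

set_option autoImplicit false

namespace Crest.Agent.R300LB.Sl

open Polynomial Finset

noncomputable section

/-- probability generating polynomial of a coin: `(1-r) + r X` -/
def coin (r : ℝ) : ℝ[X] := C (1 - r) + C r * X

/-- binomial weights -/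
def bw (r : ℝ) (A l : ℕ) : ℝ := (A.choose l : ℝ) * r ^ l * (1 - r) ^ (A - l)

theorem bw_nonneg {r : ℝ} (h0 : 0 ≤ r) (h1 : r ≤ 1) (A l : ℕ) : 0 ≤ bw r A l := by
  unfold bw
  have : 0 ≤ 1 - r := by linarith
  positivity

theorem coeff_coin_pow (r : ℝ) (A l : ℕ) : ((coin r) ^ A).coeff l = bw r A l := by
  unfold coin bw
  rw [add_comm, add_pow, finsetSum_coeff]
  have h : ∀ m ∈ range (A + 1), ((C r * X) ^ m * (C (1 - r)) ^ (A - m) * ((A.choose m : ℕ) : ℝ[X])).coeff l
      = if m = l then (A.choose l : ℝ) * r ^ l * (1 - r) ^ (A - l) else 0 := by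
    intro m _
    have e : (C r * X) ^ m * (C (1 - r)) ^ (A - m) * ((A.choose m : ℕ) : ℝ[X])
        = C (((A.choose m : ℕ) : ℝ) * r ^ m * (1 - r) ^ (A - m)) * X ^ m := by
      rw [mul_pow, ← C_pow, ← C_pow, ← C_eq_natCast, C_mul, C_mul]
      ring
    rw [e, coeff_C_mul_X_pow]
    by_cases h : m = l
    · subst h; simp
    · rw [if_neg h, if_neg (fun h' => h h'.symm)]
  rw [Finset.sum_congr rfl h, Finset.sum_ite_eq' (range (A + 1)) l]
  by_cases hl : l ∈ range (A + 1)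
  · rw [if_pos hl]
  · rw [if_neg hl]
    have : A < l := by simpa using hl
    rw [Nat.choose_eq_zero_of_lt this]; simp

theorem sum_bw (r : ℝ) (A : ℕ) : ∑ l ∈ range (A + 1), bw r A l = 1 := by
  have h := (add_pow r (1 - r) A).symm
  rw [show r + (1 - r) = 1 by ring, one_pow] at h
  rw [← h]
  refine Finset.sum_congr rfl (fun l _ => ?_)
  unfold bw; ring

theorem sum_bw_var (r : ℝ) (A : ℕ) :
    ∑ l ∈ range (A + 1), bw r A l * ((A : ℝ) * r - l) ^ 2 = A * r * (1 - r) := by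
  have h := congrArg (Polynomial.eval r) (bernsteinPolynomial.variance ℝ A)
  rw [eval_finsetSum] at h
  simp only [bernsteinPolynomial, nsmul_eq_mul, eval_mul, eval_pow, eval_sub, eval_natCast, eval_X,
    eval_one] at h
  rw [← h]
  refine Finset.sum_congr rfl (fun l _ => ?_)
  unfold bw; ring

theorem coeff_shift (r : ℝ) (A l : ℕ) :
    ((A : ℝ) + 1) * r * (1 - r) * (((coin r) ^ A * (1 - X)).coeff l) =
      bw r (A + 1) l * (((A + 1 : ℕ) : ℝ) * r - l) := by
  rw [show (coin r) ^ A * (1 - X) = (coin r) ^ A - (coin r) ^ A * X by ring, coeff_sub,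
    coeff_coin_pow]
  cases l with
  | zero =>
    have : ((coin r) ^ A * X).coeff 0 = 0 := by rw [coeff_mul_X_zero]
    rw [this]
    unfold bw
    simp only [Nat.choose_zero_right, Nat.cast_one, pow_zero, Nat.sub_zero, Nat.cast_zero]
    push_cast
    ring
  | succ j =>
    rw [coeff_mul_X, coeff_coin_pow]
    unfold bw
    have e1 : ((A : ℝ) + 1) * (A.choose j) = ((A + 1).choose (j + 1)) * ((j : ℝ) + 1) := by
      have := Nat.add_one_mul_choose_eq A j
      exact_mod_cast this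
    have e2 : (((A + 1).choose (j + 1) : ℕ) : ℝ) = A.choose j + A.choose (j + 1) := by
      rw [Nat.choose_succ_succ]; push_cast; ring
    have e3 : ((A : ℝ) + 1) * (A.choose (j + 1)) = ((A + 1).choose (j + 1)) * ((A : ℝ) - j) := by
      have : ((A : ℝ) + 1) * (A.choose (j + 1)) =
        ((A : ℝ) + 1) * ((A + 1).choose (j + 1)) - ((A : ℝ) + 1) * A.choose j := by rw [e2]; ring
      rw [this, e1]; ring
    have hA : A + 1 - (j + 1) = A - j := by omega
    rw [hA]
    by_cases hj : j + 1 ≤ A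
    · have e4 : (1 - r) ^ (A - j) = (1 - r) * (1 - r) ^ (A - (j + 1)) := by
        rw [← pow_succ']; congr 1; omega
      rw [e4]
      push_cast
      have : ((A : ℝ) + 1) * r * (1 - r) *
          ((A.choose (j + 1) : ℝ) * r ^ (j + 1) * (1 - r) ^ (A - (j + 1)) -
            (A.choose j : ℝ) * r ^ j * ((1 - r) * (1 - r) ^ (A - (j + 1)))) =
          (((A : ℝ) + 1) * (A.choose (j + 1))) * (r ^ (j + 2) * (1 - r) * (1 - r) ^ (A - (j + 1))) -
          (((A : ℝ) + 1) * (A.choose j)) * (r ^ (j + 1) * (1 - r) * ((1 - r) * (1 - r) ^ (A - (j + 1)))) := by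
        ring
      rw [this, e3, e1]
      ring
    · have hj' : A < j + 1 := by omega
      have e5 : (((A.choose (j + 1) : ℕ)) : ℝ) = 0 := by rw [Nat.choose_eq_zero_of_lt hj']; simp
      rw [e5]
      by_cases hj2 : j = A
      · subst hj2
        simp only [Nat.choose_self, Nat.cast_one, Nat.sub_self, pow_zero]
        push_cast
        ring
      · have hj3 : A < j := by omega
        have e6 : (((A.choose j : ℕ)) : ℝ) = 0 := by rw [Nat.choose_eq_zero_of_lt hj3]; simp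
        have e7 : ((((A + 1).choose (j + 1) : ℕ)) : ℝ) = 0 := by
          rw [Nat.choose_eq_zero_of_lt (by omega)]; simp
        rw [e6, e7]; ring

/-- total variation of the binomial law under a shift by one -/
theorem shift_l1 {r : ℝ} (h0 : 0 < r) (h1 : r < 1) (A : ℕ) :
    ∑ l ∈ range (A + 2), |((coin r) ^ A * (1 - X)).coeff l| ≤
      1 / Real.sqrt (((A : ℝ) + 1) * r * (1 - r)) := by
  set v : ℝ := ((A : ℝ) + 1) * r * (1 - r) with hv
  have hvpos : 0 < v := by
    have : 0 < 1 - r := by linarith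
    positivity
  have h2 : ∀ l, |((coin r) ^ A * (1 - X)).coeff l| =
      v⁻¹ * (bw r (A + 1) l * |((A + 1 : ℕ) : ℝ) * r - l|) := by
    intro l
    have := coeff_shift r A l
    have e : ((coin r) ^ A * (1 - X)).coeff l =
      v⁻¹ * (bw r (A + 1) l * (((A + 1 : ℕ) : ℝ) * r - l)) := by
      rw [← this, ← hv, ← mul_assoc, inv_mul_cancel₀ hvpos.ne', one_mul]
    rw [e, abs_mul, abs_mul, abs_of_pos (inv_pos.mpr hvpos),
      abs_of_nonneg (bw_nonneg h0.le h1.le _ _)]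
  rw [Finset.sum_congr rfl (fun l _ => h2 l), ← Finset.mul_sum]
  have hcs : (∑ l ∈ range (A + 2), bw r (A + 1) l * |((A + 1 : ℕ) : ℝ) * r - l|) ≤ Real.sqrt v := by
    apply Real.le_sqrt_of_sq_le
    have key := Finset.sum_mul_sq_le_sq_mul_sq (range (A + 2)) (fun l => Real.sqrt (bw r (A + 1) l))
      (fun l => Real.sqrt (bw r (A + 1) l) * |((A + 1 : ℕ) : ℝ) * r - l|)
    have e1 : ∀ l ∈ range (A + 2), Real.sqrt (bw r (A + 1) l) *
        (Real.sqrt (bw r (A + 1) l) * |((A + 1 : ℕ) : ℝ) * r - l|) =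
        bw r (A + 1) l * |((A + 1 : ℕ) : ℝ) * r - l| := by
      intro l _
      rw [← mul_assoc, Real.mul_self_sqrt (bw_nonneg h0.le h1.le _ _)]
    have e2 : ∀ l ∈ range (A + 2), Real.sqrt (bw r (A + 1) l) ^ 2 = bw r (A + 1) l := by
      intro l _
      rw [Real.sq_sqrt (bw_nonneg h0.le h1.le _ _)]
    have e3 : ∀ l ∈ range (A + 2), (Real.sqrt (bw r (A + 1) l) * |((A + 1 : ℕ) : ℝ) * r - l|) ^ 2 =
        bw r (A + 1) l * (((A + 1 : ℕ) : ℝ) * r - l) ^ 2 := by
      intro l _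
      rw [mul_pow, Real.sq_sqrt (bw_nonneg h0.le h1.le _ _), sq_abs]
    rw [Finset.sum_congr rfl e1, Finset.sum_congr rfl e2, Finset.sum_congr rfl e3,
      sum_bw r (A + 1), sum_bw_var r (A + 1), one_mul] at key
    refine le_trans key (le_of_eq ?_)
    rw [hv]; push_cast; ring
  have hs : 0 < Real.sqrt v := Real.sqrt_pos.mpr hvpos
  calc v⁻¹ * (∑ l ∈ range (A + 2), bw r (A + 1) l * |((A + 1 : ℕ) : ℝ) * r - l|)
      ≤ v⁻¹ * Real.sqrt v := mul_le_mul_of_nonneg_left hcs (inv_pos.mpr hvpos).le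
    _ = 1 / Real.sqrt v := by
        rw [eq_div_iff hs.ne', mul_assoc, Real.mul_self_sqrt hvpos.le, inv_mul_cancel₀ hvpos.ne']

/-- largest binomial weight -/
theorem bw_le {r : ℝ} (h0 : 0 < r) (h1 : r < 1) (A l : ℕ) :
    bw r A l ≤ 1 / Real.sqrt (((A : ℝ) + 1) * r * (1 - r)) := by
  by_cases hl : l < A + 1
  · have htel : ∀ N, ∑ k ∈ range (N + 1), ((coin r) ^ A * (1 - X)).coeff k = bw r A N := by
      intro N
      induction N with
      | zero =>
        rw [Finset.sum_range_one, mul_sub, mul_one, coeff_sub, coeff_mul_X_zero, sub_zero,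
          coeff_coin_pow]
      | succ N ih =>
        rw [Finset.sum_range_succ, ih, mul_sub, mul_one, coeff_sub, coeff_mul_X, coeff_coin_pow,
          coeff_coin_pow]
        ring
    rw [← htel l]
    refine le_trans (Finset.sum_le_sum (fun k _ => le_abs_self _)) ?_
    refine le_trans (Finset.sum_le_sum_of_subset_of_nonneg ?_ (fun _ _ _ => abs_nonneg _))
      (shift_l1 h0 h1 A)
    intro k hk
    simp only [Finset.mem_range] at hk ⊢
    omega
  · have : bw r A l = 0 := by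
      unfold bw
      rw [Nat.choose_eq_zero_of_lt (by omega)]; simp
    rw [this]; positivity

/-! ### products of two coins -/

/-- coefficients of `coin r ^ A * coin s ^ k` are nonneg and bounded by the largest weight of the
first factor -/
theorem NN_coin_pow {r : ℝ} (h0 : 0 ≤ r) (h1 : r ≤ 1) (A l : ℕ) : 0 ≤ ((coin r) ^ A).coeff l := by
  rw [coeff_coin_pow]; exact bw_nonneg h0 h1 A l

theorem coin_eval (r y : ℝ) : (coin r).eval y = (1 - r) + r * y := by
  simp [coin]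

theorem natDegree_coin_pow_lt (r : ℝ) (A : ℕ) : ((coin r) ^ A).natDegree < A + 1 := by
  have h1 : (coin r).natDegree ≤ 1 := by
    unfold coin
    refine le_trans (natDegree_add_le _ _) ?_
    rw [natDegree_C]
    exact max_le (by omega) (natDegree_C_mul_X_pow_le r 1 |>.trans_eq' (by rw [pow_one]))
  have h2 := natDegree_pow_le (p := coin r) (n := A)
  have : A * (coin r).natDegree ≤ A * 1 := Nat.mul_le_mul_left A h1
  omega

theorem NN_mul {P Q : ℝ[X]} (hP : ∀ l, 0 ≤ P.coeff l) (hQ : ∀ l, 0 ≤ Q.coeff l) (l : ℕ) :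
    0 ≤ (P * Q).coeff l := by
  rw [coeff_mul]
  exact Finset.sum_nonneg (fun x _ => mul_nonneg (hP _) (hQ _))

/-- `P * Q` has coefficients at most `sup P * Q(1)` -/
theorem coeff_mul_le {P Q : ℝ[X]} {S : ℝ} (hP : ∀ l, P.coeff l ≤ S) (hS : 0 ≤ S)
    (hQ : ∀ l, 0 ≤ Q.coeff l) (l : ℕ) : (P * Q).coeff l ≤ S * Q.eval 1 := by
  rw [coeff_mul]
  have h1 : ∑ x ∈ antidiagonal l, P.coeff x.1 * Q.coeff x.2 ≤
      ∑ x ∈ antidiagonal l, S * Q.coeff x.2 :=
    Finset.sum_le_sum (fun x _ => mul_le_mul_of_nonneg_right (hP _) (hQ _))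
  refine le_trans h1 ?_
  rw [← Finset.mul_sum]
  refine mul_le_mul_of_nonneg_left ?_ hS
  rw [Finset.Nat.sum_antidiagonal_eq_sum_range_succ_mk]
  have e : ∑ k ∈ range l.succ, Q.coeff (k, l - k).2 = ∑ k ∈ range (l + 1), Q.coeff k := by
    rw [← Finset.sum_range_reflect (fun k => Q.coeff k) (l + 1)]
    refine Finset.sum_congr rfl (fun k hk => ?_)
    simp only [Finset.mem_range] at hk
    show Q.coeff (l - k) = _
    congr 1
  rw [e, eval_eq_sum_range' (n := max (l + 1) (Q.natDegree + 1)) (by omega)]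
  simp only [one_pow, mul_one]
  refine Finset.sum_le_sum_of_subset_of_nonneg ?_ (fun k _ _ => hQ k)
  intro k hk
  simp only [Finset.mem_range] at hk ⊢
  omega

theorem exp_factor {ε θ : ℝ} (h0 : 0 ≤ ε) (_h1 : ε ≤ 1) (hθ : |θ| ≤ 1) :
    (coin (1 - ε)).eval (Real.exp θ) ≤ Real.exp (θ * (1 - ε) + ε * θ ^ 2) := by
  have e1 : (coin (1 - ε)).eval (Real.exp θ) = Real.exp θ * (1 + ε * (Real.exp (-θ) - 1)) := by
    rw [coin_eval, mul_add, mul_one]
    have : Real.exp θ * Real.exp (-θ) = 1 := by rw [← Real.exp_add]; simp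
    linear_combination (-ε) * this
  rw [e1]
  have h2 : Real.exp (-θ) - 1 + θ ≤ θ ^ 2 := by
    have := Real.abs_exp_sub_one_sub_id_le (x := -θ) (by rwa [abs_neg])
    have h3 := (abs_le.mp this).2
    nlinarith
  have h4 : 1 + ε * (Real.exp (-θ) - 1) ≤ Real.exp (ε * (Real.exp (-θ) - 1)) := by
    have := Real.add_one_le_exp (ε * (Real.exp (-θ) - 1))
    linarith
  calc Real.exp θ * (1 + ε * (Real.exp (-θ) - 1))
      ≤ Real.exp θ * Real.exp (ε * (Real.exp (-θ) - 1)) :=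
        mul_le_mul_of_nonneg_left h4 (Real.exp_pos _).le
    _ = Real.exp (θ + ε * (Real.exp (-θ) - 1)) := by rw [Real.exp_add]
    _ ≤ Real.exp (θ * (1 - ε) + ε * θ ^ 2) := by
        apply Real.exp_le_exp.mpr
        nlinarith

/-- exponential moment of a sum of coins -/
theorem exp_bound {ε₁ ε₂ θ : ℝ} (h0 : 0 ≤ ε₁) (h1 : ε₁ ≤ 1) (h0' : 0 ≤ ε₂) (h1' : ε₂ ≤ 1)
    (hθ : |θ| ≤ 1) (A k : ℕ) :
    ((coin (1 - ε₁)) ^ A * (coin (1 - ε₂)) ^ k).eval (Real.exp θ) ≤
      Real.exp (θ * (A * (1 - ε₁) + k * (1 - ε₂)) + θ ^ 2 * (A * ε₁ + k * ε₂)) := by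
  rw [eval_mul, eval_pow, eval_pow]
  have p1 : 0 ≤ (coin (1 - ε₁)).eval (Real.exp θ) := by
    rw [coin_eval]; have := Real.exp_pos θ; have : 0 ≤ 1 - ε₁ := by linarith
    nlinarith
  have p2 : 0 ≤ (coin (1 - ε₂)).eval (Real.exp θ) := by
    rw [coin_eval]; have := Real.exp_pos θ; have : 0 ≤ 1 - ε₂ := by linarith
    nlinarith
  have b1 := pow_le_pow_left₀ p1 (exp_factor h0 h1 hθ) A
  have b2 := pow_le_pow_left₀ p2 (exp_factor h0' h1' hθ) k
  refine le_trans (mul_le_mul b1 b2 (pow_nonneg p2 k) (by positivity)) (le_of_eq ?_)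
  rw [← Real.exp_nat_mul, ← Real.exp_nat_mul, ← Real.exp_add]
  congr 1; ring

theorem partial_eval_le {P : ℝ[X]} (hP : ∀ l, 0 ≤ P.coeff l) {y : ℝ} (hy : 0 ≤ y) (N : ℕ) :
    ∑ l ∈ range N, P.coeff l * y ^ l ≤ P.eval y := by
  rw [eval_eq_sum_range' (n := max N (P.natDegree + 1)) (by omega)]
  refine Finset.sum_le_sum_of_subset_of_nonneg ?_ (fun k _ _ => mul_nonneg (hP k) (pow_nonneg hy k))
  intro k hk
  simp only [Finset.mem_range] at hk ⊢
  omega

/-- inner product of two well separated laws -/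
theorem inner_le {P Q : ℝ[X]} (hP : ∀ l, 0 ≤ P.coeff l) (hQ : ∀ l, 0 ≤ Q.coeff l) {SP SQ : ℝ}
    (hSP : ∀ l, P.coeff l ≤ SP) (hSQ : ∀ l, Q.coeff l ≤ SQ) {θ μ μ' v w : ℝ}
    (h1 : P.eval (Real.exp θ) ≤ Real.exp (θ * μ + v))
    (h2 : Q.eval (Real.exp (-θ)) ≤ Real.exp (-θ * μ' + v))
    (hw : v - θ * (μ' - μ) / 2 ≤ w) (N : ℕ) :
    ∑ l ∈ range N, P.coeff l * Q.coeff l ≤ (SP + SQ) * Real.exp w := by
  set δ := μ' - μ with hδ
  have hSP0 : 0 ≤ SP := le_trans (hP 0) (hSP 0)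
  have hSQ0 : 0 ≤ SQ := le_trans (hQ 0) (hSQ 0)
  have key : ∀ l : ℕ, P.coeff l * Q.coeff l ≤
      SQ * Real.exp (-θ * μ - θ * δ / 2) * (P.coeff l * (Real.exp θ) ^ l) +
      SP * Real.exp (θ * μ' - θ * δ / 2) * (Q.coeff l * (Real.exp (-θ)) ^ l) := by
    intro l
    have e1 : Real.exp (-θ * μ - θ * δ / 2) * (Real.exp θ) ^ l = Real.exp (θ * (l - μ - δ / 2)) := by
      rw [← Real.exp_nat_mul, ← Real.exp_add]; congr 1; ring
    have e2 : Real.exp (θ * μ' - θ * δ / 2) * (Real.exp (-θ)) ^ l = Real.exp (-(θ * (l - μ - δ / 2))) := by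
      rw [← Real.exp_nat_mul, ← Real.exp_add]; congr 1; rw [hδ]; ring
    have e3 : SQ * Real.exp (-θ * μ - θ * δ / 2) * (P.coeff l * (Real.exp θ) ^ l) =
        SQ * P.coeff l * Real.exp (θ * (l - μ - δ / 2)) := by rw [← e1]; ring
    have e4 : SP * Real.exp (θ * μ' - θ * δ / 2) * (Q.coeff l * (Real.exp (-θ)) ^ l) =
        SP * Q.coeff l * Real.exp (-(θ * (l - μ - δ / 2))) := by rw [← e2]; ring
    rw [e3, e4]
    rcases le_total 0 (θ * (l - μ - δ / 2)) with h | h
    · have a1 : 1 ≤ Real.exp (θ * (l - μ - δ / 2)) := Real.one_le_exp h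
      have a2 : P.coeff l * Q.coeff l ≤ SQ * P.coeff l := by
        rw [mul_comm]; exact mul_le_mul_of_nonneg_right (hSQ l) (hP l)
      have a3 : 0 ≤ SP * Q.coeff l * Real.exp (-(θ * (l - μ - δ / 2))) :=
        mul_nonneg (mul_nonneg hSP0 (hQ l)) (Real.exp_pos _).le
      have a4 : SQ * P.coeff l * 1 ≤ SQ * P.coeff l * Real.exp (θ * (l - μ - δ / 2)) :=
        mul_le_mul_of_nonneg_left a1 (mul_nonneg hSQ0 (hP l))
      linarith
    · have a1 : 1 ≤ Real.exp (-(θ * (l - μ - δ / 2))) := Real.one_le_exp (by linarith)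
      have a2 : P.coeff l * Q.coeff l ≤ SP * Q.coeff l :=
        mul_le_mul_of_nonneg_right (hSP l) (hQ l)
      have a3 : 0 ≤ SQ * P.coeff l * Real.exp (θ * (l - μ - δ / 2)) :=
        mul_nonneg (mul_nonneg hSQ0 (hP l)) (Real.exp_pos _).le
      have a4 : SP * Q.coeff l * 1 ≤ SP * Q.coeff l * Real.exp (-(θ * (l - μ - δ / 2))) :=
        mul_le_mul_of_nonneg_left a1 (mul_nonneg hSP0 (hQ l))
      linarith
  refine le_trans (Finset.sum_le_sum (fun l _ => key l)) ?_
  rw [Finset.sum_add_distrib, ← Finset.mul_sum, ← Finset.mul_sum]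
  have b1 := le_trans (partial_eval_le hP (Real.exp_pos θ).le N) h1
  have b2 := le_trans (partial_eval_le hQ (Real.exp_pos (-θ)).le N) h2
  have c1 : SQ * Real.exp (-θ * μ - θ * δ / 2) * ∑ l ∈ range N, P.coeff l * (Real.exp θ) ^ l ≤
      SQ * Real.exp w := by
    refine le_trans (mul_le_mul_of_nonneg_left b1 (mul_nonneg hSQ0 (Real.exp_pos _).le)) ?_
    rw [mul_assoc, ← Real.exp_add]
    refine mul_le_mul_of_nonneg_left (Real.exp_le_exp.mpr ?_) hSQ0
    linarith
  have c2 : SP * Real.exp (θ * μ' - θ * δ / 2) * ∑ l ∈ range N, Q.coeff l * (Real.exp (-θ)) ^ l ≤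
      SP * Real.exp w := by
    refine le_trans (mul_le_mul_of_nonneg_left b2 (mul_nonneg hSP0 (Real.exp_pos _).le)) ?_
    rw [mul_assoc, ← Real.exp_add]
    refine mul_le_mul_of_nonneg_left (Real.exp_le_exp.mpr ?_) hSP0
    linarith
  linarith

/-! ### the two elementary sums -/

theorem sum_inv_sqrt_le (N : ℕ) :
    ∑ j ∈ range N, 1 / Real.sqrt ((j : ℝ) + 1) ≤ 2 * Real.sqrt N := by
  induction N with
  | zero => simp
  | succ N ih =>
    rw [Finset.sum_range_succ]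
    have h1 : 0 < Real.sqrt ((N : ℝ) + 1) := Real.sqrt_pos.mpr (by positivity)
    have h2 : 0 ≤ Real.sqrt (N : ℝ) := Real.sqrt_nonneg _
    have s1 : Real.sqrt ((N : ℝ) + 1) ^ 2 = N + 1 := Real.sq_sqrt (by positivity)
    have s2 : Real.sqrt (N : ℝ) ^ 2 = N := Real.sq_sqrt (by positivity)
    have h3 : 1 / Real.sqrt ((N : ℝ) + 1) ≤ 2 * Real.sqrt ((N : ℝ) + 1) - 2 * Real.sqrt N := by
      rw [div_le_iff₀ h1]
      nlinarith [sq_nonneg (Real.sqrt ((N : ℝ) + 1) - Real.sqrt N)]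
    push_cast
    linarith

theorem beta_sum (k : ℕ) :
    ∑ i ∈ range (k + 1), 1 / (Real.sqrt ((i : ℝ) + 1) * Real.sqrt (((k - i : ℕ) : ℝ) + 1)) ≤ 4 := by
  have h : ∀ i ∈ range (k + 1), 1 / (Real.sqrt ((i : ℝ) + 1) * Real.sqrt (((k - i : ℕ) : ℝ) + 1)) ≤
      1 / Real.sqrt ((k : ℝ) + 2) * (1 / Real.sqrt ((i : ℝ) + 1) + 1 / Real.sqrt (((k - i : ℕ) : ℝ) + 1)) := by
    intro i hi
    have hik : i ≤ k := by simp only [Finset.mem_range] at hi; omega
    have hx : 0 < Real.sqrt ((i : ℝ) + 1) := Real.sqrt_pos.mpr (by positivity)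
    have hy : 0 < Real.sqrt (((k - i : ℕ) : ℝ) + 1) := Real.sqrt_pos.mpr (by positivity)
    have hz : 0 < Real.sqrt ((k : ℝ) + 2) := Real.sqrt_pos.mpr (by positivity)
    have hsum : Real.sqrt ((k : ℝ) + 2) ≤ Real.sqrt ((i : ℝ) + 1) + Real.sqrt (((k - i : ℕ) : ℝ) + 1) := by
      apply Real.sqrt_le_iff.mpr
      refine ⟨by positivity, ?_⟩
      have s1 : Real.sqrt ((i : ℝ) + 1) ^ 2 = i + 1 := Real.sq_sqrt (by positivity)
      have s2 : Real.sqrt (((k - i : ℕ) : ℝ) + 1) ^ 2 = ((k - i : ℕ) : ℝ) + 1 := Real.sq_sqrt (by positivity)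
      have e : ((k - i : ℕ) : ℝ) = k - i := by push_cast [hik]; ring
      nlinarith [mul_pos hx hy]
    rw [div_mul_eq_mul_div, one_mul, le_div_iff₀ hz, div_add_div _ _ hx.ne' hy.ne',
      div_mul_eq_mul_div, div_le_div_iff_of_pos_right (mul_pos hx hy)]
    linarith
  refine le_trans (Finset.sum_le_sum h) ?_
  rw [← Finset.mul_sum, Finset.sum_add_distrib]
  have r : ∑ i ∈ range (k + 1), 1 / Real.sqrt (((k - i : ℕ) : ℝ) + 1) =
      ∑ i ∈ range (k + 1), 1 / Real.sqrt ((i : ℝ) + 1) := by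
    rw [← Finset.sum_range_reflect (fun i : ℕ => 1 / Real.sqrt ((i : ℝ) + 1)) (k + 1)]
    refine Finset.sum_congr rfl (fun i hi => ?_)
    simp only [Finset.mem_range] at hi
    have : k + 1 - 1 - i = k - i := by omega
    rw [this]
  rw [r]
  have h2 := sum_inv_sqrt_le (k + 1)
  have hz : 0 < Real.sqrt ((k : ℝ) + 2) := Real.sqrt_pos.mpr (by positivity)
  have h3 : Real.sqrt (((k + 1 : ℕ) : ℝ)) ≤ Real.sqrt ((k : ℝ) + 2) :=
    Real.sqrt_le_sqrt (by push_cast; linarith)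
  rw [one_div, inv_mul_le_iff₀ hz]
  linarith

/-- `∑_{i'} (2/3)^{|i-i'|} ≤ 6` -/
theorem geo_sum (i N : ℕ) : ∑ j ∈ range N, ((2 : ℝ) / 3) ^ ((i - j) + (j - i)) ≤ 6 := by
  have hgeo : ∀ M : ℕ, ∑ j ∈ range M, ((2 : ℝ) / 3) ^ j ≤ 3 := by
    intro M
    have := geom_sum_eq (show ((2 : ℝ) / 3) ≠ 1 by norm_num) M
    rw [this]
    have : 0 ≤ ((2 : ℝ) / 3) ^ M := by positivity
    rw [div_le_iff_of_neg (by norm_num)]
    linarith
  have h1 : ∀ j ∈ range N, ((2 : ℝ) / 3) ^ ((i - j) + (j - i)) ≤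
      (if j ≤ i then ((2 : ℝ) / 3) ^ (i - j) else 0) + (if i ≤ j then ((2 : ℝ) / 3) ^ (j - i) else 0) := by
    intro j _
    rcases le_total j i with h | h
    · rw [if_pos h, Nat.sub_eq_zero_of_le h, add_zero]
      have : 0 ≤ (if i ≤ j then ((2 : ℝ) / 3) ^ (0 : ℕ) else 0) := by split_ifs <;> positivity
      linarith
    · rw [if_pos h, Nat.sub_eq_zero_of_le h, zero_add]
      have : 0 ≤ (if j ≤ i then ((2 : ℝ) / 3) ^ (0 : ℕ) else 0) := by split_ifs <;> positivity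
      linarith
  refine le_trans (Finset.sum_le_sum h1) ?_
  rw [Finset.sum_add_distrib]
  have h2 : ∑ j ∈ range N, (if j ≤ i then ((2 : ℝ) / 3) ^ (i - j) else 0) ≤ 3 := by
    rw [← Finset.sum_filter]
    refine le_trans (Finset.sum_le_sum_of_subset_of_nonneg (t := range (i + 1)) ?_
      (fun _ _ _ => by positivity)) ?_
    · intro j hj
      simp only [Finset.mem_filter, Finset.mem_range] at hj ⊢
      omega
    · refine le_trans (le_of_eq ?_) (hgeo (i + 1))
      rw [← Finset.sum_range_reflect (fun j : ℕ => ((2 : ℝ) / 3) ^ j) (i + 1)]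
      refine Finset.sum_congr rfl (fun j _ => ?_)
      congr 1
  have h3 : ∑ j ∈ range N, (if i ≤ j then ((2 : ℝ) / 3) ^ (j - i) else 0) ≤ 3 := by
    refine le_trans ?_ (hgeo N)
    rw [← Finset.sum_filter]
    have : ∑ j ∈ (range N).filter (fun j => i ≤ j), ((2 : ℝ) / 3) ^ (j - i) =
        ∑ j ∈ ((range N).filter (fun j => i ≤ j)).image (fun j => j - i), ((2 : ℝ) / 3) ^ j := by
      rw [Finset.sum_image]
      intro a ha b hb hab
      simp only [Finset.coe_filter, Finset.mem_range, Set.mem_ofPred_eq] at ha hb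
      simp only at hab
      omega
    rw [this]
    refine Finset.sum_le_sum_of_subset_of_nonneg ?_ (fun _ _ _ => by positivity)
    intro j hj
    simp only [Finset.mem_image, Finset.mem_filter, Finset.mem_range] at hj ⊢
    obtain ⟨a, ⟨h1, h2⟩, h3⟩ := hj
    omega
  linarith

/-- kernel comparison: `(1/√(i+1) + 1/√(j+1)) e^{-|i-j|} ≤ 2 (2/3)^{|i-j|} / √(i+1)` -/
theorem kernel_le (i j : ℕ) :
    (1 / Real.sqrt ((i : ℝ) + 1) + 1 / Real.sqrt ((j : ℝ) + 1)) *
      Real.exp (-(((i - j) + (j - i) : ℕ) : ℝ)) ≤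
      2 * (1 / Real.sqrt ((i : ℝ) + 1)) * ((2 : ℝ) / 3) ^ ((i - j) + (j - i)) := by
  set δ : ℕ := (i - j) + (j - i) with hδ
  have hi : 0 < Real.sqrt ((i : ℝ) + 1) := Real.sqrt_pos.mpr (by positivity)
  have hj : 0 < Real.sqrt ((j : ℝ) + 1) := Real.sqrt_pos.mpr (by positivity)
  have hd : 0 ≤ (δ : ℝ) := Nat.cast_nonneg _
  -- i + 1 ≤ (j+1)(1+δ)
  have h1 : (i : ℝ) + 1 ≤ ((j : ℝ) + 1) * (1 + δ) := by
    have : i ≤ j + δ := by omega
    have h' : (i : ℝ) ≤ j + δ := by exact_mod_cast this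
    nlinarith [Nat.cast_nonneg (α := ℝ) j]
  have h2 : Real.sqrt ((i : ℝ) + 1) ≤ Real.sqrt ((j : ℝ) + 1) * (1 + δ / 2) := by
    apply Real.sqrt_le_iff.mpr
    refine ⟨by positivity, ?_⟩
    rw [mul_pow, Real.sq_sqrt (by positivity)]
    refine le_trans h1 (mul_le_mul_of_nonneg_left ?_ (by positivity))
    nlinarith
  have h3 : 1 / Real.sqrt ((j : ℝ) + 1) ≤ (1 + δ / 2) * (1 / Real.sqrt ((i : ℝ) + 1)) := by
    rw [mul_one_div, div_le_div_iff₀ hj hi]
    linarith
  have h4 : (2 + (δ : ℝ) / 2) * Real.exp (-(δ : ℝ)) ≤ 2 * ((2 : ℝ) / 3) ^ δ := by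
    have e1 : (2 + (δ : ℝ) / 2) ≤ 2 * Real.exp ((δ : ℝ) / 2) := by
      have := Real.add_one_le_exp ((δ : ℝ) / 2)
      nlinarith
    have e2 : Real.exp ((δ : ℝ) / 2) * Real.exp (-(δ : ℝ)) = Real.exp (-(1 / 2 : ℝ)) ^ δ := by
      rw [← Real.exp_add, ← Real.exp_nat_mul]; congr 1; ring
    have e3 : Real.exp (-(1 / 2 : ℝ)) ≤ 2 / 3 := by
      have h := Real.add_one_le_exp (1 / 2 : ℝ)
      rw [Real.exp_neg]
      rw [inv_le_comm₀ (Real.exp_pos _) (by norm_num)]
      linarith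
    calc (2 + (δ : ℝ) / 2) * Real.exp (-(δ : ℝ))
        ≤ 2 * Real.exp ((δ : ℝ) / 2) * Real.exp (-(δ : ℝ)) :=
          mul_le_mul_of_nonneg_right e1 (Real.exp_pos _).le
      _ = 2 * Real.exp (-(1 / 2 : ℝ)) ^ δ := by rw [mul_assoc, e2]
      _ ≤ 2 * ((2 : ℝ) / 3) ^ δ :=
          mul_le_mul_of_nonneg_left (pow_le_pow_left₀ (Real.exp_pos _).le e3 δ) (by norm_num)
  calc (1 / Real.sqrt ((i : ℝ) + 1) + 1 / Real.sqrt ((j : ℝ) + 1)) * Real.exp (-(δ : ℝ))
      ≤ (1 / Real.sqrt ((i : ℝ) + 1) + (1 + δ / 2) * (1 / Real.sqrt ((i : ℝ) + 1))) *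
          Real.exp (-(δ : ℝ)) :=
        mul_le_mul_of_nonneg_right (by linarith) (Real.exp_pos _).le
    _ = (1 / Real.sqrt ((i : ℝ) + 1)) * ((2 + (δ : ℝ) / 2) * Real.exp (-(δ : ℝ))) := by ring
    _ ≤ (1 / Real.sqrt ((i : ℝ) + 1)) * (2 * ((2 : ℝ) / 3) ^ δ) :=
        mul_le_mul_of_nonneg_left h4 (by positivity)
    _ = 2 * (1 / Real.sqrt ((i : ℝ) + 1)) * ((2 : ℝ) / 3) ^ δ := by ring

theorem conv_bound {B E₀ : ℝ} (hB : 0 ≤ B) (hE : 0 ≤ E₀) (k : ℕ) (I : ℕ → ℕ → ℝ) (φ : ℕ → ℝ)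
    (hφ0 : ∀ j, 0 ≤ φ j) (hφ : ∀ j, φ j ^ 2 = 4 * B / Real.sqrt ((j : ℝ) + 1))
    (hI : ∀ i ≤ k, ∀ j ≤ k, I i j ≤ E₀ * (B / Real.sqrt ((i : ℝ) + 1) + B / Real.sqrt ((j : ℝ) + 1)) *
      Real.exp (-(((i - j) + (j - i) : ℕ) : ℝ))) :
    ∑ i ∈ range (k + 1), ∑ j ∈ range (k + 1), I i j * (φ (k - i) * φ (k - j)) ≤ 192 * E₀ * B ^ 2 := by
  set w : ℕ → ℕ → ℝ := fun i j => E₀ * (B / Real.sqrt ((i : ℝ) + 1) + B / Real.sqrt ((j : ℝ) + 1)) *
      Real.exp (-(((i - j) + (j - i) : ℕ) : ℝ)) with hw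
  have hw0 : ∀ i j, 0 ≤ w i j := by
    intro i j
    simp only [hw]
    positivity
  have hsym : ∀ i j, w i j = w j i := by
    intro i j
    simp only [hw]
    rw [add_comm (B / Real.sqrt ((i : ℝ) + 1)), Nat.add_comm (i - j)]
  have s1 : ∀ i ∈ range (k + 1), ∀ j ∈ range (k + 1), I i j * (φ (k - i) * φ (k - j)) ≤
      w i j * (φ (k - i) ^ 2) / 2 + w i j * (φ (k - j) ^ 2) / 2 := by
    intro i hi j hj
    simp only [Finset.mem_range] at hi hj
    have a1 : I i j ≤ w i j := hI i (by omega) j (by omega)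
    have a2 : 0 ≤ φ (k - i) * φ (k - j) := mul_nonneg (hφ0 _) (hφ0 _)
    have a3 : φ (k - i) * φ (k - j) ≤ φ (k - i) ^ 2 / 2 + φ (k - j) ^ 2 / 2 := by
      nlinarith [sq_nonneg (φ (k - i) - φ (k - j))]
    calc I i j * (φ (k - i) * φ (k - j)) ≤ w i j * (φ (k - i) * φ (k - j)) :=
          mul_le_mul_of_nonneg_right a1 a2
      _ ≤ w i j * (φ (k - i) ^ 2 / 2 + φ (k - j) ^ 2 / 2) := mul_le_mul_of_nonneg_left a3 (hw0 _ _)
      _ = _ := by ring
  refine le_trans (Finset.sum_le_sum (fun i hi => Finset.sum_le_sum (fun j hj => s1 i hi j hj))) ?_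
  have s2 : ∑ i ∈ range (k + 1), ∑ j ∈ range (k + 1),
      (w i j * (φ (k - i) ^ 2) / 2 + w i j * (φ (k - j) ^ 2) / 2) =
      ∑ i ∈ range (k + 1), ∑ j ∈ range (k + 1), w i j * (φ (k - i) ^ 2) := by
    simp_rw [Finset.sum_add_distrib]
    have : ∑ i ∈ range (k + 1), ∑ j ∈ range (k + 1), w i j * (φ (k - j) ^ 2) / 2 =
        ∑ i ∈ range (k + 1), ∑ j ∈ range (k + 1), w i j * (φ (k - i) ^ 2) / 2 := by
      rw [Finset.sum_comm]
      refine Finset.sum_congr rfl (fun i _ => Finset.sum_congr rfl (fun j _ => ?_))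
      rw [hsym]
    rw [this, ← Finset.sum_add_distrib]
    refine Finset.sum_congr rfl (fun i _ => ?_)
    rw [← Finset.sum_add_distrib]
    exact Finset.sum_congr rfl (fun j _ => by ring)
  rw [s2]
  have s3 : ∀ i ∈ range (k + 1), ∑ j ∈ range (k + 1), w i j * (φ (k - i) ^ 2) ≤
      48 * E₀ * B ^ 2 * (1 / (Real.sqrt ((i : ℝ) + 1) * Real.sqrt (((k - i : ℕ) : ℝ) + 1))) := by
    intro i hi
    have b1 : ∀ j ∈ range (k + 1), w i j * (φ (k - i) ^ 2) ≤
        (E₀ * B * (2 * (1 / Real.sqrt ((i : ℝ) + 1))) * (φ (k - i) ^ 2)) *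
          ((2 : ℝ) / 3) ^ ((i - j) + (j - i)) := by
      intro j _
      have := kernel_le i j
      have e : w i j = E₀ * B * ((1 / Real.sqrt ((i : ℝ) + 1) + 1 / Real.sqrt ((j : ℝ) + 1)) *
          Real.exp (-(((i - j) + (j - i) : ℕ) : ℝ))) := by
        simp only [hw]; ring
      rw [e]
      have := mul_le_mul_of_nonneg_left this (mul_nonneg hE hB)
      have := mul_le_mul_of_nonneg_right this (sq_nonneg (φ (k - i)))
      refine le_trans this (le_of_eq (by ring))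
    refine le_trans (Finset.sum_le_sum b1) ?_
    rw [← Finset.mul_sum]
    have hs := geo_sum i (k + 1)
    refine le_trans (mul_le_mul_of_nonneg_left hs (by positivity)) (le_of_eq ?_)
    rw [hφ]
    have hi' : Real.sqrt ((i : ℝ) + 1) ≠ 0 := (Real.sqrt_pos.mpr (by positivity)).ne'
    have hj' : Real.sqrt (((k - i : ℕ) : ℝ) + 1) ≠ 0 := (Real.sqrt_pos.mpr (by positivity)).ne'
    field_simp
    ring
  refine le_trans (Finset.sum_le_sum s3) ?_
  rw [← Finset.mul_sum]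
  have := beta_sum k
  have h0 : 0 ≤ 48 * E₀ * B ^ 2 := by positivity
  nlinarith

end

end Crest.Agent.R300LB.Sl
end

-- ▼ part R300/LBSlipRec
section

/-!
# Row 300, lower bounds, piece L10 (base slip): first-mark recursion

`Π T = ∑_{k<T} ν^k` (unnormalised reference), `f = z - ν` a defect of mass zero.
-/

set_option autoImplicit false

namespace Crest.Agent.R300LB.Sl

open Polynomial Finset

noncomputable section

variable {G : Type*} [Monoid G]

/-- unnormalised reference -/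
def Ref (ν : MA G) (T : ℕ) : MA G := ∑ k ∈ range T, ν ^ k

theorem Ref_pos {ν : MA G} (hν : Prob ν) (T : ℕ) : Pos (Ref ν T) :=
  Pos.sum (fun k _ => hν.pos.pow k)

theorem Ref_mono {ν : MA G} (hν : Prob ν) {T T' : ℕ} (h : T ≤ T') {f : G → ℝ} (hf : ∀ w, 0 ≤ f w) :
    ev (Ref ν T) f ≤ ev (Ref ν T') f := by
  unfold Ref
  rw [ev_sum, ev_sum]
  refine Finset.sum_le_sum_of_subset_of_nonneg ?_ (fun k _ _ => hν.pos.pow k f hf)
  intro k hk
  simp only [Finset.mem_range] at hk ⊢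
  omega

theorem Dom.refMono {ν X : MA G} (hν : Prob ν) {V : ℝ} (hV : 0 ≤ V) {T T' : ℕ} (h : T ≤ T')
    (hX : Dom V (Ref ν T) X) : Dom V (Ref ν T') X := fun f =>
  le_trans (hX f) (mul_le_mul_of_nonneg_left (Ref_mono hν h (fun _ => sq_nonneg _)) hV)

theorem Ref_succ (ν : MA G) (T : ℕ) : Ref ν (T + 1) = 1 + ν * Ref ν T := by
  unfold Ref
  rw [Finset.sum_range_succ', pow_zero, Finset.mul_sum, add_comm]
  congr 1
  exact Finset.sum_congr rfl (fun k _ => by rw [pow_succ'])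

/-- first-mark orthogonality for the unnormalised reference -/
theorem firstMark {ν z : MA G} (hν : Prob ν) {κ : ℝ} (hκ : 0 ≤ κ) (hz : Dom κ ν (z - ν))
    (hz1 : mass (z - ν) = 0) (T : ℕ) (L : ℕ) : ∀ (Y : ℕ → MA G) (y : ℕ → ℝ), (∀ l, 0 ≤ y l) →
      (∀ l < L, Dom (y l) (Ref ν T) (Y l)) →
      Dom (κ * ∑ l ∈ range L, y l) (Ref ν (T + L)) (∑ l ∈ range L, ν ^ l * (z - ν) * Y l) := by
  induction L with
  | zero =>
    intro Y y _ _
    simp only [Finset.range_zero, Finset.sum_empty, mul_zero]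
    exact Dom.zero _ (Ref_pos hν _) le_rfl
  | succ L ih =>
    intro Y y hy hY
    set f := z - ν with hf
    have IH := ih (fun l => Y (l + 1)) (fun l => y (l + 1)) (fun l => hy _)
      (fun l hl => hY (l + 1) (by omega))
    set Z := ∑ l ∈ range L, ν ^ l * f * Y (l + 1) with hZ
    have e1 : ∑ l ∈ range (L + 1), ν ^ l * f * Y l = f * Y 0 + ν * Z := by
      rw [Finset.sum_range_succ', pow_zero, one_mul, add_comm, hZ, Finset.mul_sum]
      congr 1
      exact Finset.sum_congr rfl (fun l _ => by rw [pow_succ']; simp only [mul_assoc])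
    rw [e1, Finset.sum_range_succ']
    intro h
    rw [ev_add]
    -- averaged test function
    set hb : G → ℝ := fun u => ev ν (fun w => h (w * u)) with hhb
    have eB : ev (ν * Z) h = ev Z hb := by
      rw [ev_mul, ev_swap]
    have eA : ev (f * Y 0) h = ev f (fun w => ev (Y 0) (fun u => h (w * u) - hb u)) := by
      rw [ev_mul]
      have : (fun w => ev (Y 0) (fun u => h (w * u) - hb u)) =
          fun w => ev (Y 0) (fun u => h (w * u)) - ev (Y 0) hb := by
        funext w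
        rw [ev_sub_fun]
      rw [this, ev_sub_fun]
      have hc : ev f (fun _ => ev (Y 0) hb) = 0 := by
        have : (fun _ : G => ev (Y 0) hb) = fun _ => ev (Y 0) hb * 1 := by funext w; ring
        rw [this, ev_mul_fun]
        unfold mass at hz1
        rw [hz1, mul_zero]
      rw [hc, sub_zero]
    -- variance
    set var : G → ℝ := fun u => ev ν (fun w => (h (w * u) - hb u) ^ 2) with hvar
    have hvar0 : ∀ u, 0 ≤ var u := fun u => hν.pos _ (fun w => sq_nonneg _)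
    have hve : ∀ u, var u + hb u ^ 2 = ev ν (fun w => h (w * u) ^ 2) := by
      intro u
      have : (fun w => (h (w * u) - hb u) ^ 2) =
          fun w => (h (w * u) ^ 2 - (2 * hb u) * h (w * u)) + hb u ^ 2 := by
        funext w; ring
      simp only [hvar]
      rw [this, ev_add_fun, ev_sub_fun, ev_mul_fun, ev_const hν]
      simp only [hhb]
      ring
    have bA : (ev (f * Y 0) h) ^ 2 ≤ (κ * y 0) * ev (Ref ν (T + L)) var := by
      rw [eA]
      refine le_trans (hz _) ?_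
      rw [mul_assoc]
      refine mul_le_mul_of_nonneg_left ?_ hκ
      have step : ev ν (fun w => (ev (Y 0) (fun u => h (w * u) - hb u)) ^ 2) ≤
          ev ν (fun w => y 0 * ev (Ref ν T) (fun u => (h (w * u) - hb u) ^ 2)) :=
        hν.pos.mono (fun w => hY 0 (by omega) _)
      refine le_trans step ?_
      rw [ev_mul_fun, ev_swap]
      exact mul_le_mul_of_nonneg_left (Ref_mono hν (by omega) hvar0) (hy 0)
    have bB : (ev (ν * Z) h) ^ 2 ≤ (κ * ∑ l ∈ range L, y (l + 1)) *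
        ev (Ref ν (T + L)) (fun u => hb u ^ 2) := by
      rw [eB]; exact IH hb
    have tot : ev (Ref ν (T + L)) var + ev (Ref ν (T + L)) (fun u => hb u ^ 2) ≤
        ev (Ref ν (T + (L + 1))) (fun w => h w ^ 2) := by
      rw [← ev_add_fun]
      rw [ev_congr _ hve, ← ev_swap]
      rw [← add_assoc, Ref_succ, ev_add, ev_one, ev_mul]
      have := sq_nonneg (h 1)
      linarith
    set A := ev (f * Y 0) h
    set Bv := ev (ν * Z) h
    set X := ev (Ref ν (T + L)) var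
    set X2 := ev (Ref ν (T + L)) (fun u => hb u ^ 2)
    have hX : 0 ≤ X := Ref_pos hν _ _ hvar0
    have hX2 : 0 ≤ X2 := Ref_pos hν _ _ (fun _ => sq_nonneg _)
    set α := κ * y 0
    set β := κ * ∑ l ∈ range L, y (l + 1)
    have hα : 0 ≤ α := mul_nonneg hκ (hy 0)
    have hβ : 0 ≤ β := mul_nonneg hκ (Finset.sum_nonneg (fun _ _ => hy _))
    have hfin : (A + Bv) ^ 2 ≤ (α + β) * (X + X2) := by
      have h1 : (A * Bv) ^ 2 ≤ (α * X) * (β * X2) := by
        rw [mul_pow]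
        exact mul_le_mul bA bB (sq_nonneg _) (mul_nonneg hα hX)
      have h2 : 2 * (A * Bv) ≤ α * X2 + β * X := by
        have h3 : (2 * (A * Bv)) ^ 2 ≤ (α * X2 + β * X) ^ 2 := by
          nlinarith [sq_nonneg (α * X2 - β * X)]
        exact le_trans (le_abs_self _) (abs_le_of_sq_le_sq h3 (by positivity))
      nlinarith
    refine le_trans hfin ?_
    have : κ * (∑ l ∈ range L, y (l + 1) + y 0) = α + β := by
      simp only [α, β]; ring
    rw [this]
    exact mul_le_mul_of_nonneg_left tot (add_nonneg hα hβ)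

/-- combination of powers of `ν` -/
theorem pureDom {ν : MA G} (hν : Prob ν) (c : ℕ → ℝ) (T : ℕ) :
    Dom (∑ k ∈ range T, c k ^ 2) (Ref ν T) (∑ k ∈ range T, c k • ν ^ k) := by
  intro h
  rw [ev_sum]
  have e1 : ∑ k ∈ range T, ev (c k • ν ^ k) h = ∑ k ∈ range T, c k * ev (ν ^ k) h :=
    Finset.sum_congr rfl (fun k _ => ev_smul _ _ _)
  rw [e1]
  refine le_trans (Finset.sum_mul_sq_le_sq_mul_sq (range T) c (fun k => ev (ν ^ k) h)) ?_
  refine mul_le_mul_of_nonneg_left ?_ (Finset.sum_nonneg (fun _ _ => sq_nonneg _))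
  unfold Ref
  rw [ev_sum]
  refine Finset.sum_le_sum (fun k _ => ?_)
  have := Dom.self_prob (hν.pow k) h
  rwa [one_mul] at this

theorem pureDom_aeval {ν : MA G} (hν : Prob ν) (P : ℝ[X]) {T : ℕ} (hT : P.natDegree < T) :
    Dom (∑ k ∈ range T, P.coeff k ^ 2) (Ref ν T) (aeval ν P) := by
  rw [aeval_eq_sum_range' hT]
  exact pureDom hν _ _

/-- background block -/
def gg (ν : MA G) (q : ℝ) : MA G := aeval ν (coin (1 - q ^ 2))
/-- background letter -/
def ee (ν : MA G) (q : ℝ) : MA G := aeval ν (coin (1 - q))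
/-- mark -/
def dd (z : MA G) (q : ℝ) : MA G := q • (1 : MA G) + (1 - q) • z

theorem ee_eq (ν : MA G) (q : ℝ) : ee ν q = q • (1 : MA G) + (1 - q) • ν := by
  unfold ee coin
  rw [map_add, map_mul, aeval_C, aeval_C, aeval_X, Algebra.algebraMap_eq_smul_one,
    Algebra.algebraMap_eq_smul_one, smul_one_mul]
  congr 2
  ring

theorem gg_eq (ν : MA G) (q : ℝ) : gg ν q = q ^ 2 • (1 : MA G) + (1 - q ^ 2) • ν := by
  unfold gg coin
  rw [map_add, map_mul, aeval_C, aeval_C, aeval_X, Algebra.algebraMap_eq_smul_one,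
    Algebra.algebraMap_eq_smul_one, smul_one_mul]
  congr 2
  ring

theorem dd_eq (ν z : MA G) (q : ℝ) : dd z q = ee ν q + (1 - q) • (z - ν) := by
  rw [ee_eq, dd, smul_sub]
  abel

theorem ge_comm (ν : MA G) (q : ℝ) (a b : ℕ) :
    gg ν q ^ a * ee ν q ^ b = ee ν q ^ b * gg ν q ^ a := by
  unfold gg ee
  rw [← map_pow, ← map_pow, ← map_mul, ← map_mul, mul_comm]

/-- background law with `A` blocks and `k` background letters -/
def bg (ν : MA G) (q : ℝ) (A k : ℕ) : MA G := gg ν q ^ A * ee ν q ^ k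

/-- its generating polynomial -/
def bgP (q : ℝ) (A k : ℕ) : ℝ[X] := (coin (1 - q ^ 2)) ^ A * (coin (1 - q)) ^ k

theorem bg_eq (ν : MA G) (q : ℝ) (A k : ℕ) : bg ν q A k = aeval ν (bgP q A k) := by
  unfold bg bgP gg ee
  rw [map_mul, map_pow, map_pow]

/-- tail with `k` marks, each preceded by `n` blocks, and `β` blocks at the end -/
def U (ν z : MA G) (q : ℝ) (n β : ℕ) : ℕ → MA G
  | 0 => gg ν q ^ β
  | k + 1 => gg ν q ^ n * dd z q * U ν z q n β k

/-- first-mark decomposition -/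
theorem decomp (ν z : MA G) (q : ℝ) (n β k : ℕ) : ∀ α : ℕ,
    gg ν q ^ α * dd z q * U ν z q n β k = bg ν q (α + k * n + β) (k + 1) +
      (1 - q) • ∑ i ∈ range (k + 1), bg ν q (α + i * n) i * (z - ν) * U ν z q n β (k - i) := by
  induction k with
  | zero =>
    intro α
    rw [dd_eq ν z q]
    simp only [U, bg, zero_mul, add_zero, zero_add, Finset.sum_range_one, pow_one, pow_zero, mul_one,
      Nat.sub_self]
    rw [mul_add, add_mul, mul_smul_comm, smul_mul_assoc]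
    congr 1
    rw [pow_add, mul_assoc, mul_assoc]
    congr 1
    have := ge_comm ν q β 1
    rw [pow_one] at this
    exact this.symm
  | succ k ih =>
    intro α
    have h1 : gg ν q ^ α * dd z q * U ν z q n β (k + 1) =
        ee ν q * (gg ν q ^ (α + n) * dd z q * U ν z q n β k) +
          (1 - q) • (gg ν q ^ α * (z - ν) * U ν z q n β (k + 1)) := by
      conv_lhs => rw [dd_eq ν z q]
      rw [mul_add, add_mul, mul_smul_comm, smul_mul_assoc]
      congr 1
      have hc := ge_comm ν q α 1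
      rw [pow_one] at hc
      rw [hc, U, pow_add]
      simp only [mul_assoc]
    rw [h1, ih (α + n), mul_add, mul_smul_comm, Finset.mul_sum, Finset.sum_range_succ' _ (k + 1),
      smul_add]
    have e1 : ee ν q * bg ν q (α + n + k * n + β) (k + 1) = bg ν q (α + (k + 1) * n + β) (k + 1 + 1) := by
      unfold bg
      have hc := ge_comm ν q (α + n + k * n + β) 1
      rw [pow_one] at hc
      rw [← mul_assoc, ← hc, mul_assoc, ← pow_succ']
      congr 2
      ring
    have e2 : ∑ i ∈ range (k + 1), ee ν q * (bg ν q (α + n + i * n) i * (z - ν) * U ν z q n β (k - i)) =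
        ∑ i ∈ range (k + 1), bg ν q (α + (i + 1) * n) (i + 1) * (z - ν) *
          U ν z q n β (k + 1 - (i + 1)) := by
      refine Finset.sum_congr rfl (fun i _ => ?_)
      have : ee ν q * bg ν q (α + n + i * n) i = bg ν q (α + (i + 1) * n) (i + 1) := by
        unfold bg
        have hc := ge_comm ν q (α + n + i * n) 1
        rw [pow_one] at hc
        rw [← mul_assoc, ← hc, mul_assoc, ← pow_succ']
        congr 2
        ring
      rw [← this, Nat.add_sub_add_right]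
      simp only [mul_assoc]
    rw [e1, e2]
    have e3 : bg ν q (α + 0 * n) 0 = gg ν q ^ α := by
      unfold bg; rw [pow_zero, mul_one, zero_mul, add_zero]
    rw [e3, Nat.sub_zero, add_assoc]

theorem bgP_nn {q : ℝ} (h0 : 0 ≤ q) (h1 : q ≤ 1) (A k l : ℕ) : 0 ≤ (bgP q A k).coeff l := by
  unfold bgP
  refine NN_mul (fun l => NN_coin_pow ?_ ?_ _ _) (fun l => NN_coin_pow ?_ ?_ _ _) l
  · nlinarith
  · nlinarith
  · linarith
  · linarith

theorem F_dom {ν z : MA G} (hν : Prob ν) {κ : ℝ} (hκ : 0 ≤ κ) (hz : Dom κ ν (z - ν))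
    (hz1 : mass (z - ν) = 0) {q : ℝ} (h0 : 0 ≤ q) (h1 : q ≤ 1) {n β k α L T : ℕ} {B E₀ : ℝ}
    (hB : 0 ≤ B) (hE : 0 ≤ E₀) (φ : ℕ → ℝ) (hφ0 : ∀ j, 0 ≤ φ j)
    (hφ : ∀ j, φ j ^ 2 = 4 * B / Real.sqrt ((j : ℝ) + 1))
    (hdeg : ∀ i ≤ k, (bgP q (α + i * n) i).natDegree < L)
    (hI : ∀ i ≤ k, ∀ j ≤ k, ∑ l ∈ range L, (bgP q (α + i * n) i).coeff l * (bgP q (α + j * n) j).coeff l ≤
      E₀ * (B / Real.sqrt ((i : ℝ) + 1) + B / Real.sqrt ((j : ℝ) + 1)) *
      Real.exp (-(((i - j) + (j - i) : ℕ) : ℝ)))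
    (hU : ∀ j ≤ k, Dom (φ j ^ 2) (Ref ν T) (U ν z q n β j)) :
    Dom (κ * (192 * E₀ * B ^ 2)) (Ref ν (T + L))
      (gg ν q ^ α * dd z q * U ν z q n β k - bg ν q (α + k * n + β) (k + 1)) := by
  rw [decomp, add_sub_cancel_left]
  set c : ℕ → ℕ → ℝ := fun i l => (bgP q (α + i * n) i).coeff l with hc
  have hc0 : ∀ i l, 0 ≤ c i l := fun i l => bgP_nn h0 h1 _ _ _
  have e1 : ∑ i ∈ range (k + 1), bg ν q (α + i * n) i * (z - ν) * U ν z q n β (k - i) =
      ∑ l ∈ range L, ν ^ l * (z - ν) * (∑ i ∈ range (k + 1), c i l • U ν z q n β (k - i)) := by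
    have : ∀ i ∈ range (k + 1), bg ν q (α + i * n) i * (z - ν) * U ν z q n β (k - i) =
        ∑ l ∈ range L, ν ^ l * (z - ν) * (c i l • U ν z q n β (k - i)) := by
      intro i hi
      simp only [Finset.mem_range] at hi
      rw [bg_eq, aeval_eq_sum_range' (hdeg i (by omega)), Finset.sum_mul, Finset.sum_mul]
      refine Finset.sum_congr rfl (fun l _ => ?_)
      rw [mul_smul_comm, smul_mul_assoc, smul_mul_assoc]
    rw [Finset.sum_congr rfl this, Finset.sum_comm]
    refine Finset.sum_congr rfl (fun l _ => ?_)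
    rw [Finset.mul_sum]
  rw [e1]
  have hY : ∀ l < L, Dom ((∑ i ∈ range (k + 1), c i l * φ (k - i)) ^ 2) (Ref ν T)
      (∑ i ∈ range (k + 1), c i l • U ν z q n β (k - i)) := by
    intro l _
    refine Dom.sum (range (k + 1)) (x := fun i => c i l * φ (k - i)) ?_ ?_ (Ref_pos hν T)
    · intro i _
      rw [mul_pow]
      exact Dom.smul (hU (k - i) (by omega)) (c i l)
    · intro i _
      exact mul_nonneg (hc0 _ _) (hφ0 _)
  have hmain := firstMark hν hκ hz hz1 T L _ (fun l => (∑ i ∈ range (k + 1), c i l * φ (k - i)) ^ 2)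
    (fun l => sq_nonneg _) hY
  have hq2 : (1 - q) ^ 2 ≤ 1 := by nlinarith
  have hsum0 : 0 ≤ ∑ l ∈ range L, (∑ i ∈ range (k + 1), c i l * φ (k - i)) ^ 2 :=
    Finset.sum_nonneg (fun _ _ => sq_nonneg _)
  have hsm := Dom.smul hmain (1 - q)
  refine Dom.mono hsm ?_ (Ref_pos hν _)
  have hbound : ∑ l ∈ range L, (∑ i ∈ range (k + 1), c i l * φ (k - i)) ^ 2 ≤ 192 * E₀ * B ^ 2 := by
    have hcb := conv_bound hB hE k (fun i j => ∑ l ∈ range L, c i l * c j l) φ hφ0 hφ hI
    refine le_trans (le_of_eq ?_) hcb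
    have e3 : ∀ l ∈ range L, (∑ i ∈ range (k + 1), c i l * φ (k - i)) ^ 2 =
        ∑ i ∈ range (k + 1), ∑ j ∈ range (k + 1), (c i l * c j l) * (φ (k - i) * φ (k - j)) := by
      intro l _
      rw [sq, Finset.sum_mul_sum]
      refine Finset.sum_congr rfl (fun i _ => Finset.sum_congr rfl (fun j _ => by ring))
    rw [Finset.sum_congr rfl e3, Finset.sum_comm]
    refine Finset.sum_congr rfl (fun i _ => ?_)
    rw [Finset.sum_comm]
    refine Finset.sum_congr rfl (fun j _ => ?_)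
    rw [Finset.sum_mul]
  calc (1 - q) ^ 2 * (κ * ∑ l ∈ range L, (∑ i ∈ range (k + 1), c i l * φ (k - i)) ^ 2)
      ≤ 1 * (κ * ∑ l ∈ range L, (∑ i ∈ range (k + 1), c i l * φ (k - i)) ^ 2) :=
        mul_le_mul_of_nonneg_right hq2 (mul_nonneg hκ hsum0)
    _ = κ * ∑ l ∈ range L, (∑ i ∈ range (k + 1), c i l * φ (k - i)) ^ 2 := one_mul _
    _ ≤ κ * (192 * E₀ * B ^ 2) := mul_le_mul_of_nonneg_left hbound hκ

end

end Crest.Agent.R300LB.Sl
private theorem rz_b8ba68e863 : type_of% @_root_.Crest.Agent.R300LB.Sl.U.eq_def := @_root_.Crest.Agent.R300LB.Sl.U.eq_def -- L205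
private theorem rz_ec5c465a09 : type_of% @_root_.Crest.Agent.R300LB.Sl.U.eq_1 := @_root_.Crest.Agent.R300LB.Sl.U.eq_1 -- L205
end

-- ▼ part R300/LBSlipU
section

/-!
# Row 300, lower bounds, piece L10 (base slip): the `L²` estimate for arrays of marks
-/

set_option autoImplicit false

namespace Crest.Agent.R300LB.Sl

open Polynomial Finset

noncomputable section

variable {G : Type*} [Monoid G]

theorem bgP_natDegree (q : ℝ) (A k : ℕ) : (bgP q A k).natDegree ≤ A + k := by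
  unfold bgP
  have h1 := natDegree_coin_pow_lt (1 - q ^ 2) A
  have h2 := natDegree_coin_pow_lt (1 - q) k
  have h3 := natDegree_mul_le (p := (coin (1 - q ^ 2)) ^ A) (q := (coin (1 - q)) ^ k)
  omega

theorem bgP_eval_one (q : ℝ) (A k : ℕ) : (bgP q A k).eval 1 = 1 := by
  unfold bgP
  rw [eval_mul, eval_pow, eval_pow, coin_eval, coin_eval]
  simp

/-- size of the coefficients of the background law -/
theorem bgP_coeff_le {q : ℝ} (h0 : 0 < q) (h1 : q ≤ 1 / 16) (A k l : ℕ) :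
    (bgP q A k).coeff l ≤ 1 / Real.sqrt (((A : ℝ) + 1) * (1 - q ^ 2) * (1 - (1 - q ^ 2))) := by
  have hr0 : 0 < 1 - q ^ 2 := by nlinarith
  have hr1 : 1 - q ^ 2 < 1 := by nlinarith
  have := coeff_mul_le (P := (coin (1 - q ^ 2)) ^ A) (Q := (coin (1 - q)) ^ k)
    (S := 1 / Real.sqrt (((A : ℝ) + 1) * (1 - q ^ 2) * (1 - (1 - q ^ 2))))
    (fun l => by rw [coeff_coin_pow]; exact bw_le hr0 hr1 A l) (by positivity)
    (fun l => NN_coin_pow (by linarith) (by linarith) k l) l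
  have e : ((coin (1 - q)) ^ k).eval 1 = 1 := by
    rw [eval_pow, coin_eval]; simp
  rw [e, mul_one] at this
  exact this

/-- uniform version -/
theorem bgP_coeff_le' {q : ℝ} (h0 : 0 < q) (h1 : q ≤ 1 / 16) {n : ℕ} (hn : 1 ≤ n) {A i : ℕ}
    (hA : ((i : ℝ) + 1) * n ≤ 16 * A) (k l : ℕ) :
    (bgP q A k).coeff l ≤ (5 / (q * Real.sqrt n)) / Real.sqrt ((i : ℝ) + 1) := by
  refine le_trans (bgP_coeff_le h0 h1 A k l) ?_
  have hn' : (0 : ℝ) < n := by exact_mod_cast hn
  have hx : 0 < Real.sqrt ((i : ℝ) + 1) := Real.sqrt_pos.mpr (by positivity)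
  have hy : 0 < Real.sqrt (n : ℝ) := Real.sqrt_pos.mpr hn'
  have hq2 : q ^ 2 ≤ 1 / 256 := by nlinarith
  have key : q * Real.sqrt n * Real.sqrt ((i : ℝ) + 1) ≤
      5 * Real.sqrt (((A : ℝ) + 1) * (1 - q ^ 2) * (1 - (1 - q ^ 2))) := by
    have h5 : (5 : ℝ) * Real.sqrt (((A : ℝ) + 1) * (1 - q ^ 2) * (1 - (1 - q ^ 2))) =
        Real.sqrt (25 * (((A : ℝ) + 1) * (1 - q ^ 2) * (1 - (1 - q ^ 2)))) := by
      have e25 : Real.sqrt 25 = 5 := by
        rw [show (25 : ℝ) = 5 ^ 2 by norm_num, Real.sqrt_sq (by norm_num)]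
      rw [Real.sqrt_mul (show (0 : ℝ) ≤ 25 by norm_num)
        (((A : ℝ) + 1) * (1 - q ^ 2) * (1 - (1 - q ^ 2))), e25]
    rw [h5]
    apply Real.le_sqrt_of_sq_le
    rw [mul_pow, mul_pow, Real.sq_sqrt hn'.le, Real.sq_sqrt (by positivity)]
    have hA' : ((i : ℝ) + 1) * n ≤ 16 * ((A : ℝ) + 1) := by linarith
    have : q ^ 2 * (((i : ℝ) + 1) * n) ≤ q ^ 2 * (16 * ((A : ℝ) + 1)) :=
      mul_le_mul_of_nonneg_left hA' (sq_nonneg q)
    have h6 : 0 ≤ q ^ 2 * ((A : ℝ) + 1) := by positivity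
    nlinarith
  have hs : 0 < Real.sqrt (((A : ℝ) + 1) * (1 - q ^ 2) * (1 - (1 - q ^ 2))) := by
    have : 0 < q * Real.sqrt n * Real.sqrt ((i : ℝ) + 1) := by positivity
    nlinarith
  rw [div_div, div_le_div_iff₀ hs (by positivity)]
  linarith

theorem bgP_sum_sq_le {q : ℝ} (h0 : 0 < q) (h1 : q ≤ 1 / 16) {A k : ℕ} {S : ℝ}
    (hS : ∀ l, (bgP q A k).coeff l ≤ S) (N : ℕ) :
    ∑ l ∈ range N, (bgP q A k).coeff l ^ 2 ≤ S := by
  have hnn := bgP_nn h0.le (show q ≤ 1 by linarith) A k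
  have hS0 : 0 ≤ S := le_trans (hnn 0) (hS 0)
  calc ∑ l ∈ range N, (bgP q A k).coeff l ^ 2
      ≤ ∑ l ∈ range N, S * ((bgP q A k).coeff l * 1 ^ l) := by
        refine Finset.sum_le_sum (fun l _ => ?_)
        rw [one_pow, mul_one, sq]
        exact mul_le_mul_of_nonneg_right (hS l) (hnn l)
    _ = S * ∑ l ∈ range N, (bgP q A k).coeff l * 1 ^ l := by rw [Finset.mul_sum]
    _ ≤ S * (bgP q A k).eval 1 := mul_le_mul_of_nonneg_left (partial_eval_le hnn zero_le_one N) hS0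
    _ = S := by rw [bgP_eval_one, mul_one]

/-- exponential moments of the background law -/
theorem bgP_exp {q : ℝ} (h0 : 0 < q) (h1 : q ≤ 1 / 16) {θ : ℝ} (hθ : |θ| ≤ 1) (A k : ℕ) {v : ℝ}
    (hv : θ ^ 2 * (A * q ^ 2 + k * q) ≤ v) :
    (bgP q A k).eval (Real.exp θ) ≤
      Real.exp (θ * (A * (1 - q ^ 2) + k * (1 - q)) + v) := by
  refine le_trans (exp_bound (ε₁ := q ^ 2) (ε₂ := q) (sq_nonneg q) (by nlinarith) h0.le (by linarith)
    hθ A k) (Real.exp_le_exp.mpr ?_)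
  linarith

/-- inner products of the laws of the locations of two marks -/
theorem bgP_inner {q : ℝ} (h0 : 0 < q) (h1 : q ≤ 1 / 16) {n k : ℕ} (hn : 1 ≤ n)
    (hk : ((k : ℝ) + 2) * 10 ^ 7 ≤ q ^ 4 * n) {α : ℕ} (hα : n ≤ 16 * α) (hα' : α ≤ n) (L : ℕ) :
    ∀ i ≤ k, ∀ j ≤ k, ∑ l ∈ range L, (bgP q (α + i * n) i).coeff l * (bgP q (α + j * n) j).coeff l ≤
      Real.exp 1 * ((5 / (q * Real.sqrt n)) / Real.sqrt ((i : ℝ) + 1) +
        (5 / (q * Real.sqrt n)) / Real.sqrt ((j : ℝ) + 1)) *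
      Real.exp (-(((i - j) + (j - i) : ℕ) : ℝ)) := by
  have hn' : (0 : ℝ) < n := by exact_mod_cast hn
  have hαr : (n : ℝ) ≤ 16 * α := by exact_mod_cast hα
  have hαr' : (α : ℝ) ≤ n := by exact_mod_cast hα'
  have hS : ∀ i : ℕ, ∀ l, (bgP q (α + i * n) i).coeff l ≤
      (5 / (q * Real.sqrt n)) / Real.sqrt ((i : ℝ) + 1) := by
    intro i l
    refine bgP_coeff_le' h0 h1 hn ?_ i l
    push_cast
    nlinarith [Nat.cast_nonneg (α := ℝ) i]
  have hnn : ∀ i : ℕ, ∀ l, 0 ≤ (bgP q (α + i * n) i).coeff l :=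
    fun i l => bgP_nn h0.le (by linarith) _ _ _
  have hkn : 10 ^ 7 * ((k : ℝ) + 2) ≤ n := by
    have : q ^ 4 ≤ 1 := by
      have : q ^ 4 ≤ 1 ^ 4 := pow_le_pow_left₀ h0.le (by linarith) 4
      simpa using this
    nlinarith
  -- variance bound
  have hvar : ∀ i ≤ k, ∀ θ : ℝ, θ ^ 2 = 9 / (n : ℝ) ^ 2 →
      θ ^ 2 * (((α + i * n : ℕ) : ℝ) * q ^ 2 + (i : ℝ) * q) ≤ 1 := by
    intro i hi θ hθ
    have hik : (i : ℝ) ≤ k := by exact_mod_cast hi
    rw [hθ, div_mul_eq_mul_div, div_le_one (by positivity)]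
    push_cast
    have e1 : ((α : ℝ) + i * n) * q ^ 2 ≤ ((k : ℝ) + 1) * n := by
      have : (α : ℝ) + i * n ≤ ((k : ℝ) + 1) * n := by nlinarith
      have hq : q ^ 2 ≤ 1 := by nlinarith
      have h' : 0 ≤ (α : ℝ) + i * n := by positivity
      nlinarith
    have e2 : (i : ℝ) * q ≤ ((k : ℝ) + 1) * n := by
      have : (1 : ℝ) ≤ n := by exact_mod_cast hn
      have : (i : ℝ) * q ≤ i := by nlinarith [Nat.cast_nonneg (α := ℝ) i]
      nlinarith [Nat.cast_nonneg (α := ℝ) k]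
    nlinarith [Nat.cast_nonneg (α := ℝ) k]
  -- ordered case
  have hlt : ∀ i ≤ k, ∀ j ≤ k, i < j →
      ∑ l ∈ range L, (bgP q (α + i * n) i).coeff l * (bgP q (α + j * n) j).coeff l ≤
      ((5 / (q * Real.sqrt n)) / Real.sqrt ((i : ℝ) + 1) +
        (5 / (q * Real.sqrt n)) / Real.sqrt ((j : ℝ) + 1)) * Real.exp (1 - ((j : ℝ) - i)) := by
    intro i hi j hj hij
    have hθ1 : |(3 / (n : ℝ))| ≤ 1 := by
      rw [abs_of_pos (by positivity), div_le_one hn']
      nlinarith [Nat.cast_nonneg (α := ℝ) k]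
    refine inner_le (hnn i) (hnn j) (hS i) (hS j) (θ := 3 / n)
      (μ := ((α + i * n : ℕ) : ℝ) * (1 - q ^ 2) + (i : ℝ) * (1 - q))
      (μ' := ((α + j * n : ℕ) : ℝ) * (1 - q ^ 2) + (j : ℝ) * (1 - q)) (v := 1) ?_ ?_ ?_ L
    · exact bgP_exp h0 h1 hθ1 _ _ (hvar i hi _ (by ring))
    · refine le_trans (bgP_exp (v := 1) h0 h1 (by rwa [abs_neg]) _ _ (hvar j hj _ (by ring))) ?_
      exact le_of_eq (by ring_nf)
    · have hji : (1 : ℝ) ≤ (j : ℝ) - i := by
        have : (i : ℝ) + 1 ≤ j := by exact_mod_cast hij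
        linarith
      push_cast
      have e : ((α : ℝ) + j * n) * (1 - q ^ 2) + j * (1 - q) -
          (((α : ℝ) + i * n) * (1 - q ^ 2) + i * (1 - q)) =
          ((j : ℝ) - i) * (n * (1 - q ^ 2) + (1 - q)) := by ring
      rw [e]
      have e2 : (3 : ℝ) / n * (((j : ℝ) - i) * (n * (1 - q ^ 2) + (1 - q))) / 2 =
          ((j : ℝ) - i) * (3 / 2 * (1 - q ^ 2) + 3 / 2 * ((1 - q) / n)) := by
        field_simp
      rw [e2]
      have hq2 : q ^ 2 ≤ 1 / 256 := by nlinarith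
      have h3 : 0 ≤ (1 - q) / (n : ℝ) := div_nonneg (by linarith) hn'.le
      nlinarith
  intro i hi j hj
  have hpos : ∀ i : ℕ, 0 ≤ (5 / (q * Real.sqrt n)) / Real.sqrt ((i : ℝ) + 1) := by
    intro i; positivity
  rcases lt_trichotomy i j with h | h | h
  · have := hlt i hi j hj h
    refine le_trans this (le_of_eq ?_)
    rw [Nat.sub_eq_zero_of_le h.le, zero_add, Nat.cast_sub h.le, sub_eq_add_neg, Real.exp_add]
    ring
  · subst h
    have h2 := bgP_sum_sq_le h0 h1 (hS i) L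
    have e : ∑ l ∈ range L, (bgP q (α + i * n) i).coeff l * (bgP q (α + i * n) i).coeff l =
        ∑ l ∈ range L, (bgP q (α + i * n) i).coeff l ^ 2 :=
      Finset.sum_congr rfl (fun l _ => by ring)
    rw [e, Nat.sub_self]
    simp only [add_zero, Nat.cast_zero, neg_zero, Real.exp_zero, mul_one]
    have he : 1 ≤ Real.exp 1 := Real.one_le_exp (by norm_num)
    have := hpos i
    nlinarith
  · have := hlt j hj i hi h
    refine le_trans (le_of_eq ?_) (le_trans this (le_of_eq ?_))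
    · exact Finset.sum_congr rfl (fun l _ => by ring)
    · rw [Nat.sub_eq_zero_of_le h.le, add_zero, Nat.cast_sub h.le, sub_eq_add_neg, Real.exp_add]
      ring

/-- `φ_j = 2 √B / (j+1)^{1/4}` -/
def phi (B : ℝ) (j : ℕ) : ℝ := 2 * Real.sqrt (B / Real.sqrt ((j : ℝ) + 1))

theorem phi_nonneg (B : ℝ) (j : ℕ) : 0 ≤ phi B j := by unfold phi; positivity

theorem phi_sq {B : ℝ} (hB : 0 ≤ B) (j : ℕ) : phi B j ^ 2 = 4 * B / Real.sqrt ((j : ℝ) + 1) := by
  unfold phi
  rw [mul_pow, Real.sq_sqrt (by positivity)]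
  ring

/-- one step: array of `k+1` marks against the background -/
theorem array_dom {ν z : MA G} (hν : Prob ν) {q : ℝ} (h0 : 0 < q) (h1 : q ≤ 1 / 16)
    (hz : Dom (1 / q) ν (z - ν)) (hz1 : mass (z - ν) = 0) {n k : ℕ} (hn : 1 ≤ n)
    (hk : ((k : ℝ) + 2) * 10 ^ 7 ≤ q ^ 4 * n) {α β : ℕ} (hα : n ≤ 16 * α) (hα' : α ≤ n)
    {T : ℕ} (hU : ∀ j ≤ k, Dom (phi (5 / (q * Real.sqrt n)) j ^ 2) (Ref ν T) (U ν z q n β j))
    {L : ℕ} (hL : (k + 1) * (n + 1) ≤ L) :
    Dom (1 / q * (192 * Real.exp 1 * (5 / (q * Real.sqrt n)) ^ 2)) (Ref ν (T + L))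
      (gg ν q ^ α * dd z q * U ν z q n β k - bg ν q (α + k * n + β) (k + 1)) := by
  have hB : 0 ≤ 5 / (q * Real.sqrt n) := by positivity
  refine F_dom hν (by positivity) hz hz1 h0.le (by linarith) hB (Real.exp_pos _).le _
    (phi_nonneg _) (phi_sq hB) ?_ (bgP_inner h0 h1 hn hk hα hα' L) hU
  intro i hi
  refine lt_of_le_of_lt (bgP_natDegree q _ _) ?_
  have : i * n ≤ k * n := Nat.mul_le_mul_right n hi
  nlinarith

theorem half_bound {q : ℝ} (h0 : 0 < q) {n k : ℕ} (hn : 1 ≤ n)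
    (hk : ((k : ℝ) + 2) * 10 ^ 7 ≤ q ^ 4 * n) :
    1 / q * (192 * Real.exp 1 * (5 / (q * Real.sqrt n)) ^ 2) ≤
      (5 / (q * Real.sqrt n)) / Real.sqrt ((k : ℝ) + 2) := by
  have hn' : (0 : ℝ) < n := by exact_mod_cast hn
  have hy : 0 < Real.sqrt (n : ℝ) := Real.sqrt_pos.mpr hn'
  have hk2 : 0 < Real.sqrt ((k : ℝ) + 2) := Real.sqrt_pos.mpr (by positivity)
  have he : Real.exp 1 ≤ 2.7182818286 := Real.exp_one_lt_d9.le
  have e1 : 1 / q * (192 * Real.exp 1 * (5 / (q * Real.sqrt n)) ^ 2) =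
      (5 / (q * Real.sqrt n)) * (960 * Real.exp 1 / (q ^ 2 * Real.sqrt n)) := by
    field_simp
    ring
  rw [e1, div_eq_mul_inv (5 / (q * Real.sqrt n)) (Real.sqrt ((k : ℝ) + 2))]
  refine mul_le_mul_of_nonneg_left ?_ (by positivity)
  rw [← one_div, div_le_div_iff₀ (by positivity) hk2, one_mul]
  have h3 : 2700 * Real.sqrt ((k : ℝ) + 2) ≤ q ^ 2 * Real.sqrt n := by
    have e2 : q ^ 2 * Real.sqrt n = Real.sqrt (q ^ 4 * n) := by
      rw [Real.sqrt_mul (by positivity), show q ^ 4 = (q ^ 2) ^ 2 by ring,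
        Real.sqrt_sq (by positivity)]
    rw [e2]
    apply Real.le_sqrt_of_sq_le
    rw [mul_pow, Real.sq_sqrt (by positivity)]
    have : (0 : ℝ) ≤ (k : ℝ) + 2 := by positivity
    nlinarith
  nlinarith

/-- squared norm of the tail with `j` marks -/
theorem U_dom {ν z : MA G} (hν : Prob ν) {q : ℝ} (h0 : 0 < q) (h1 : q ≤ 1 / 16)
    (hz : Dom (1 / q) ν (z - ν)) (hz1 : mass (z - ν) = 0) {n K : ℕ} (hn : 1 ≤ n)
    (hK : ((K : ℝ) + 2) * 10 ^ 7 ≤ q ^ 4 * n) {β : ℕ} (hβ : n ≤ 16 * β) (hβ' : β ≤ n) :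
    ∀ j ≤ K + 1, Dom (phi (5 / (q * Real.sqrt n)) j ^ 2) (Ref ν ((j + 1) * ((K + 3) * (n + 1))))
      (U ν z q n β j) := by
  set B : ℝ := 5 / (q * Real.sqrt n) with hBdef
  have hB : 0 ≤ B := by positivity
  set L : ℕ := (K + 3) * (n + 1) with hL
  have hβr : (n : ℝ) ≤ 16 * β := by exact_mod_cast hβ
  -- pure part
  have hpure : ∀ j ≤ K + 1, ∀ T, L ≤ T →
      Dom ((Real.sqrt (B / Real.sqrt ((j : ℝ) + 1))) ^ 2) (Ref ν T) (bg ν q (j * n + β) j) := by
    intro j hj T hT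
    rw [bg_eq, Real.sq_sqrt (by positivity)]
    have hdeg : (bgP q (j * n + β) j).natDegree < T := by
      refine lt_of_le_of_lt (bgP_natDegree q _ _) (lt_of_lt_of_le ?_ hT)
      have : j * n ≤ (K + 1) * n := Nat.mul_le_mul_right n hj
      rw [hL]; nlinarith
    refine Dom.mono (pureDom_aeval hν _ hdeg) ?_ (Ref_pos hν T)
    refine bgP_sum_sq_le h0 h1 (fun l => bgP_coeff_le' h0 h1 hn ?_ j l) T
    push_cast
    nlinarith [Nat.cast_nonneg (α := ℝ) j]
  intro j
  induction j using Nat.strong_induction_on with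
  | _ j ih =>
    intro hj
    cases j with
    | zero =>
      have h := hpure 0 (by omega) ((0 + 1) * L) (by omega)
      have e : bg ν q (0 * n + β) 0 = U ν z q n β 0 := by
        unfold bg U; rw [pow_zero, mul_one, zero_mul, zero_add]
      rw [e] at h
      refine Dom.mono h ?_ (Ref_pos hν _)
      rw [phi_sq hB, Real.sq_sqrt (by positivity)]
      have : 0 ≤ B / Real.sqrt (((0 : ℕ) : ℝ) + 1) := by positivity
      rw [mul_div_assoc]
      linarith
    | succ k =>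
      have hkK : k ≤ K := by omega
      have hkr : (k : ℝ) ≤ K := by exact_mod_cast hkK
      have hk : ((k : ℝ) + 2) * 10 ^ 7 ≤ q ^ 4 * n := by
        refine le_trans ?_ hK
        linarith
      have hU : ∀ i ≤ k, Dom (phi B i ^ 2) (Ref ν ((k + 1) * L)) (U ν z q n β i) := by
        intro i hi
        refine Dom.refMono hν (sq_nonneg _) ?_ (ih i (by omega) (by omega))
        exact Nat.mul_le_mul_right L (by omega)
      have hA := array_dom hν h0 h1 hz hz1 hn hk (α := n) (β := β) (by omega) le_rfl hU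
        (L := L) (by rw [hL]; exact Nat.mul_le_mul_right _ (by omega))
      have hA2 : Dom ((Real.sqrt (B / Real.sqrt (((k + 1 : ℕ) : ℝ) + 1))) ^ 2)
          (Ref ν ((k + 1 + 1) * L))
          (gg ν q ^ n * dd z q * U ν z q n β k - bg ν q (n + k * n + β) (k + 1)) := by
        have e : (k + 1) * L + L = (k + 1 + 1) * L := by ring
        rw [← e]
        refine Dom.mono hA ?_ (Ref_pos hν _)
        rw [Real.sq_sqrt (by positivity)]
        refine le_trans (half_bound h0 hn hk) (le_of_eq ?_)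
        push_cast
        congr 2
        ring
      have hp := hpure (k + 1) hj ((k + 1 + 1) * L) (by nlinarith)
      have hsum := Dom.add hp hA2 (Real.sqrt_nonneg _) (Real.sqrt_nonneg _) (Ref_pos hν _)
      have e2 : bg ν q ((k + 1) * n + β) (k + 1) +
          (gg ν q ^ n * dd z q * U ν z q n β k - bg ν q (n + k * n + β) (k + 1)) =
          U ν z q n β (k + 1) := by
        rw [show (k + 1) * n + β = n + k * n + β by ring, U]
        abel
      rw [e2] at hsum
      refine Dom.mono hsum (le_of_eq ?_) (Ref_pos hν _)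
      unfold phi
      ring

/-- the `L²` estimate for an array of `k+1` marks -/
theorem array_final {ν z : MA G} (hν : Prob ν) {q : ℝ} (h0 : 0 < q) (h1 : q ≤ 1 / 16)
    (hz : Dom (1 / q) ν (z - ν)) (hz1 : mass (z - ν) = 0) {n k : ℕ} (hn : 1 ≤ n)
    (hk : ((k : ℝ) + 2) * 10 ^ 7 ≤ q ^ 4 * n) {α β : ℕ} (hα : n ≤ 16 * α) (hα' : α ≤ n)
    (hβ : n ≤ 16 * β) (hβ' : β ≤ n) :
    ∃ T : ℕ, Dom (13100 / (q ^ 3 * n)) (Ref ν T)
      (gg ν q ^ α * dd z q * U ν z q n β k - bg ν q (α + k * n + β) (k + 1)) := by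
  have hn' : (0 : ℝ) < n := by exact_mod_cast hn
  refine ⟨(k + 2) * ((k + 3) * (n + 1)) + (k + 1) * (n + 1), ?_⟩
  have hU := U_dom hν h0 h1 hz hz1 hn hk hβ hβ'
  have := array_dom hν h0 h1 hz hz1 hn hk hα hα' (β := β) (T := (k + 2) * ((k + 3) * (n + 1)))
    (fun j hj => Dom.refMono hν (sq_nonneg _) (Nat.mul_le_mul_right _ (by omega)) (hU j (by omega)))
    (L := (k + 1) * (n + 1)) le_rfl
  refine Dom.mono this ?_ (Ref_pos hν _)
  have he : Real.exp 1 ≤ 2.7182818286 := Real.exp_one_lt_d9.le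
  have e1 : 1 / q * (192 * Real.exp 1 * (5 / (q * Real.sqrt n)) ^ 2) = 4800 * Real.exp 1 / (q ^ 3 * n) := by
    rw [div_pow, mul_pow, Real.sq_sqrt hn'.le]
    field_simp
    ring
  rw [e1, div_le_div_iff_of_pos_right (by positivity)]
  nlinarith

end

end Crest.Agent.R300LB.Sl
end

-- ▼ part R300/LBSlipLoc
section

/-!
# Row 300, lower bounds, piece L10 (base slip): concrete model and the local `ℓ¹` estimates
-/

set_option autoImplicit false

namespace Crest.Agent.R300LB.Sl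

open Polynomial Finset

noncomputable section

/-! ### `TVle` calculus -/

section TV
variable {G : Type*} [Monoid G]

theorem tv_mono {τ τ' : ℝ} {X : MA G} (h : TVle τ X) (hτ : τ ≤ τ') : TVle τ' X :=
  fun f hf => le_trans (h f hf) hτ

theorem tv_zero : TVle (0 : ℝ) (0 : MA G) := fun f _ => by rw [ev_zero]; simp

theorem tv_add {s t : ℝ} {X Y : MA G} (hX : TVle s X) (hY : TVle t Y) : TVle (s + t) (X + Y) :=
  fun f hf => by
    rw [ev_add]
    exact le_trans (abs_add_le _ _) (add_le_add (hX f hf) (hY f hf))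

theorem tv_neg {s : ℝ} {X : MA G} (hX : TVle s X) : TVle s (-X) := fun f hf => by
  rw [ev_neg, abs_neg]; exact hX f hf

theorem tv_smul {s c : ℝ} {X : MA G} (hX : TVle s X) : TVle (|c| * s) (c • X) := fun f hf => by
  rw [ev_smul, abs_mul]; exact mul_le_mul_of_nonneg_left (hX f hf) (abs_nonneg c)

theorem tv_mul_prob {s : ℝ} {X b : MA G} (hX : TVle s X) (hb : Prob b) : TVle s (X * b) :=
  fun f hf => by
    rw [ev_mul]
    refine hX _ (fun u => ?_)
    rw [abs_le]
    constructor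
    · have := hb.pos.mono (f := fun _ => (-1 : ℝ)) (g := fun v => f (u * v))
        (fun v => (abs_le.mp (hf (u * v))).1)
      rwa [ev_const hb] at this
    · have := hb.pos.mono (f := fun v => f (u * v)) (g := fun _ => (1 : ℝ))
        (fun v => (abs_le.mp (hf (u * v))).2)
      rwa [ev_const hb] at this


theorem prob_ev_abs_le {b : MA G} (hb : Prob b) {f : G → ℝ} (hf : ∀ w, |f w| ≤ 1) :
    |ev b f| ≤ 1 := by
  rw [abs_le]
  constructor
  · have := hb.pos.mono (f := fun _ => (-1 : ℝ)) (g := f) (fun v => (abs_le.mp (hf v)).1)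
    rwa [ev_const hb] at this
  · have := hb.pos.mono (f := f) (g := fun _ => (1 : ℝ)) (fun v => (abs_le.mp (hf v)).2)
    rwa [ev_const hb] at this

theorem gg_prob {ν : MA G} (hν : Prob ν) {q : ℝ} (h0 : 0 ≤ q) (h1 : q ≤ 1) : Prob (gg ν q) := by
  rw [gg_eq]
  refine ⟨(Pos.one.smul (sq_nonneg q)).add (hν.pos.smul (by nlinarith)), ?_⟩
  rw [mass_add, mass_smul, mass_smul, mass_one, hν.one]; ring

theorem ee_prob {ν : MA G} (hν : Prob ν) {q : ℝ} (h0 : 0 ≤ q) (h1 : q ≤ 1) : Prob (ee ν q) := by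
  rw [ee_eq]
  refine ⟨(Pos.one.smul h0).add (hν.pos.smul (by linarith)), ?_⟩
  rw [mass_add, mass_smul, mass_smul, mass_one, hν.one]; ring

theorem dd_prob {z : MA G} (hz : Prob z) {q : ℝ} (h0 : 0 ≤ q) (h1 : q ≤ 1) : Prob (dd z q) := by
  unfold dd
  refine ⟨(Pos.one.smul h0).add (hz.pos.smul (by linarith)), ?_⟩
  rw [mass_add, mass_smul, mass_smul, mass_one, hz.one]; ring

theorem bg_prob {ν : MA G} (hν : Prob ν) {q : ℝ} (h0 : 0 ≤ q) (h1 : q ≤ 1) (A k : ℕ) :
    Prob (bg ν q A k) := ((gg_prob hν h0 h1).pow A).mul ((ee_prob hν h0 h1).pow k)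

theorem U_prob {ν z : MA G} (hν : Prob ν) (hz : Prob z) {q : ℝ} (h0 : 0 ≤ q) (h1 : q ≤ 1) (n β k : ℕ) :
    Prob (U ν z q n β k) := by
  induction k with
  | zero => exact (gg_prob hν h0 h1).pow β
  | succ k ih => exact (((gg_prob hν h0 h1).pow n).mul (dd_prob hz h0 h1)).mul ih

/-! ### pure against pure -/

/-- cost of one shift -/
def tauA (q : ℝ) (A : ℕ) : ℝ := 1 / Real.sqrt (((A : ℝ) + 1) * (1 - q ^ 2) * (1 - (1 - q ^ 2)))

theorem tauA_anti {q : ℝ} (h0 : 0 < q) (h1 : q ≤ 1 / 16) {A A' : ℕ} (h : A ≤ A') :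
    tauA q A' ≤ tauA q A := by
  unfold tauA
  have hr0 : 0 < 1 - q ^ 2 := by nlinarith
  have hr1 : 0 < 1 - (1 - q ^ 2) := by nlinarith
  have hA : (A : ℝ) ≤ A' := by exact_mod_cast h
  refine one_div_le_one_div_of_le (Real.sqrt_pos.mpr (by positivity)) (Real.sqrt_le_sqrt ?_)
  refine mul_le_mul_of_nonneg_right (mul_le_mul_of_nonneg_right ?_ hr0.le) hr1.le
  linarith

theorem shift_TV {ν : MA G} (hν : Prob ν) {q : ℝ} (h0 : 0 < q) (h1 : q ≤ 1 / 16) (A : ℕ) :
    TVle (tauA q A) (gg ν q ^ A * (1 - ν)) := by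
  have e : gg ν q ^ A * (1 - ν) = aeval ν ((coin (1 - q ^ 2)) ^ A * (1 - X)) := by
    unfold gg
    rw [map_mul, map_pow, map_sub, map_one, aeval_X]
  have hdeg : ((coin (1 - q ^ 2)) ^ A * (1 - X)).natDegree < A + 2 := by
    have h1 := natDegree_coin_pow_lt (1 - q ^ 2) A
    have h2 := natDegree_mul_le (p := (coin (1 - q ^ 2)) ^ A) (q := (1 - X : ℝ[X]))
    have h3 : (1 - X : ℝ[X]).natDegree ≤ 1 := by
      refine le_trans (natDegree_sub_le _ _) ?_
      rw [natDegree_one, natDegree_X]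
      simp
    omega
  rw [e, aeval_eq_sum_range' hdeg]
  intro f hf
  rw [ev_sum]
  refine le_trans (Finset.abs_sum_le_sum_abs _ _) ?_
  refine le_trans (Finset.sum_le_sum (g := fun l => |((coin (1 - q ^ 2)) ^ A * (1 - X)).coeff l|)
    (fun l _ => ?_)) (shift_l1 (by nlinarith) (by nlinarith) A)
  rw [ev_smul, abs_mul]
  have := prob_ev_abs_le (hν.pow l) hf
  have h2 := abs_nonneg (((coin (1 - q ^ 2)) ^ A * (1 - X)).coeff l)
  nlinarith

theorem pure_TV {ν : MA G} (hν : Prob ν) {q : ℝ} (h0 : 0 < q) (h1 : q ≤ 1 / 16) (A k a b : ℕ) :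
    TVle (((a : ℝ) + b) * tauA q A) (bg ν q (A + a) (k + b) - bg ν q A k) := by
  have hA : ∀ a : ℕ, TVle ((a : ℝ) * tauA q A) (bg ν q (A + a) k - bg ν q A k) := by
    intro a
    induction a with
    | zero => simpa using (tv_zero (G := G))
    | succ a ih =>
      have e : bg ν q (A + (a + 1)) k - bg ν q A k =
          (-(1 - q ^ 2)) • (gg ν q ^ (A + a) * (1 - ν) * ee ν q ^ k) + (bg ν q (A + a) k - bg ν q A k) := by
        have : gg ν q - 1 = (-(1 - q ^ 2)) • (1 - ν) := by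
          rw [gg_eq]
          module
        have h2 : bg ν q (A + (a + 1)) k - bg ν q (A + a) k = gg ν q ^ (A + a) * (gg ν q - 1) * ee ν q ^ k := by
          unfold bg
          rw [← add_assoc, pow_succ, mul_sub, sub_mul, mul_one]
        rw [this, mul_smul_comm, smul_mul_assoc] at h2
        rw [← h2]
        abel
      rw [e]
      have h3 : TVle (tauA q A) ((-(1 - q ^ 2)) • (gg ν q ^ (A + a) * (1 - ν) * ee ν q ^ k)) := by
        have h4 := tv_smul (c := -(1 - q ^ 2))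
          (tv_mul_prob (tv_mono (shift_TV hν h0 h1 (A + a)) (tauA_anti h0 h1 (Nat.le_add_right A a)))
          ((ee_prob hν h0.le (by linarith)).pow k))
        refine tv_mono h4 ?_
        rw [abs_neg, abs_of_nonneg (by nlinarith)]
        have : 0 ≤ tauA q A := by unfold tauA; positivity
        nlinarith
      refine tv_mono (tv_add h3 ih) (le_of_eq ?_)
      push_cast; ring
  have hB : ∀ b : ℕ, TVle ((b : ℝ) * tauA q A) (bg ν q (A + a) (k + b) - bg ν q (A + a) k) := by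
    intro b
    induction b with
    | zero => simpa using (tv_zero (G := G))
    | succ b ih =>
      have e : bg ν q (A + a) (k + (b + 1)) - bg ν q (A + a) k =
          (-(1 - q)) • (gg ν q ^ (A + a) * (1 - ν) * ee ν q ^ (k + b)) +
            (bg ν q (A + a) (k + b) - bg ν q (A + a) k) := by
        have : ee ν q - 1 = (-(1 - q)) • (1 - ν) := by
          rw [ee_eq]
          module
        have h2 : bg ν q (A + a) (k + (b + 1)) - bg ν q (A + a) (k + b) =
            gg ν q ^ (A + a) * (ee ν q - 1) * ee ν q ^ (k + b) := by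
          unfold bg
          rw [← add_assoc, pow_succ', mul_sub, sub_mul, mul_one, mul_assoc]
        rw [this, mul_smul_comm, smul_mul_assoc] at h2
        rw [← h2]
        abel
      rw [e]
      have h3 : TVle (tauA q A) ((-(1 - q)) • (gg ν q ^ (A + a) * (1 - ν) * ee ν q ^ (k + b))) := by
        have h4 := tv_smul (c := -(1 - q))
          (tv_mul_prob (tv_mono (shift_TV hν h0 h1 (A + a)) (tauA_anti h0 h1 (Nat.le_add_right A a)))
          ((ee_prob hν h0.le (by linarith)).pow (k + b)))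
        refine tv_mono h4 ?_
        rw [abs_neg, abs_of_nonneg (by linarith)]
        have : 0 ≤ tauA q A := by unfold tauA; positivity
        nlinarith
      refine tv_mono (tv_add h3 ih) (le_of_eq ?_)
      push_cast; ring
  have := tv_add (hB b) (hA a)
  rw [sub_add_sub_cancel] at this
  exact tv_mono this (le_of_eq (by ring))

end TV

end

end Crest.Agent.R300LB.Sl
end

-- ▼ part R300/LBSlipModel

/-!
# Row 300, lower bounds, piece L10 (base slip): the model with revealed number of symbols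
-/

set_option autoImplicit false

namespace Crest.Agent.R300LB.Sl

open Polynomial Finset

noncomputable section

/-- words together with a counter -/
abbrev HH := BW × Multiplicative ℕ

/-- a symbol (nonempty outcome) -/
def sym (w : List Bool) : HH := (FreeMonoid.ofList w, Multiplicative.ofAdd 1)

/-- law of a nonempty outcome of the block `01` -/
def nu (q : ℝ) : MA HH :=
  (q / (1 + q)) • MonoidAlgebra.single (sym [false]) 1 +
  (q / (1 + q)) • MonoidAlgebra.single (sym [true]) 1 +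
  ((1 - q) / (1 + q)) • MonoidAlgebra.single (sym [false, true]) 1

def zz : MA HH := MonoidAlgebra.single (sym [false]) 1

theorem ev_nu (q : ℝ) (f : HH → ℝ) : ev (nu q) f =
    (q / (1 + q)) * f (sym [false]) + (q / (1 + q)) * f (sym [true]) +
    ((1 - q) / (1 + q)) * f (sym [false, true]) := by
  unfold nu
  rw [ev_add, ev_add, ev_smul, ev_smul, ev_smul, ev_single, ev_single, ev_single]
  ring

theorem ev_zz (f : HH → ℝ) : ev zz f = f (sym [false]) := by
  unfold zz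
  rw [ev_single, one_mul]

theorem nu_prob {q : ℝ} (h0 : 0 < q) (h1 : q ≤ 1 / 16) : Prob (nu q) := by
  constructor
  · intro f hf
    rw [ev_nu]
    have a := hf (sym [false])
    have b := hf (sym [true])
    have c := hf (sym [false, true])
    have h2 : 0 ≤ q / (1 + q) := by positivity
    have h3 : 0 ≤ (1 - q) / (1 + q) := div_nonneg (by linarith) (by linarith)
    positivity
  · unfold mass
    rw [ev_nu]
    field_simp
    ring

theorem zz_prob : Prob zz := by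
  constructor
  · intro f hf
    rw [ev_zz]; exact hf _
  · unfold mass
    rw [ev_zz]

theorem zz_dom {q : ℝ} (h0 : 0 < q) (h1 : q ≤ 1 / 16) : Dom (1 / q) (nu q) (zz - nu q) := by
  intro f
  rw [ev_sub, ev_nu, ev_nu, ev_zz]
  set x := f (sym [false])
  set y := f (sym [true])
  set w := f (sym [false, true])
  have h2 : 0 < 1 + q := by linarith
  have h3 : 0 ≤ 1 - q := by linarith
  have key : 1 / q * (q / (1 + q) * x ^ 2 + q / (1 + q) * y ^ 2 + (1 - q) / (1 + q) * w ^ 2) -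
      (x - (q / (1 + q) * x + q / (1 + q) * y + (1 - q) / (1 + q) * w)) ^ 2 =
      (q / (1 + q) * x + (1 - q / (1 + q)) * y) ^ 2 +
      ((1 - q) / q) * (q / (1 + q) * x + (1 - q / (1 + q)) * w) ^ 2 +
      (q / (1 + q)) * ((1 - q) / (1 + q)) * (w - y) ^ 2 := by
    field_simp
    ring
  have : 0 ≤ (q / (1 + q) * x + (1 - q / (1 + q)) * y) ^ 2 +
      ((1 - q) / q) * (q / (1 + q) * x + (1 - q / (1 + q)) * w) ^ 2 +
      (q / (1 + q)) * ((1 - q) / (1 + q)) * (w - y) ^ 2 := by positivity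
  linarith

theorem zz_mass {q : ℝ} (h0 : 0 < q) (h1 : q ≤ 1 / 16) : mass (zz - nu q) = 0 := by
  rw [mass_sub, zz_prob.one, (nu_prob h0 h1).one, sub_self]

/-- number of symbols -/
def cnt (w : HH) : ℕ := Multiplicative.toAdd w.2

theorem cnt_mul (u v : HH) : cnt (u * v) = cnt u + cnt v := by
  unfold cnt
  simp

theorem cnt_one : cnt (1 : HH) = 0 := by
  unfold cnt
  simp

theorem cnt_sym (w : List Bool) : cnt (sym w) = 1 := by
  unfold cnt sym
  simp

/-- exponential moment -/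
def em (y : ℝ) (X : MA HH) : ℝ := ev X (fun w => y ^ cnt w)

theorem em_mul (y : ℝ) (X Y : MA HH) : em y (X * Y) = em y X * em y Y := by
  unfold em
  rw [ev_mul]
  have : (fun u : HH => ev Y (fun v => y ^ cnt (u * v))) =
      fun u => ev Y (fun v => y ^ cnt v) * y ^ cnt u := by
    funext u
    have : (fun v : HH => y ^ cnt (u * v)) = fun v => y ^ cnt u * y ^ cnt v := by
      funext v; rw [cnt_mul, pow_add]
    rw [this, ev_mul_fun, mul_comm]
  rw [this, ev_mul_fun, mul_comm]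

theorem em_one (y : ℝ) : em y 1 = 1 := by
  unfold em; rw [ev_one, cnt_one, pow_zero]

theorem em_pow (y : ℝ) (X : MA HH) (k : ℕ) : em y (X ^ k) = em y X ^ k := by
  induction k with
  | zero => rw [pow_zero, pow_zero, em_one]
  | succ k ih => rw [pow_succ, em_mul, ih, pow_succ]

theorem em_nu {q : ℝ} (h0 : 0 < q) (y : ℝ) : em y (nu q) = y := by
  unfold em
  rw [ev_nu, cnt_sym, cnt_sym, cnt_sym]
  field_simp
  ring

theorem em_zz (y : ℝ) : em y zz = y := by
  unfold em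
  rw [ev_zz, cnt_sym, pow_one]

theorem em_smul (y c : ℝ) (X : MA HH) : em y (c • X) = c * em y X := ev_smul _ _ _
theorem em_add (y : ℝ) (X Y : MA HH) : em y (X + Y) = em y X + em y Y := ev_add _ _ _

theorem em_gg {q : ℝ} (h0 : 0 < q) (y : ℝ) : em y (gg (nu q) q) = (coin (1 - q ^ 2)).eval y := by
  rw [gg_eq, em_add, em_smul, em_smul, em_one, em_nu h0, coin_eval]; ring

theorem em_ee {q : ℝ} (h0 : 0 < q) (y : ℝ) : em y (ee (nu q) q) = (coin (1 - q)).eval y := by
  rw [ee_eq, em_add, em_smul, em_smul, em_one, em_nu h0, coin_eval]; ring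

theorem em_dd (q y : ℝ) : em y (dd zz q) = (coin (1 - q)).eval y := by
  rw [dd, em_add, em_smul, em_smul, em_one, em_zz, coin_eval]; ring

theorem em_bg {q : ℝ} (h0 : 0 < q) (y : ℝ) (A k : ℕ) :
    em y (bg (nu q) q A k) = (bgP q A k).eval y := by
  unfold bg bgP
  rw [em_mul, em_pow, em_pow, em_gg h0, em_ee h0, eval_mul, eval_pow, eval_pow]

theorem em_U {q : ℝ} (h0 : 0 < q) (y : ℝ) (n β k : ℕ) :
    em y (U (nu q) zz q n β k) = (bgP q (k * n + β) k).eval y := by
  induction k with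
  | zero =>
    unfold U bgP
    rw [em_pow, em_gg h0, zero_mul, zero_add, pow_zero, mul_one, eval_pow]
  | succ k ih =>
    rw [U, em_mul, em_mul, ih, em_pow, em_gg h0, em_dd]
    unfold bgP
    rw [eval_mul, eval_mul, eval_pow, eval_pow, eval_pow, eval_pow]
    rw [show (k + 1) * n + β = n + (k * n + β) by ring, pow_add, pow_succ]
    ring

/-- the array with `k+1` marks -/
def Arr (q : ℝ) (n α β k : ℕ) : MA HH := gg (nu q) q ^ α * dd zz q * U (nu q) zz q n β k

theorem em_Arr {q : ℝ} (h0 : 0 < q) (y : ℝ) (n α β k : ℕ) :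
    em y (Arr q n α β k) = (bgP q (α + k * n + β) (k + 1)).eval y := by
  unfold Arr
  rw [em_mul, em_mul, em_U h0, em_pow, em_gg h0, em_dd]
  unfold bgP
  rw [eval_mul, eval_mul, eval_pow, eval_pow, eval_pow, eval_pow]
  rw [show α + k * n + β = α + (k * n + β) by ring, pow_add, pow_succ]
  ring

theorem Arr_prob {q : ℝ} (h0 : 0 < q) (h1 : q ≤ 1 / 16) (n α β k : ℕ) : Prob (Arr q n α β k) := by
  have hν := nu_prob h0 h1
  exact (((gg_prob hν h0.le (by linarith)).pow α).mul (dd_prob zz_prob h0.le (by linarith))).mul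
    (U_prob hν zz_prob h0.le (by linarith) n β k)

/-- two sided tail bound for the counter -/
theorem tail_le {X : MA HH} (hX : Pos X) {θ μ v x : ℝ}
    (h1 : em (Real.exp θ) X ≤ Real.exp (θ * μ + v))
    (h2 : em (Real.exp (-θ)) X ≤ Real.exp (-θ * μ + v)) :
    ev X (fun w => if θ * x ≤ |θ * (cnt w - μ)| then 1 else 0) ≤ 2 * Real.exp (v - θ * x) := by
  have key : ∀ w : HH, (if θ * x ≤ |θ * ((cnt w : ℝ) - μ)| then (1 : ℝ) else 0) ≤
      Real.exp (-θ * μ - θ * x) * (Real.exp θ) ^ cnt w +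
      Real.exp (θ * μ - θ * x) * (Real.exp (-θ)) ^ cnt w := by
    intro w
    rw [← Real.exp_nat_mul, ← Real.exp_nat_mul, ← Real.exp_add, ← Real.exp_add]
    split_ifs with h
    · rcases le_total 0 (θ * ((cnt w : ℝ) - μ)) with h3 | h3
      · rw [abs_of_nonneg h3] at h
        have : 1 ≤ Real.exp (-θ * μ - θ * x + (cnt w : ℝ) * θ) := Real.one_le_exp (by linarith)
        have := Real.exp_pos (θ * μ - θ * x + (cnt w : ℝ) * -θ)
        linarith
      · rw [abs_of_nonpos h3] at h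
        have : 1 ≤ Real.exp (θ * μ - θ * x + (cnt w : ℝ) * -θ) := Real.one_le_exp (by linarith)
        have := Real.exp_pos (-θ * μ - θ * x + (cnt w : ℝ) * θ)
        linarith
    · positivity
  refine le_trans (hX.mono key) ?_
  rw [ev_add_fun, ev_mul_fun, ev_mul_fun]
  have a1 : Real.exp (-θ * μ - θ * x) * em (Real.exp θ) X ≤ Real.exp (v - θ * x) := by
    refine le_trans (mul_le_mul_of_nonneg_left h1 (Real.exp_pos _).le) ?_
    rw [← Real.exp_add]
    exact Real.exp_le_exp.mpr (by linarith)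
  have a2 : Real.exp (θ * μ - θ * x) * em (Real.exp (-θ)) X ≤ Real.exp (v - θ * x) := by
    refine le_trans (mul_le_mul_of_nonneg_left h2 (Real.exp_pos _).le) ?_
    rw [← Real.exp_add]
    exact Real.exp_le_exp.mpr (by linarith)
  unfold em at a1 a2
  linarith

/-- `X` is homogeneous of degree `k` -/
def Hom (k : ℕ) (X : MA HH) : Prop :=
  ∀ (φ : ℕ → ℝ) (h : HH → ℝ), ev X (fun w => φ (cnt w) * h w) = φ k * ev X h

theorem Hom.one : Hom 0 1 := by
  intro φ h
  rw [ev_one, ev_one, cnt_one]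

theorem Hom.nu (q : ℝ) : Hom 1 (nu q) := by
  intro φ h
  rw [ev_nu, ev_nu, cnt_sym, cnt_sym, cnt_sym]
  ring

theorem Hom.mul {a b : ℕ} {X Y : MA HH} (hX : Hom a X) (hY : Hom b Y) : Hom (a + b) (X * Y) := by
  intro φ h
  rw [ev_mul, ev_mul]
  have : (fun u : HH => ev Y (fun v => φ (cnt (u * v)) * h (u * v))) =
      fun u => φ (cnt u + b) * ev Y (fun v => h (u * v)) := by
    funext u
    rw [← hY (fun m => φ (cnt u + m)) (fun v => h (u * v))]
    refine ev_congr _ (fun v => ?_)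
    rw [cnt_mul]
  rw [this]
  exact hX (fun m => φ (m + b)) (fun u => ev Y (fun v => h (u * v)))

theorem Hom.pow (q : ℝ) (k : ℕ) : Hom k ((Sl.nu q) ^ k) := by
  induction k with
  | zero => rw [pow_zero]; exact Hom.one
  | succ k ih => rw [pow_succ]; exact ih.mul (Hom.nu q)

/-- number of integers in a window -/
theorem window_card (μ x : ℝ) (hx : 0 ≤ x) (T : ℕ) :
    ∑ k ∈ range T, (if |(k : ℝ) - μ| < x then (1 : ℝ) else 0) ≤ 2 * x + 1 := by
  rw [← Finset.sum_filter, Finset.sum_const, nsmul_eq_mul, mul_one]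
  set S := (range T).filter (fun k : ℕ => |(k : ℝ) - μ| < x) with hS
  rcases S.eq_empty_or_nonempty with h | h
  · rw [h]; simp; linarith
  · set a := S.min' h
    set b := S.max' h
    have ha : a ∈ S := S.min'_mem h
    have hb : b ∈ S := S.max'_mem h
    have hsub : S ⊆ Finset.Icc a b := by
      intro k hk
      rw [Finset.mem_Icc]
      exact ⟨S.min'_le k hk, S.le_max' k hk⟩
    have hcard := Finset.card_le_card hsub
    rw [Nat.card_Icc] at hcard
    have hab : a ≤ b := S.min'_le b hb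
    have ha' : |(a : ℝ) - μ| < x := (Finset.mem_filter.mp ha).2
    have hb' : |(b : ℝ) - μ| < x := (Finset.mem_filter.mp hb).2
    have h1 := (abs_lt.mp ha').1
    have h2 := (abs_lt.mp hb').2
    have h3 : (S.card : ℝ) ≤ (b : ℝ) + 1 - a := by
      have : S.card + a ≤ b + 1 := by omega
      have : (S.card : ℝ) + a ≤ b + 1 := by exact_mod_cast this
      linarith
    linarith

theorem ev_Ref_window {q : ℝ} (h0 : 0 < q) (h1 : q ≤ 1 / 16) (μ x : ℝ) (hx : 0 ≤ x) (T : ℕ) :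
    ev (Ref (nu q) T) (fun w => if |(cnt w : ℝ) - μ| < x then 1 else 0) ≤ 2 * x + 1 := by
  unfold Ref
  rw [ev_sum]
  refine le_trans (le_of_eq (Finset.sum_congr rfl (fun k _ => ?_))) (window_card μ x hx T)
  have := Hom.pow q k (fun m => if |(m : ℝ) - μ| < x then 1 else 0) (fun _ => 1)
  simp only [mul_one] at this
  rw [this]
  have h2 := ((nu_prob h0 h1).pow k).one
  unfold mass at h2
  rw [h2, mul_one]

set_option maxHeartbeats 1600000 in
/-- **local estimate**: the array is `ℓ¹`-close to the pure background -/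
theorem local_TV {q : ℝ} (h0 : 0 < q) (h1 : q ≤ 1 / 16) {n k : ℕ} (hn : 1 ≤ n)
    (hk : ((k : ℝ) + 2) * 10 ^ 15 ≤ q ^ 4 * n) {α β : ℕ} (hα : n ≤ 16 * α) (hα' : α ≤ n)
    (hβ : n ≤ 16 * β) (hβ' : β ≤ n) :
    TVle (1 / 8) (Arr q n α β k - bg (nu q) q (α + k * n + β) (k + 1)) := by
  have hn' : (0 : ℝ) < n := by exact_mod_cast hn
  have hν := nu_prob h0 h1
  obtain ⟨T, hdom⟩ := array_final hν h0 h1 (zz_dom h0 h1) (zz_mass h0 h1) hn
    (show ((k : ℝ) + 2) * 10 ^ 7 ≤ q ^ 4 * n by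
      refine le_trans ?_ hk
      have : (0 : ℝ) ≤ k + 2 := by positivity
      nlinarith) hα hα' hβ hβ'
  change Dom _ _ (Arr q n α β k - bg (nu q) q (α + k * n + β) (k + 1)) at hdom
  set A : ℕ := α + k * n + β with hA
  set W := Arr q n α β k with hW
  set P := bg (nu q) q A (k + 1) with hP
  have hWp : Prob W := Arr_prob h0 h1 n α β k
  have hPp : Prob P := bg_prob hν h0.le (by linarith) A (k + 1)
  -- scales
  have hk0 : (0 : ℝ) ≤ k := Nat.cast_nonneg k
  have hq4 : q ^ 4 ≤ q := by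
    have h3 : q ^ 3 ≤ 1 := by
      have : q ^ 3 ≤ 1 ^ 3 := pow_le_pow_left₀ h0.le (by linarith) 3
      simpa using this
    calc q ^ 4 = q ^ 3 * q := by ring
      _ ≤ 1 * q := mul_le_mul_of_nonneg_right h3 h0.le
      _ = q := one_mul q
  have hqn : 1 ≤ q * n := by
    have : q ^ 4 * n ≤ q * n := mul_le_mul_of_nonneg_right hq4 hn'.le
    nlinarith
  have hqn2 : 1 ≤ q ^ 2 * n := by
    have h3 : q ^ 4 ≤ q ^ 2 := by nlinarith [sq_nonneg q, sq_nonneg (q * (1 - q))]
    have : q ^ 4 * n ≤ q ^ 2 * n := mul_le_mul_of_nonneg_right h3 hn'.le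
    nlinarith
  set σ : ℝ := Real.sqrt (2 * ((k : ℝ) + 2) * n * q ^ 2) with hσ
  have hσ2 : σ ^ 2 = 2 * ((k : ℝ) + 2) * n * q ^ 2 := Real.sq_sqrt (by positivity)
  have hσ1 : 1 ≤ σ := by
    rw [hσ]
    apply Real.le_sqrt_of_sq_le
    nlinarith
  have hσpos : 0 < σ := by linarith
  set θ : ℝ := 1 / σ with hθ
  have hθpos : 0 < θ := by positivity
  have hθ1 : |θ| ≤ 1 := by
    rw [abs_of_pos hθpos, hθ, div_le_one hσpos]; exact hσ1
  set μ : ℝ := (A : ℝ) * (1 - q ^ 2) + ((k + 1 : ℕ) : ℝ) * (1 - q) with hμ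
  have hvar : θ ^ 2 * ((A : ℝ) * q ^ 2 + ((k + 1 : ℕ) : ℝ) * q) ≤ 1 := by
    rw [hθ, div_pow, one_pow, div_mul_eq_mul_div, one_mul, div_le_one (by positivity), hσ2]
    have hAr : (A : ℝ) ≤ ((k : ℝ) + 2) * n := by
      rw [hA]
      have a1 : (α : ℝ) ≤ n := by exact_mod_cast hα'
      have a2 : (β : ℝ) ≤ n := by exact_mod_cast hβ'
      push_cast
      nlinarith
    push_cast
    have e1 : (A : ℝ) * q ^ 2 ≤ ((k : ℝ) + 2) * n * q ^ 2 := mul_le_mul_of_nonneg_right hAr (sq_nonneg q)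
    have e2 : ((k : ℝ) + 1) * q ≤ ((k : ℝ) + 2) * n * q ^ 2 := by
      have : ((k : ℝ) + 1) * q * 1 ≤ ((k : ℝ) + 2) * q * (q * n) :=
        mul_le_mul (by nlinarith) hqn zero_le_one (by positivity)
      nlinarith
    linarith
  set x : ℝ := 8 * σ with hx
  have hθx : θ * x = 8 := by rw [hθ, hx]; field_simp
  -- tails
  have hiff : ∀ w : HH, (θ * x ≤ |θ * ((cnt w : ℝ) - μ)|) ↔ ¬ (|(cnt w : ℝ) - μ| < x) := by
    intro w
    rw [abs_mul, abs_of_pos hθpos, not_lt]
    exact mul_le_mul_iff_of_pos_left hθpos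
  have tailW := tail_le hWp.pos (θ := θ) (μ := μ) (v := 1) (x := x)
    (by rw [em_Arr h0]; exact bgP_exp h0 h1 hθ1 A (k + 1) hvar)
    (by
      rw [em_Arr h0]
      refine le_trans (bgP_exp (θ := -θ) (v := 1) h0 h1 (by rwa [abs_neg]) A (k + 1)
        (by rw [neg_sq]; exact hvar)) (le_of_eq rfl))
  have tailP := tail_le hPp.pos (θ := θ) (μ := μ) (v := 1) (x := x)
    (by rw [em_bg h0]; exact bgP_exp h0 h1 hθ1 A (k + 1) hvar)
    (by
      rw [em_bg h0]
      refine le_trans (bgP_exp (θ := -θ) (v := 1) h0 h1 (by rwa [abs_neg]) A (k + 1)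
        (by rw [neg_sq]; exact hvar)) (le_of_eq rfl))
  rw [hθx] at tailW tailP
  have he7 : Real.exp (1 - 8) ≤ 1 / 1000 := by
    have h7 : Real.exp (1 - 8) = (Real.exp 1 ^ 7)⁻¹ := by
      rw [← Real.exp_nat_mul, ← Real.exp_neg]; norm_num
    rw [h7, inv_le_comm₀ (by positivity) (by norm_num)]
    have : (2.7 : ℝ) ≤ Real.exp 1 := by
      have := Real.exp_one_gt_d9
      linarith
    calc (1 / 1000 : ℝ)⁻¹ ≤ 2.7 ^ 7 := by norm_num
      _ ≤ Real.exp 1 ^ 7 := pow_le_pow_left₀ (by norm_num) this 7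
  set g8 : HH → ℝ := fun w => if (8 : ℝ) ≤ |θ * ((cnt w : ℝ) - μ)| then (1 : ℝ) else 0 with hg8
  have tailW' : ev W g8 ≤ 1 / 500 := le_trans tailW (by linarith)
  have tailP' : ev P g8 ≤ 1 / 500 := le_trans tailP (by linarith)
  clear tailW tailP
  intro f hf
  -- split
  set ind : HH → ℝ := fun w => if |(cnt w : ℝ) - μ| < x then 1 else 0 with hind
  have hsplit : ev (W - P) f = ev (W - P) (fun w => f w * ind w) +
      ev (W - P) (fun w => f w * (1 - ind w)) := by
    rw [← ev_add_fun]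
    exact ev_congr _ (fun w => by ring)
  have hind01 : ∀ w, ind w = 0 ∨ ind w = 1 := by
    intro w
    simp only [hind]
    split_ifs
    · exact Or.inr rfl
    · exact Or.inl rfl
  -- main part
  have m1 : (ev (W - P) (fun w => f w * ind w)) ^ 2 ≤ 13100 / (q ^ 3 * n) * (2 * x + 1) := by
    refine le_trans (hdom _) ?_
    refine mul_le_mul_of_nonneg_left ?_ (by positivity)
    refine le_trans ((Ref_pos hν T).mono (g := ind) (fun w => ?_))
      (ev_Ref_window h0 h1 μ x (by positivity) T)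
    have hfw : f w ^ 2 ≤ 1 := by
      have := abs_le.mp (hf w)
      nlinarith
    rcases hind01 w with h | h
    · rw [h]; simp
    · rw [h]; simpa using hfw
  have m2 : 13100 / (q ^ 3 * n) * (2 * x + 1) ≤ (1 / 10) ^ 2 := by
    have e1 : 2 * x + 1 ≤ 17 * σ := by rw [hx]; linarith
    have e2 : 13100 / (q ^ 3 * n) * (2 * x + 1) ≤ 13100 / (q ^ 3 * n) * (17 * σ) :=
      mul_le_mul_of_nonneg_left e1 (by positivity)
    refine le_trans e2 ?_
    have e3 : σ ≤ q ^ 3 * n / 22360000 := by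
      rw [hσ]
      apply Real.sqrt_le_iff.mpr
      refine ⟨by positivity, ?_⟩
      rw [div_pow, le_div_iff₀ (by positivity)]
      have h6 : 0 ≤ ((k : ℝ) + 2) * n * q ^ 2 := by positivity
      have h8 : 2 * ((k : ℝ) + 2) * n * q ^ 2 * 22360000 ^ 2 ≤ (((k : ℝ) + 2) * 10 ^ 15) * (n * q ^ 2) := by
        have e6 : 2 * ((k : ℝ) + 2) * n * q ^ 2 * 22360000 ^ 2 =
          (((k : ℝ) + 2) * n * q ^ 2) * (2 * 22360000 ^ 2) := by ring
        have e7 : (((k : ℝ) + 2) * 10 ^ 15) * (n * q ^ 2) = (((k : ℝ) + 2) * n * q ^ 2) * 10 ^ 15 := by ring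
        rw [e6, e7]
        exact mul_le_mul_of_nonneg_left (by norm_num) h6
      refine le_trans h8 ?_
      have h7 : (((k : ℝ) + 2) * 10 ^ 15) * (n * q ^ 2) ≤ (q ^ 4 * n) * (n * q ^ 2) :=
        mul_le_mul_of_nonneg_right hk (by positivity)
      refine le_trans h7 (le_of_eq (by ring))
    have e4 : 13100 / (q ^ 3 * n) * (17 * σ) ≤ 13100 / (q ^ 3 * n) * (17 * (q ^ 3 * n / 22360000)) := by
      refine mul_le_mul_of_nonneg_left (by linarith) (by positivity)
    refine le_trans e4 ?_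
    have e5 : 13100 / (q ^ 3 * n) * (17 * (q ^ 3 * n / 22360000)) = 13100 * 17 / 22360000 := by
      field_simp
    rw [e5]
    norm_num
  have m3 : |ev (W - P) (fun w => f w * ind w)| ≤ 1 / 10 :=
    abs_le_of_sq_le_sq (le_trans m1 m2) (by norm_num)
  -- tail part
  have t1 : ∀ {X : MA HH}, Pos X → ev X g8 ≤ 1 / 500 →
      |ev X (fun w => f w * (1 - ind w))| ≤ 1 / 500 := by
    intro X hX ht
    have hle : ∀ w : HH, |f w * (1 - ind w)| ≤ g8 w := by
      intro w
      rw [hg8]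
      show _ ≤ (if (8 : ℝ) ≤ |θ * ((cnt w : ℝ) - μ)| then (1 : ℝ) else 0)
      have hi := hiff w
      rw [hθx] at hi
      by_cases h : |(cnt w : ℝ) - μ| < x
      · have : ind w = 1 := by simp only [hind]; rw [if_pos h]
        rw [this, sub_self, mul_zero, abs_zero]
        split_ifs <;> norm_num
      · have h2 : ind w = 0 := by simp only [hind]; rw [if_neg h]
        rw [h2, sub_zero, mul_one, if_pos (hi.mpr h)]
        exact hf w
    have a1 := hX.mono (f := fun w => f w * (1 - ind w)) (g := g8)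
      (fun w => le_trans (le_abs_self _) (hle w))
    have a2 := hX.mono (f := fun w => (-1) * g8 w)
      (g := fun w => f w * (1 - ind w)) (fun w => by
        have := neg_abs_le (f w * (1 - ind w))
        have := hle w
        linarith)
    rw [ev_mul_fun] at a2
    rw [abs_le]
    constructor <;> linarith
  have t2 := t1 hWp.pos tailW'
  have t3 := t1 hPp.pos tailP'
  rw [hsplit, ev_sub W P (fun w => f w * (1 - ind w))]
  have := abs_add_le (ev (W - P) (fun w => f w * ind w))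
    (ev W (fun w => f w * (1 - ind w)) - ev P (fun w => f w * (1 - ind w)))
  have := abs_sub (ev W (fun w => f w * (1 - ind w))) (ev P (fun w => f w * (1 - ind w)))
  linarith

end

end Crest.Agent.R300LB.Sl
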