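import Crest.Agent.R300.LBPlan

/-!
# Row 300, lower bounds, piece E7 part B: the real inequalities
-/

set_option autoImplicit false

namespace Crest.Agent.R300LB

open Finset

noncomputable section

namespace Stp

open Real

theorem exists_two_pow {K : ℕ} (hK : 1 ≤ K) : ∃ l : ℕ, K ≤ 2 ^ l ∧ (2 : ℝ) ^ l ≤ 2 * K := by
  classical
  have hex : ∃ l : ℕ, K ≤ 2 ^ l := ⟨K, (Nat.lt_two_pow_self).le⟩
  refine ⟨Nat.find hex, Nat.find_spec hex, ?_⟩
  rcases h : Nat.find hex with _ | l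
  · have : (1 : ℝ) ≤ K := by exact_mod_cast hK
    simp; linarith
  · have h1 : ¬ K ≤ 2 ^ l := Nat.find_min hex (by omega)
    push Not at h1
    have h2 : ((2 ^ l : ℕ) : ℝ) < K := by exact_mod_cast h1
    push_cast at h2
    rw [pow_succ]; linarith

theorem l_bound {l : ℕ} {α : ℝ} (h : (2 : ℝ) ^ l ≤ exp α) : (l : ℝ) ≤ 3 / 2 * α := by
  have h1 : (l : ℝ) * log 2 ≤ α := by
    have h2 := log_le_log (by positivity) h
    rwa [log_exp, log_pow] at h2
  have h3 : (0.69 : ℝ) ≤ log 2 := by have := log_two_gt_d9; linarith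
  have h4 : (0 : ℝ) ≤ l := Nat.cast_nonneg l
  have h5 : (l : ℝ) * 0.69 ≤ l * log 2 := mul_le_mul_of_nonneg_left h3 h4
  linarith

theorem drift_cond {l : ℕ} {α L w σ : ℝ} (hl : (2 : ℝ) ^ l ≤ exp α) (hα : α ≤ 3 * L) (hL : 1 ≤ L)
    (hLe : L ≤ exp w) (hw : 500 ≤ exp w) (hσ : σ ≤ exp (-(3 * w))) :
    16 * ((l : ℝ) + 1) ^ 2 * σ ≤ 1 := by
  have h1 := l_bound hl
  have h2 : (l : ℝ) + 1 ≤ 11 / 2 * L := by linarith
  have h3 : ((l : ℝ) + 1) ^ 2 ≤ (11 / 2 * L) ^ 2 := pow_le_pow_left₀ (by positivity) h2 2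
  have h4 : 16 * ((l : ℝ) + 1) ^ 2 ≤ exp (3 * w) := by
    calc 16 * ((l : ℝ) + 1) ^ 2 ≤ 16 * (11 / 2 * L) ^ 2 := by linarith
      _ = 484 * L ^ 2 := by ring
      _ ≤ 500 * L ^ 2 := by nlinarith [sq_nonneg L]
      _ ≤ exp w * (exp w) ^ 2 := by
          refine mul_le_mul hw (pow_le_pow_left₀ (by linarith) hLe 2) (by positivity) (by positivity)
      _ = exp (3 * w) := by
          rw [← exp_nat_mul, ← exp_add]; congr 1; push_cast; ring
  calc 16 * ((l : ℝ) + 1) ^ 2 * σ ≤ 16 * ((l : ℝ) + 1) ^ 2 * exp (-(3 * w)) :=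
        mul_le_mul_of_nonneg_left hσ (by positivity)
    _ ≤ exp (3 * w) * exp (-(3 * w)) := mul_le_mul_of_nonneg_right h4 (by positivity)
    _ = 1 := by rw [← exp_add]; simp


theorem sigma_bound {N0 m l : ℕ} {VZ α w L X : ℝ} (hN0 : (N0 : ℝ) ≤ exp w) (hVZ0 : 0 ≤ VZ)
    (hVZ : VZ ≤ exp (2 * w - X)) (hw : 1000 ≤ exp w) (hl : (2 : ℝ) ^ l ≤ exp α)
    (hm : exp L ≤ 2 * m + N0) :
    sigmaB N0 m l VZ 1 ≤ exp (4 * w - X) * (exp (α - L) + exp (α / 2)) := by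
  unfold sigmaB
  have h1 : 1000 * (N0 : ℝ) * VZ ≤ exp (4 * w - X) := by
    calc 1000 * (N0 : ℝ) * VZ ≤ exp w * exp w * exp (2 * w - X) := by
          refine mul_le_mul ?_ hVZ hVZ0 (by positivity)
          exact mul_le_mul hw hN0 (by positivity) (by positivity)
      _ = exp (4 * w - X) := by rw [← exp_add, ← exp_add]; congr 1; ring
  have h2 : (2 : ℝ) ^ l / (2 * m + N0) ≤ exp (α - L) := by
    rw [exp_sub]
    exact div_le_div₀ (by positivity) hl (by positivity) hm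
  have h3 : 1 * √((2 : ℝ) ^ l) ≤ exp (α / 2) := by
    rw [one_mul, exp_half]
    exact sqrt_le_sqrt hl
  exact mul_le_mul h1 (add_le_add h2 h3) (by positivity) (by positivity)

/-- the norm of the pair step -/
theorem xtb_bound {S n k : ℕ} {η pW θ χ L w X Y Z : ℝ} (hw0 : 0 ≤ w) (hw : 100 ≤ exp w)
    (hpW0 : 0 ≤ pW) (hpW : pW ≤ exp (5 * w - Y)) (hθ : θ ≤ exp (-(19 * Y)))
    (hχ : χ ≤ exp (2 * Z - X + 7 * w)) (hS : (S : ℝ) ≤ exp (4 * Z)) (hn : exp L ≤ n)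
    (hη : exp (2 * Z - w) ≤ η * √(k + 1)) (hZL : 2 * Z ≤ L) (hZX : 8 * Z ≤ X) (hLY : 27 / 10 * L ≤ Y)
    (hLw : 27000 * w ≤ L) :
    XTB S n k η pW θ χ ≤ exp (-Y - Z + 12 * w) := by
  unfold XTB
  have hY0 : 0 ≤ Y := by linarith
  have hsS : √(S : ℝ) ≤ exp (2 * Z) := by
    have : exp (2 * Z) = √(exp (4 * Z)) := by rw [← exp_half]; congr 1; ring
    rw [this]; exact sqrt_le_sqrt hS
  have hsθ : √θ ≤ exp (-(19 / 2 * Y)) := by
    have : exp (-(19 / 2 * Y)) = √(exp (-(19 * Y))) := by rw [← exp_half]; congr 1; ring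
    rw [this]; exact sqrt_le_sqrt hθ
  have hspW : √pW ≤ exp ((5 * w - Y) / 2) := by
    rw [exp_half]; exact sqrt_le_sqrt hpW
  have hsχ : √χ ≤ exp (Z - X / 2 + 7 / 2 * w) := by
    have : exp (Z - X / 2 + 7 / 2 * w) = √(exp (2 * Z - X + 7 * w)) := by
      rw [← exp_half]; congr 1; ring
    rw [this]; exact sqrt_le_sqrt hχ
  have hsθ' : √θ ≤ exp ((5 * w - Y) / 2) := hsθ.trans (exp_le_exp.mpr (by linarith))
  -- term 1
  have t1 : √5 * pW * √(1 / n + 2 / (η * √(k + 1))) ≤ exp (7 * w - Y - Z) := by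
    have a1 : (1 : ℝ) / n ≤ exp (-(2 * Z) + w) := by
      have h1 : (1 : ℝ) / n ≤ 1 / exp L := one_div_le_one_div_of_le (exp_pos _) hn
      rw [one_div (exp L), ← exp_neg] at h1
      exact h1.trans (exp_le_exp.mpr (by linarith))
    have a2 : (2 : ℝ) / (η * √(k + 1)) ≤ 2 * exp (-(2 * Z) + w) := by
      have h1 : (2 : ℝ) / (η * √(k + 1)) ≤ 2 / exp (2 * Z - w) :=
        div_le_div_of_nonneg_left (by norm_num) (exp_pos _) hη
      have h2 : (2 : ℝ) / exp (2 * Z - w) = 2 * exp (-(2 * Z) + w) := by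
        rw [div_eq_mul_inv, ← exp_neg]; congr 2; ring
      rwa [h2] at h1
    have a3 : √(1 / (n : ℝ) + 2 / (η * √(k + 1))) ≤ exp (-Z + w) := by
      have e1 : exp (-Z + w) = √(exp (-(2 * Z) + 2 * w)) := by rw [← exp_half]; congr 1; ring
      rw [e1]
      refine sqrt_le_sqrt ?_
      calc (1 : ℝ) / n + 2 / (η * √(k + 1)) ≤ 3 * exp (-(2 * Z) + w) := by linarith
        _ ≤ exp w * exp (-(2 * Z) + w) :=
            mul_le_mul_of_nonneg_right (by linarith) (by positivity)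
        _ = exp (-(2 * Z) + 2 * w) := by rw [← exp_add]; congr 1; ring
    have a4 : √5 ≤ exp w := by
      have : √(5 : ℝ) ≤ 3 := by
        rw [sqrt_le_left (by norm_num)]; norm_num
      linarith
    calc √5 * pW * √(1 / n + 2 / (η * √(k + 1)))
        ≤ exp w * exp (5 * w - Y) * exp (-Z + w) := by
          refine mul_le_mul ?_ a3 (by positivity) (by positivity)
          exact mul_le_mul a4 hpW hpW0 (by positivity)
      _ = exp (7 * w - Y - Z) := by rw [← exp_add, ← exp_add]; congr 1; ring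
  -- term 2
  have t2 : √(S : ℝ) * √θ * (2 * √pW + √θ) ≤ exp (-Y - Z) := by
    have b1 : 2 * √pW + √θ ≤ exp w := by
      have h1 : exp ((5 * w - Y) / 2) ≤ 1 := by
        rw [exp_le_one_iff]; linarith
      linarith
    calc √(S : ℝ) * √θ * (2 * √pW + √θ) ≤ exp (2 * Z) * exp (-(19 / 2 * Y)) * exp w := by
          refine mul_le_mul ?_ b1 (by positivity) (by positivity)
          exact mul_le_mul hsS hsθ (by positivity) (by positivity)
      _ = exp (2 * Z - 19 / 2 * Y + w) := by rw [← exp_add, ← exp_add]; congr 1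
      _ ≤ exp (-Y - Z) := exp_le_exp.mpr (by linarith)
  -- term 3
  have t3 : 7 * √(S : ℝ) * (√pW + √θ) ^ 2 * √χ ≤ exp (-Y - Z + 10 * w) := by
    have c1 : (√pW + √θ) ^ 2 ≤ 4 * exp (5 * w - Y) := by
      have h1 : √pW + √θ ≤ 2 * exp ((5 * w - Y) / 2) := by linarith
      calc (√pW + √θ) ^ 2 ≤ (2 * exp ((5 * w - Y) / 2)) ^ 2 :=
            pow_le_pow_left₀ (by positivity) h1 2
        _ = 4 * exp (5 * w - Y) := by
            rw [mul_pow, ← exp_nat_mul]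
            have : ((2 : ℕ) : ℝ) * ((5 * w - Y) / 2) = 5 * w - Y := by push_cast; ring
            rw [this]; norm_num
    calc 7 * √(S : ℝ) * (√pW + √θ) ^ 2 * √χ
        ≤ 7 * exp (2 * Z) * (4 * exp (5 * w - Y)) * exp (Z - X / 2 + 7 / 2 * w) := by
          refine mul_le_mul ?_ hsχ (by positivity) (by positivity)
          refine mul_le_mul ?_ c1 (by positivity) (by positivity)
          exact mul_le_mul_of_nonneg_left hsS (by norm_num)
      _ = 28 * exp (3 * Z - X / 2 - Y + 17 / 2 * w) := by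
          have : 7 * exp (2 * Z) * (4 * exp (5 * w - Y)) * exp (Z - X / 2 + 7 / 2 * w)
            = 28 * (exp (2 * Z) * exp (5 * w - Y) * exp (Z - X / 2 + 7 / 2 * w)) := by ring
          rw [this, ← exp_add, ← exp_add]; congr 2; ring
      _ ≤ exp w * exp (3 * Z - X / 2 - Y + 17 / 2 * w) :=
          mul_le_mul_of_nonneg_right (by linarith) (by positivity)
      _ = exp (3 * Z - X / 2 - Y + 19 / 2 * w) := by rw [← exp_add]; congr 1; ring
      _ ≤ exp (-Y - Z + 10 * w) := exp_le_exp.mpr (by linarith)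
  have s1 : exp (7 * w - Y - Z) ≤ exp (-Y - Z + 10 * w) := exp_le_exp.mpr (by linarith)
  have s2 : exp (-Y - Z) ≤ exp (-Y - Z + 10 * w) := exp_le_exp.mpr (by linarith)
  calc √5 * pW * √(1 / n + 2 / (η * √(k + 1))) + √(S : ℝ) * √θ * (2 * √pW + √θ) +
        7 * √(S : ℝ) * (√pW + √θ) ^ 2 * √χ ≤ 3 * exp (-Y - Z + 10 * w) := by linarith
    _ ≤ exp w * exp (-Y - Z + 10 * w) := mul_le_mul_of_nonneg_right (by linarith) (by positivity)
    _ = exp (-Y - Z + 11 * w) := by rw [← exp_add]; congr 1; ring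
    _ ≤ exp (-Y - Z + 12 * w) := exp_le_exp.mpr (by linarith)

/-- the constant of the new pair family -/
theorem pair_bound {S n k : ℕ} {η pW θ χ u' e0 L w X Y Z : ℝ} (hw0 : 0 ≤ w) (hw : 100 ≤ exp w)
    (hpW0 : 0 ≤ pW) (hpW : pW ≤ exp (5 * w - Y)) (hθ : θ ≤ exp (-(19 * Y)))
    (hχ : χ ≤ exp (2 * Z - X + 7 * w)) (hS : (S : ℝ) ≤ exp (4 * Z)) (hn : exp L ≤ n)
    (hη : exp (2 * Z - w) ≤ η * √(k + 1)) (hη0 : 0 ≤ η) (hZL : 2 * Z ≤ L) (hZX : 8 * Z ≤ X)
    (hLY : 27 / 10 * L ≤ Y)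
    (hLw : 27000 * w ≤ L) (hu0 : 0 ≤ u') (hu1 : u' ≤ 1) (he0 : 0 ≤ e0)
    (he1 : e0 ≤ exp (-(12 * Y))) :
    5 * (√2 * XTB S n k η pW θ χ + √S * u' ^ 2 * e0) ^ 2 ≤ exp (-(2 * Y) - 2 * Z + 27 * w) := by
  have h1 := xtb_bound hw0 hw hpW0 hpW hθ hχ hS hn hη hZL hZX hLY hLw
  have hx0 : 0 ≤ XTB S n k η pW θ χ := by unfold XTB; positivity
  have hs2 : √(2 : ℝ) ≤ 2 := by rw [sqrt_le_left (by norm_num)]; norm_num
  have a1 : √2 * XTB S n k η pW θ χ ≤ exp (-Y - Z + 13 * w) := by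
    calc √2 * XTB S n k η pW θ χ ≤ exp w * exp (-Y - Z + 12 * w) :=
          mul_le_mul (by linarith) h1 hx0 (by positivity)
      _ = exp (-Y - Z + 13 * w) := by rw [← exp_add]; congr 1; ring
  have hsS : √(S : ℝ) ≤ exp (2 * Z) := by
    have : exp (2 * Z) = √(exp (4 * Z)) := by rw [← exp_half]; congr 1; ring
    rw [this]; exact sqrt_le_sqrt hS
  have a2 : √(S : ℝ) * u' ^ 2 * e0 ≤ exp (-Y - Z + 13 * w) := by
    calc √(S : ℝ) * u' ^ 2 * e0 ≤ exp (2 * Z) * 1 * exp (-(12 * Y)) := by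
          refine mul_le_mul ?_ he1 he0 (by positivity)
          exact mul_le_mul hsS (pow_le_one₀ hu0 hu1) (by positivity) (by positivity)
      _ = exp (2 * Z - 12 * Y) := by rw [mul_one, ← exp_add]; congr 1
      _ ≤ exp (-Y - Z + 13 * w) := exp_le_exp.mpr (by linarith)
  have h0 : 0 ≤ √2 * XTB S n k η pW θ χ + √S * u' ^ 2 * e0 := by positivity
  calc 5 * (√2 * XTB S n k η pW θ χ + √S * u' ^ 2 * e0) ^ 2
      ≤ 5 * (2 * exp (-Y - Z + 13 * w)) ^ 2 := by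
        refine mul_le_mul_of_nonneg_left (pow_le_pow_left₀ h0 (by linarith) 2) (by norm_num)
    _ = 20 * exp (2 * (-Y - Z + 13 * w)) := by
        rw [mul_pow, ← exp_nat_mul]; push_cast; ring
    _ ≤ exp w * exp (2 * (-Y - Z + 13 * w)) :=
        mul_le_mul_of_nonneg_right (by linarith) (by positivity)
    _ = exp (-(2 * Y) - 2 * Z + 27 * w) := by rw [← exp_add]; congr 1; ring

/-- the constant of the linear part -/
theorem theta_bound {r m R : ℕ} {η c P L w : ℝ} (hr : 1 ≤ r) (hw4 : 4 ≤ exp w)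
    (hN : (2 : ℝ) ^ r ≤ exp w) (hη0 : 0 < η) (hR : ((R : ℝ) + 1) ≤ exp L * η ^ 2)
    (hm : exp (L + 500 * w) ≤ m) (hcL : 0 ≤ c * L) (hwr : P * L / 25 ≤ w * r) :
    0 ≤ (2 ^ r * 4 * r * ((R : ℝ) + 1) / (η ^ 2 * m)) ^ r * exp (-(c * L)) ∧
      (2 ^ r * 4 * r * ((R : ℝ) + 1) / (η ^ 2 * m)) ^ r * exp (-(c * L)) ≤
        exp (-(19 * (P * L))) := by
  have hm0 : (0 : ℝ) < m := (exp_pos _).trans_le hm
  refine ⟨by positivity, ?_⟩
  have hrN : (r : ℝ) ≤ exp w := by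
    have : (r : ℝ) ≤ (2 : ℝ) ^ r := by exact_mod_cast (Nat.lt_two_pow_self (n := r)).le
    exact this.trans hN
  have h1 : 2 ^ r * 4 * r * ((R : ℝ) + 1) / (η ^ 2 * m) ≤ exp (-(497 * w)) := by
    rw [div_le_iff₀ (by positivity)]
    have h2 : (2 : ℝ) ^ r * 4 * r ≤ exp (3 * w) := by
      calc (2 : ℝ) ^ r * 4 * r ≤ exp w * exp w * exp w := by
            refine mul_le_mul (mul_le_mul hN hw4 (by norm_num) (by positivity)) hrN
              (by positivity) (by positivity)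
        _ = exp (3 * w) := by rw [← exp_add, ← exp_add]; congr 1; ring
    calc 2 ^ r * 4 * r * ((R : ℝ) + 1) ≤ exp (3 * w) * (exp L * η ^ 2) :=
          mul_le_mul h2 hR (by positivity) (by positivity)
      _ = η ^ 2 * (exp (-(497 * w)) * exp (L + 500 * w)) := by
          rw [← exp_add]
          have : -(497 * w) + (L + 500 * w) = 3 * w + L := by ring
          rw [this, exp_add]; ring
      _ ≤ η ^ 2 * (exp (-(497 * w)) * m) := by
          refine mul_le_mul_of_nonneg_left (mul_le_mul_of_nonneg_left hm (by positivity))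
            (by positivity)
      _ = exp (-(497 * w)) * (η ^ 2 * m) := by ring
  have hb0 : 0 ≤ 2 ^ r * 4 * r * ((R : ℝ) + 1) / (η ^ 2 * m) := by positivity
  have hw0 : 0 ≤ w := by
    have := exp_pos w
    by_contra hcon
    push Not at hcon
    have : exp w < 1 := by rwa [exp_lt_one_iff]
    linarith
  calc (2 ^ r * 4 * r * ((R : ℝ) + 1) / (η ^ 2 * m)) ^ r * exp (-(c * L))
      ≤ (exp (-(497 * w))) ^ r * 1 := by
        refine mul_le_mul (pow_le_pow_left₀ hb0 h1 r) ?_ (by positivity) (by positivity)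
        rw [exp_le_one_iff]; linarith
    _ = exp (-(497 * (w * r))) := by
        rw [mul_one, ← exp_nat_mul]; congr 1; ring
    _ ≤ exp (-(19 * (P * L))) := by
        refine exp_le_exp.mpr ?_
        have h0 : 0 ≤ w * r := by positivity
        nlinarith

/-- the unit `w = δ L / (1000 P)` -/
structure Unit' (δ P L w : ℝ) (r : ℕ) : Prop where
  w1 : 1000 ≤ w
  wL : 27000 * w ≤ L
  wP : 1000 * (P * w) = δ * L
  Le : L ≤ exp w
  r1 : 1 ≤ r
  N0 : (2 : ℝ) ^ r ≤ exp w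
  wr : P * L / 25 ≤ w * r

theorem Unit'.e5 {δ P L w : ℝ} {r : ℕ} (h : Unit' δ P L w r) : 500000 ≤ exp w := by
  have h1 := quadratic_le_exp_of_nonneg (x := w) (by linarith [h.w1])
  have h2 := h.w1
  nlinarith

theorem base_num {δ : ℝ} (h0 : 0 < δ) (h1 : δ ≤ 1 / 10) {P L : ℝ} (hP : 27 / 10 ≤ P)
    (hL : 10 ^ 8 / δ ^ 2 * P ^ 4 ≤ L) :
    ∃ (w : ℝ) (r : ℕ), Unit' δ P L w r ∧ P ≤ L ∧ 4 * (2 : ℝ) ^ r ≤ exp (10 ^ 8 / δ ^ 2 * P ^ 2) ∧
      404 * P ≤ exp (10 ^ 8 / δ ^ 2 * P ^ 2) := by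
  have hP0 : 0 < P := by linarith
  have hδ2 : 0 < δ ^ 2 := by positivity
  -- `10^8 P^4 ≤ δ^2 L`
  have hL2 : 10 ^ 8 * P ^ 4 ≤ δ ^ 2 * L := by
    have h2 := mul_le_mul_of_nonneg_left hL hδ2.le
    have e : δ ^ 2 * (10 ^ 8 / δ ^ 2 * P ^ 4) = 10 ^ 8 * P ^ 4 := by field_simp
    rwa [e] at h2
  have hP2 : 7 ≤ P ^ 2 := by nlinarith
  have hP3 : P ^ 2 ≤ P ^ 3 := by
    have : P ^ 3 = P ^ 2 * P := by ring
    nlinarith
  have hP4 : P ^ 3 ≤ P ^ 4 := by
    have : P ^ 4 = P ^ 3 * P := by ring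
    have h3 : 0 < P ^ 3 := by positivity
    nlinarith
  have hPP : P ≤ P ^ 2 := by nlinarith
  have hLpos : 0 < L := by
    have : 0 < δ ^ 2 * L := lt_of_lt_of_le (by positivity) hL2
    exact (mul_pos_iff_of_pos_left hδ2).mp this
  -- `10^9 P^4 ≤ δ L`
  have hL1 : 10 ^ 9 * P ^ 4 ≤ δ * L := by
    have h2 : δ ^ 2 * L ≤ 1 / 10 * (δ * L) := by
      have : 0 < δ * L := by positivity
      nlinarith
    linarith
  set w : ℝ := δ * L / (1000 * P) with hw
  have hwP : 1000 * (P * w) = δ * L := by rw [hw]; field_simp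
  have hw1 : 1000 ≤ w := by
    rw [hw, le_div_iff₀ (by positivity)]
    linarith
  have hwL : 27000 * w ≤ L := by
    have e1 : 27000 * w ≤ 10000 * (P * w) := by nlinarith
    nlinarith
  have hLe : L ≤ exp w := by
    have h2 := quadratic_le_exp_of_nonneg (x := w) (by linarith)
    have h3 : L ≤ w ^ 2 / 2 := by
      have h4 : L * (2 * (1000 * P) ^ 2) ≤ w ^ 2 * (1000 * P) ^ 2 := by
        have e : w ^ 2 * (1000 * P) ^ 2 = (δ ^ 2 * L) * L := by
          have : w ^ 2 * (1000 * P) ^ 2 = (1000 * (P * w)) ^ 2 := by ring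
          rw [this, hwP]; ring
        rw [e]
        have : 2 * (1000 * P) ^ 2 ≤ δ ^ 2 * L := by nlinarith
        nlinarith
      have h5 : (0 : ℝ) < (1000 * P) ^ 2 := by positivity
      have h6 : L * 2 ≤ w ^ 2 := by
        refine le_of_mul_le_mul_right ?_ h5
        linarith
      linarith
    nlinarith
  set r : ℕ := ⌈40 * P ^ 2 / δ⌉₊ with hr
  have hr1 : 40 * P ^ 2 / δ ≤ r := Nat.le_ceil _
  have hr2 : (r : ℝ) ≤ 41 * P ^ 2 / δ := by
    have h2 : (r : ℝ) < 40 * P ^ 2 / δ + 1 := Nat.ceil_lt_add_one (by positivity)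
    have h3 : (1 : ℝ) ≤ P ^ 2 / δ := by rw [le_div_iff₀ h0]; linarith
    have e1 : 40 * P ^ 2 / δ = 40 * (P ^ 2 / δ) := by ring
    have e2 : 41 * P ^ 2 / δ = 41 * (P ^ 2 / δ) := by ring
    rw [e1] at h2; rw [e2]; linarith
  have hrpos : 1 ≤ r := by
    have : (0 : ℝ) < r := lt_of_lt_of_le (by positivity) hr1
    exact_mod_cast this
  have h2r : (2 : ℝ) ^ r ≤ exp (41 * P ^ 2 / δ) := by
    calc (2 : ℝ) ^ r ≤ (exp 1) ^ r := by
          refine pow_le_pow_left₀ (by norm_num) ?_ r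
          have := add_one_le_exp (1 : ℝ)
          linarith
      _ = exp r := by rw [← exp_nat_mul, mul_one]
      _ ≤ exp (41 * P ^ 2 / δ) := exp_le_exp.mpr hr2
  have hδP : 41 * P ^ 2 / δ ≤ 41 / 10 * P ^ 2 / δ ^ 2 := by
    rw [div_le_div_iff₀ h0 hδ2]
    have : 0 < P ^ 2 * δ := by positivity
    nlinarith
  have hPd : (1 : ℝ) ≤ P ^ 2 / δ ^ 2 := by
    rw [le_div_iff₀ hδ2]; nlinarith
  refine ⟨w, r, ⟨hw1, hwL, hwP, hLe, hrpos, ?_, ?_⟩, ?_, ?_, ?_⟩
  · refine h2r.trans (exp_le_exp.mpr ?_)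
    rw [hw, div_le_div_iff₀ h0 (by positivity)]
    nlinarith
  · have h3 : w * (40 * P ^ 2 / δ) ≤ w * r := mul_le_mul_of_nonneg_left hr1 (by linarith)
    have h4 : w * (40 * P ^ 2 / δ) = P * L / 25 := by
      rw [hw]; field_simp; ring
    linarith
  · have : δ ^ 2 * L ≤ L := by
      have : δ ^ 2 ≤ 1 := by nlinarith
      nlinarith
    linarith
  · calc 4 * (2 : ℝ) ^ r ≤ exp 3 * exp (41 * P ^ 2 / δ) := by
          refine mul_le_mul ?_ h2r (by positivity) (by positivity)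
          have := add_one_le_exp (3 : ℝ)
          linarith
      _ = exp (3 + 41 * P ^ 2 / δ) := by rw [← exp_add]
      _ ≤ exp (10 ^ 8 / δ ^ 2 * P ^ 2) := by
          refine exp_le_exp.mpr ?_
          have e1 : 10 ^ 8 / δ ^ 2 * P ^ 2 = 10 ^ 8 * (P ^ 2 / δ ^ 2) := by ring
          have e2 : 41 / 10 * P ^ 2 / δ ^ 2 = 41 / 10 * (P ^ 2 / δ ^ 2) := by ring
          rw [e1]; rw [e2] at hδP
          linarith
  · have h3 := add_one_le_exp (10 ^ 8 / δ ^ 2 * P ^ 2)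
    have e1 : 10 ^ 8 / δ ^ 2 * P ^ 2 = 10 ^ 8 * (P ^ 2 / δ ^ 2) := by ring
    have h4 : P ^ 2 ≤ P ^ 2 / δ ^ 2 := by
      rw [le_div_iff₀ hδ2]
      have : δ ^ 2 ≤ 1 := by nlinarith
      nlinarith
    rw [e1] at h3 ⊢
    linarith

/-- choice of `m`, `Pd` -/
structure MChoice (L w : ℝ) (r m Pd : ℕ) : Prop where
  m1 : exp (L + 500 * w) ≤ m
  mL : exp L ≤ m
  m_1 : 1 ≤ m
  Pd1 : exp L ≤ Pd
  Pdm : 2 * Pd ≤ m
  Nm : 2 * 2 ^ r ≤ m
  n1 : exp L ≤ 2 * (m : ℝ) + 2 ^ r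
  n2 : 2 * (m : ℝ) + 2 ^ r ≤ exp (L + 502 * w)

theorem exists_mChoice {L w : ℝ} {r : ℕ} (hw1 : 1000 ≤ w) (hwL : 27000 * w ≤ L)
    (he5 : 500000 ≤ exp w) (hN0 : (2 : ℝ) ^ r ≤ exp w) : ∃ m Pd : ℕ, MChoice L w r m Pd := by
  have hw0 : 0 ≤ w := by linarith
  have hL1 : 1 ≤ L := by linarith
  have hE1 : 1 ≤ exp L := one_le_exp (by linarith)
  obtain ⟨m, hm1, hm2⟩ : ∃ m : ℕ, exp (L + 500 * w) ≤ m ∧ (m : ℝ) ≤ exp (L + 501 * w) := by
    refine ⟨⌈exp (L + 500 * w)⌉₊, Nat.le_ceil _, ?_⟩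
    have h1 := (Nat.ceil_lt_add_one (exp_pos (L + 500 * w)).le).le
    refine h1.trans ?_
    have h2 : exp (L + 501 * w) = exp (L + 500 * w) * exp w := by rw [← exp_add]; congr 1; ring
    have h3 : 1 ≤ exp (L + 500 * w) := one_le_exp (by linarith)
    rw [h2]; nlinarith
  have hmL : exp L ≤ m := (exp_le_exp.mpr (by linarith)).trans hm1
  have hmpos : (0 : ℝ) < m := (exp_pos _).trans_le hmL
  obtain ⟨Pd, hPd1, hPd2⟩ : ∃ Pd : ℕ, exp L ≤ Pd ∧ (Pd : ℝ) ≤ 2 * exp L := by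
    refine ⟨⌈exp L⌉₊, Nat.le_ceil _, ?_⟩
    have h1 := (Nat.ceil_lt_add_one (exp_pos L).le).le
    linarith
  have hm3 : exp L * exp w ≤ m := by
    refine le_trans ?_ hm1
    rw [← exp_add]; exact exp_le_exp.mpr (by linarith)
  have hNpos : (0 : ℝ) ≤ 2 ^ r := by positivity
  refine ⟨m, Pd, hm1, hmL, by exact_mod_cast hmpos, hPd1, ?_, ?_, by linarith, ?_⟩
  · have : (2 * (Pd : ℝ)) ≤ m := by
      have h1 : 4 * exp L ≤ exp L * exp w := by nlinarith
      linarith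
    exact_mod_cast this
  · have : (2 * (2 : ℝ) ^ r) ≤ m := by
      have h1 : 2 * exp w ≤ exp L * exp w := by
        have : 2 ≤ exp L := by have := add_one_le_exp L; linarith
        nlinarith
      linarith
    exact_mod_cast this
  · have h2 : exp (L + 502 * w) = exp (L + 501 * w) * exp w := by rw [← exp_add]; congr 1; ring
    have h3 : (2 : ℝ) ^ r ≤ exp (L + 501 * w) := hN0.trans (exp_le_exp.mpr (by linarith))
    have h4 := exp_pos (L + 501 * w)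
    rw [h2]; nlinarith

/-- exponents of the new level -/
theorem expo {δ P ν L w : ℝ} (hδ0 : 0 < δ) (hP : 27 / 10 ≤ P) (hν1 : ν ≤ 1 / 2) (hw0 : 0 ≤ w)
    (hwP : 1000 * (P * w) = δ * L) (hdw : 2700 * w ≤ δ * L) :
    (2 + δ / P) * L = 2 * L + 1000 * w ∧ (P / 2 - δ) * ((2 + δ / P) * L) ≤ P * L - 6 * w ∧
    (P + ν - δ) * ((2 + δ / P) * L) ≤ 2 * (P * L) + 2 * (ν * L) - 27 * w := by
  have hL' : (2 + δ / P) * L = 2 * L + 1000 * w := by
    have hP0 : P ≠ 0 := by linarith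
    have : δ / P * L = 1000 * w := by
      have h1 : δ / P * L = δ * L / P := by ring
      rw [h1, ← hwP]; field_simp
    rw [add_mul, this]
  refine ⟨hL', ?_, ?_⟩
  · rw [hL']
    have e : (P / 2 - δ) * (2 * L + 1000 * w)
        = P * L + (1000 * (P * w)) / 2 - 2 * (δ * L) - 1000 * (δ * w) := by ring
    rw [e, hwP]
    have : 0 ≤ δ * w := by positivity
    linarith
  · rw [hL']
    have e : (P + ν - δ) * (2 * L + 1000 * w)
        = 2 * (P * L) + 2 * (ν * L) + 1000 * (P * w) - 2 * (δ * L) + 1000 * (ν * w)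
          - 1000 * (δ * w) := by ring
    rw [e, hwP]
    have h1 : 0 ≤ δ * w := by positivity
    have h2 : ν * w ≤ 1 / 2 * w := mul_le_mul_of_nonneg_right hν1 hw0
    linarith

theorem pW_bound {r : ℕ} {w Y : ℝ} (he5 : 500000 ≤ exp w) (hN0 : (2 : ℝ) ^ r ≤ exp w) :
    (0 : ℝ) ≤ 10 * (2 ^ r) ^ 4 * exp (-Y) ∧ 10 * (2 ^ r) ^ 4 * exp (-Y) ≤ exp (5 * w - Y) := by
  refine ⟨by positivity, ?_⟩
  calc 10 * (2 ^ r) ^ 4 * exp (-Y) ≤ exp w * (exp w) ^ 4 * exp (-Y) := by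
        refine mul_le_mul_of_nonneg_right ?_ (exp_pos _).le
        exact mul_le_mul (by linarith) (pow_le_pow_left₀ (by positivity) hN0 4) (by positivity)
          (by positivity)
    _ = exp (5 * w - Y) := by
        rw [← exp_nat_mul, ← exp_add, ← exp_add]; congr 1; push_cast; ring

/-- norm of the new difference -/
theorem newV {pW θ w Y L c' : ℝ} (he5 : 500000 ≤ exp w)
    (hpW : pW ≤ exp (5 * w - Y)) (hw0 : 0 ≤ w) (hY0 : 0 ≤ Y)
    (hθ : θ ≤ exp (-(19 * Y))) (hc' : c' * L ≤ Y - 6 * w) :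
    (√pW + √θ) ^ 2 * 2 ≤ exp (-(c' * L)) := by
  have hspW : √pW ≤ exp ((5 * w - Y) / 2) := by
    rw [exp_half]; exact sqrt_le_sqrt hpW
  have hsθ' : √θ ≤ exp ((5 * w - Y) / 2) := by
    rw [exp_half]
    exact sqrt_le_sqrt (hθ.trans (exp_le_exp.mpr (by linarith)))
  calc (√pW + √θ) ^ 2 * 2 ≤ (2 * exp ((5 * w - Y) / 2)) ^ 2 * 2 := by
        refine mul_le_mul_of_nonneg_right (pow_le_pow_left₀ (by positivity) (by linarith) 2)
          (by norm_num)
    _ = 8 * exp (5 * w - Y) := by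
        rw [mul_pow, ← exp_nat_mul]
        have : ((2 : ℕ) : ℝ) * ((5 * w - Y) / 2) = 5 * w - Y := by push_cast; ring
        rw [this]; ring
    _ ≤ exp w * exp (5 * w - Y) := mul_le_mul_of_nonneg_right (by linarith) (by positivity)
    _ = exp (6 * w - Y) := by rw [← exp_add]; congr 1; ring
    _ ≤ exp (-(c' * L)) := exp_le_exp.mpr (by linarith)

/-- choice of `S`, `k` for the pair step -/
structure SChoice (L w Z η : ℝ) (R n S k : ℕ) : Prop where
  S1 : 1 ≤ S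
  S2 : (S : ℝ) ≤ exp (4 * Z)
  S3 : exp (4 * Z - w) ≤ S
  k1 : 2 * ((R + 1) * k) ≤ n * S
  k2 : exp (2 * Z - w) ≤ η * √(k + 1)

theorem exists_sChoice {L w Z η : ℝ} {R n : ℕ} (hw1 : 1000 ≤ w)
    (he5 : 500000 ≤ exp w) (hZ0 : 0 ≤ Z) (hη : 0 < η) (hR : (R : ℝ) + 1 ≤ exp L * η ^ 2)
    (hn : exp (L + 500 * w) ≤ n) : ∃ S k : ℕ, SChoice L w Z η R n S k := by
  have hE1 : 1 ≤ exp (4 * Z) := one_le_exp (by linarith)
  obtain ⟨S, hS1, hS2, hS3⟩ : ∃ S : ℕ, 1 ≤ S ∧ (S : ℝ) ≤ exp (4 * Z) ∧ exp (4 * Z - w) ≤ S := by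
    refine ⟨⌊exp (4 * Z)⌋₊, ?_, Nat.floor_le (exp_pos _).le, ?_⟩
    · exact Nat.le_floor (by push_cast; exact hE1)
    · have h1 := Nat.lt_floor_add_one (exp (4 * Z))
      have h2 : exp (4 * Z - w) ≤ exp (4 * Z) / 2 := by
        rw [exp_sub]
        exact div_le_div_of_nonneg_left (exp_pos _).le (by norm_num) (by linarith)
      have h3 : (1 : ℝ) ≤ ⌊exp (4 * Z)⌋₊ := by
        exact_mod_cast Nat.le_floor (by push_cast; exact hE1)
      linarith
  refine ⟨S, n * S / (2 * (R + 1)), hS1, hS2, hS3, ?_, ?_⟩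
  · have := Nat.div_mul_le_self (n * S) (2 * (R + 1))
    calc 2 * ((R + 1) * (n * S / (2 * (R + 1)))) = n * S / (2 * (R + 1)) * (2 * (R + 1)) := by ring
      _ ≤ n * S := this
  · set k := n * S / (2 * (R + 1)) with hk
    have hS0 : (0 : ℝ) < S := by exact_mod_cast hS1
    have h1 : (n : ℝ) * S ≤ 2 * ((R : ℝ) + 1) * (k + 1) := by
      have h2 : n * S < 2 * (R + 1) * (k + 1) := by
        have := Nat.lt_mul_div_succ (n * S) (b := 2 * (R + 1)) (by positivity)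
        exact this
      exact_mod_cast h2.le
    have h3 : (S : ℝ) ≤ η ^ 2 * (k + 1) := by
      have h4 : (n : ℝ) * S ≤ 2 * (exp L * η ^ 2) * (k + 1) := by
        refine h1.trans ?_
        refine mul_le_mul_of_nonneg_right ?_ (by positivity)
        linarith
      have h5 : 2 * exp L ≤ n := by
        refine le_trans ?_ hn
        have : exp (L + 500 * w) = exp L * exp (500 * w) := by rw [← exp_add]
        rw [this]
        have h6 : 2 ≤ exp (500 * w) := by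
          have := exp_le_exp.mpr (show w ≤ 500 * w by linarith)
          linarith
        nlinarith [exp_pos L]
      have h6 : 2 * exp L * S ≤ 2 * exp L * (η ^ 2 * (k + 1)) := by
        have : 2 * exp L * S ≤ n * S := mul_le_mul_of_nonneg_right h5 hS0.le
        linarith
      exact le_of_mul_le_mul_left h6 (by positivity)
    have h7 : η * √((k : ℝ) + 1) = √(η ^ 2 * (k + 1)) := by
      rw [sqrt_mul (sq_nonneg η), sqrt_sq hη.le]
    rw [h7]
    have h8 : exp (2 * Z - w) ≤ exp ((4 * Z - w) / 2) := exp_le_exp.mpr (by linarith)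
    refine h8.trans ?_
    rw [exp_half]
    exact sqrt_le_sqrt (hS3.trans h3)

end Stp

end

end Crest.Agent.R300LB
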