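import Crest.Agent.R300.LBSlipStep_Mg
import Crest.Agent.R300.LBCoin
import Crest.Agent.R300.LBRefCh2_Mg
import Crest.Agent.R300.LBIter
import Crest.Agent.R300.LBBase
import Crest.Agent.R300.LBSlipModel
import Crest.Agent.R300.LBPlan
import Crest.Agent.R300.LBOrth
import Crest.Agent.R300.LBStepB

-- ▼ part R300/LBGlue
section

/-! Row 300, lower bounds: final glue -/

set_option autoImplicit false

namespace Crest.Agent.R300LB

/-- all pieces used by the step -/
structure StepPieces : Prop where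
  block : BlockStatement
  domSB : DomSBStatement
  tensor : TensorStatement
  deriv : DerivStatement
  location : LocationStatement
  tvSlip : TVSlipStatement
  refCh : RefChStatement
  tmS : TMStatement
  word : WordStatement
  drift : DriftStatement
  slipStep : SlipStepStatement
  pair : PairStepStatement

theorem stepPieces : StepPieces where
  block := block
  domSB := domSB
  tensor := tensor
  deriv := derivStatement
  location := locationStatement
  tvSlip := SlipStep.tvSlip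
  refCh := refChStatement2
  tmS := TM.tmStatement domSB
  word := wordStatement
  drift := drift locationStatement domSB
  slipStep := SlipStep.slipStep
  pair := pairStep block tensor locationStatement

theorem core_of (hslip : BaseDom.BaseSlipStatement) (hstep : StepStatement) : CoreStatement :=
  Itr.iterStatement (BaseDom.base_of_slip hslip) domSB hstep

end Crest.Agent.R300LB
end

-- ▼ part R300/LBSlip
section

/-!
# Row 300, lower bounds, piece L10: base slip
-/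

set_option autoImplicit false

namespace Crest.Agent.R300LB.Sl

open Polynomial Finset

noncomputable section

/-! ### common part of two laws -/

theorem ev_eq_sum {G : Type*} [Monoid G] (ν : MA G) (f : G → ℝ) (S : Finset G)
    (hS : ν.coeff.support ⊆ S) : ev ν f = ∑ w ∈ S, ν.coeff w * f w := by
  unfold ev
  exact Finsupp.sum_of_support_subset _ hS _ (by simp)

theorem coeff_nonneg {G : Type*} [Monoid G] {ν : MA G} (h : Pos ν) (w : G) : 0 ≤ ν.coeff w := by
  classical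
  have h1 := h (fun v => if v = w then 1 else 0) (fun v => by split_ifs <;> norm_num)
  rw [ev_eq_sum ν _ (insert w ν.coeff.support) (Finset.subset_insert _ _)] at h1
  simp only [mul_ite, mul_one, mul_zero] at h1
  rw [Finset.sum_ite_eq' (insert w ν.coeff.support) w] at h1
  rwa [if_pos (Finset.mem_insert_self _ _)] at h1

theorem overlap {G : Type*} [Monoid G] {μ μ' : MA G} (h : Prob μ) (h' : Prob μ') {τ : ℝ}
    (hτ : TVle τ (μ - μ')) : ∃ s : MA G, Pos s ∧ Le s μ ∧ Le s μ' ∧ 1 - τ / 2 ≤ mass s := by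
  classical
  set S := μ.coeff.support ∪ μ'.coeff.support with hS
  set s : MA G := ∑ w ∈ S, MonoidAlgebra.single w (min (μ.coeff w) (μ'.coeff w)) with hs
  have evs : ∀ f, ev s f = ∑ w ∈ S, min (μ.coeff w) (μ'.coeff w) * f w := by
    intro f
    rw [hs, ev_sum]
    exact Finset.sum_congr rfl (fun w _ => ev_single _ _ _)
  have e1 : ∀ f, ev μ f = ∑ w ∈ S, μ.coeff w * f w := fun f =>
    ev_eq_sum μ f S Finset.subset_union_left
  have e2 : ∀ f, ev μ' f = ∑ w ∈ S, μ'.coeff w * f w := fun f =>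
    ev_eq_sum μ' f S Finset.subset_union_right
  refine ⟨s, ?_, ?_, ?_, ?_⟩
  · intro f hf
    rw [evs]
    exact Finset.sum_nonneg (fun w _ => mul_nonneg
      (le_min (coeff_nonneg h.pos w) (coeff_nonneg h'.pos w)) (hf w))
  · intro f hf
    rw [ev_sub, evs, e1, ← Finset.sum_sub_distrib]
    refine Finset.sum_nonneg (fun w _ => ?_)
    rw [← sub_mul]
    exact mul_nonneg (sub_nonneg.mpr (min_le_left _ _)) (hf w)
  · intro f hf
    rw [ev_sub, evs, e2, ← Finset.sum_sub_distrib]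
    refine Finset.sum_nonneg (fun w _ => ?_)
    rw [← sub_mul]
    exact mul_nonneg (sub_nonneg.mpr (min_le_right _ _)) (hf w)
  · have h1 := h.one
    have h2 := h'.one
    unfold mass at h1 h2 ⊢
    rw [e1] at h1
    rw [e2] at h2
    rw [evs]
    have h3 := hτ (fun w => if μ'.coeff w ≤ μ.coeff w then 1 else -1)
      (fun w => by split_ifs <;> simp)
    rw [ev_sub, e1, e2, ← Finset.sum_sub_distrib] at h3
    have h4 := le_trans (le_abs_self _) h3
    have h5 : ∑ w ∈ S, min (μ.coeff w) (μ'.coeff w) * 1 =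
        (∑ w ∈ S, μ.coeff w * 1 + ∑ w ∈ S, μ'.coeff w * 1 -
        ∑ w ∈ S, (μ.coeff w * (if μ'.coeff w ≤ μ.coeff w then 1 else -1) -
          μ'.coeff w * (if μ'.coeff w ≤ μ.coeff w then 1 else -1))) / 2 := by
      rw [← Finset.sum_add_distrib, ← Finset.sum_sub_distrib, Finset.sum_div]
      refine Finset.sum_congr rfl (fun w _ => ?_)
      split_ifs with hc
      · rw [min_eq_right hc]; ring
      · rw [min_eq_left (not_le.mp hc).le]; ring
    rw [h5, h1, h2]
    linarith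

/-! ### projection to words -/

/-- forget the counter -/
def pj : MA HH →ₐ[ℝ] MA BW := MonoidAlgebra.mapDomainAlgHom ℝ ℝ (MonoidHom.fst BW (Multiplicative ℕ))

theorem pj_single (w : HH) (c : ℝ) : pj (MonoidAlgebra.single w c) = MonoidAlgebra.single w.1 c := by
  unfold pj
  simp

theorem ev_pj (X : MA HH) (f : BW → ℝ) : ev (pj X) f = ev X (fun w => f w.1) := by
  induction X using MonoidAlgebra.induction_linear with
  | zero => rw [map_zero, ev_zero, ev_zero]
  | add x y hx hy => rw [map_add, ev_add, ev_add, hx, hy]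
  | single w c => rw [pj_single, ev_single, ev_single]

theorem pj_pos {X : MA HH} (h : Pos X) : Pos (pj X) := fun f hf => by
  rw [ev_pj]; exact h _ (fun w => hf w.1)

theorem pj_prob {X : MA HH} (h : Prob X) : Prob (pj X) := by
  refine ⟨pj_pos h.pos, ?_⟩
  have := h.one
  unfold mass at this ⊢
  rw [ev_pj]; exact this

theorem pj_TV {τ : ℝ} {X : MA HH} (h : TVle τ X) : TVle τ (pj X) := fun f hf => by
  rw [ev_pj]; exact h _ (fun w => hf w.1)

/-- the block law -/
def g2 (q : ℝ) : MA BW := D q [false, true]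
/-- the mark law -/
def d2 (q : ℝ) : MA BW := D q [false]

theorem pj_dd (q : ℝ) : pj (dd zz q) = d2 q := by
  unfold dd zz d2 D letter sym
  rw [map_add, map_smul, map_smul, map_one, pj_single]
  simp only [List.map_cons, List.map_nil, List.prod_cons, List.prod_nil, mul_one]
  rfl

theorem pj_gg {q : ℝ} (h0 : 0 < q) : pj (gg (nu q) q) = g2 q := by
  rw [gg_eq]
  unfold nu g2 D letter sym
  rw [map_add, map_smul, map_smul, map_one, map_add, map_add, map_smul, map_smul, map_smul,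
    pj_single, pj_single, pj_single]
  simp only [List.map_cons, List.map_nil, List.prod_cons, List.prod_nil, mul_one]
  have e1 : (MonoidAlgebra.single (FreeMonoid.ofList [false, true]) 1 : MA BW) =
      MonoidAlgebra.single (FreeMonoid.of false) 1 * MonoidAlgebra.single (FreeMonoid.of true) 1 := by
    rw [MonoidAlgebra.single_mul_single, one_mul]
    rfl
  have e2 : (MonoidAlgebra.single (FreeMonoid.ofList [false]) 1 : MA BW) =
      MonoidAlgebra.single (FreeMonoid.of false) 1 := rfl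
  have e3 : (MonoidAlgebra.single (FreeMonoid.ofList [true]) 1 : MA BW) =
      MonoidAlgebra.single (FreeMonoid.of true) 1 := rfl
  rw [e1, e2, e3]
  set x : MA BW := MonoidAlgebra.single (FreeMonoid.of false) 1
  set y : MA BW := MonoidAlgebra.single (FreeMonoid.of true) 1
  have hq : (1 + q) ≠ 0 := by positivity
  simp only [smul_add, smul_smul, mul_add, add_mul, smul_mul_assoc, mul_smul_comm, one_mul, mul_one]
  have c1 : (1 - q ^ 2) * (q / (1 + q)) = (1 - q) * q := by field_simp; ring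
  have c2 : (1 - q ^ 2) * ((1 - q) / (1 + q)) = (1 - q) * (1 - q) := by field_simp; ring
  rw [c1, c2]
  module

/-- array of `k+1` marks in words -/
def V (q : ℝ) (n α k β : ℕ) : MA BW := g2 q ^ α * d2 q * (g2 q ^ n * d2 q) ^ k * g2 q ^ β

theorem pj_U {q : ℝ} (h0 : 0 < q) (n β k : ℕ) :
    pj (U (nu q) zz q n β k) = (g2 q ^ n * d2 q) ^ k * g2 q ^ β := by
  induction k with
  | zero => rw [U, map_pow, pj_gg h0, pow_zero, one_mul]
  | succ k ih =>
    rw [U, map_mul, map_mul, map_pow, pj_gg h0, pj_dd, ih, pow_succ', mul_assoc (g2 q ^ n * d2 q)]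

theorem pj_Arr {q : ℝ} (h0 : 0 < q) (n α β k : ℕ) : pj (Arr q n α β k) = V q n α k β := by
  unfold Arr V
  rw [map_mul, map_mul, map_pow, pj_gg h0, pj_dd, pj_U h0, mul_assoc (g2 q ^ α * d2 q)]

theorem V_prob {q : ℝ} (h0 : 0 < q) (h1 : q ≤ 1 / 16) (n α β k : ℕ) : Prob (V q n α k β) := by
  rw [← pj_Arr h0]
  exact pj_prob (Arr_prob h0 h1 n α β k)

theorem V_mul (q : ℝ) {n α k β α' k' β' : ℕ} (h : β + α' = n) :
    V q n α k β * V q n α' k' β' = V q n α (k + 1 + k') β' := by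
  unfold V
  have e : g2 q ^ β * g2 q ^ α' = g2 q ^ n := by rw [← pow_add, h]
  calc g2 q ^ α * d2 q * (g2 q ^ n * d2 q) ^ k * g2 q ^ β *
        (g2 q ^ α' * d2 q * (g2 q ^ n * d2 q) ^ k' * g2 q ^ β')
      = g2 q ^ α * d2 q * (g2 q ^ n * d2 q) ^ k * ((g2 q ^ β * g2 q ^ α') * d2 q) *
        (g2 q ^ n * d2 q) ^ k' * g2 q ^ β' := by simp only [mul_assoc]
    _ = _ := by
        rw [e, pow_add, pow_succ]
        simp only [mul_assoc]

theorem a_pow (q : ℝ) (m : ℕ) (R : ℕ) :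
    (g2 q ^ m * d2 q * g2 q ^ (m + 1)) ^ (R + 1) = V q (2 * m + 1) m R (m + 1) := by
  induction R with
  | zero => unfold V; rw [zero_add, pow_one, pow_zero, mul_one]
  | succ R ih =>
    rw [pow_succ, ih]
    have e : g2 q ^ m * d2 q * g2 q ^ (m + 1) = V q (2 * m + 1) m 0 (m + 1) := by
      unfold V; rw [pow_zero, mul_one]
    rw [e, V_mul q (by omega), add_zero]

/-- overlap of two arrays -/
theorem piece {q : ℝ} (h0 : 0 < q) (h1 : q ≤ 1 / 16) {n k a b : ℕ} (hn : 1 ≤ n)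
    (hk : (((k + b : ℕ) : ℝ) + 2) * 10 ^ 15 ≤ q ^ 4 * n) {α β α' β' : ℕ} (hα : n ≤ 16 * α) (hα' : α ≤ n)
    (hβ : n ≤ 16 * β) (hβ' : β ≤ n) (gα : n ≤ 16 * α') (gα' : α' ≤ n)
    (gβ : n ≤ 16 * β') (gβ' : β' ≤ n)
    (hA : α' + (k + b) * n + β' = α + k * n + β + a)
    (hτ : ((a : ℝ) + b) * tauA q (α + k * n + β) ≤ 1 / 4) :
    ∃ s : MA BW, Pos s ∧ Le s (V q n α k β) ∧ Le s (V q n α' (k + b) β') ∧ 3 / 4 ≤ mass s := by
  have hk' : ((k : ℝ) + 2) * 10 ^ 15 ≤ q ^ 4 * n := by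
    refine le_trans ?_ hk
    push_cast
    have : (0 : ℝ) ≤ b := Nat.cast_nonneg b
    nlinarith
  have t1 := local_TV h0 h1 hn hk' hα hα' hβ hβ'
  have t2 := local_TV h0 h1 hn hk gα gα' gβ gβ'
  have t3 := pure_TV (nu_prob h0 h1) h0 h1 (α + k * n + β) (k + 1) a b
  rw [hA] at t2
  have e : k + 1 + b = k + b + 1 := by ring
  rw [e] at t3
  have t4 := tv_add (tv_add t2 t3) (tv_neg t1)
  have e2 : Arr q n α' β' (k + b) - bg (nu q) q (α + k * n + β + a) (k + b + 1) +
      (bg (nu q) q (α + k * n + β + a) (k + b + 1) - bg (nu q) q (α + k * n + β) (k + 1)) +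
      -(Arr q n α β k - bg (nu q) q (α + k * n + β) (k + 1)) = Arr q n α' β' (k + b) - Arr q n α β k := by
    abel
  rw [e2] at t4
  have t5 := pj_TV (tv_mono t4 (show _ ≤ (1 / 2 : ℝ) by linarith))
  rw [map_sub, pj_Arr h0, pj_Arr h0] at t5
  obtain ⟨s, hs1, hs2, hs3, hs4⟩ := overlap (V_prob h0 h1 n α' β' (k + b)) (V_prob h0 h1 n α β k) t5
  exact ⟨s, hs1, hs3, hs2, by linarith⟩

/-! ### the cuts -/

def af (m D : ℕ) : ℕ :=
  if 4 * D ≤ 3 * (2 * m + 1) then m + D / 2 else m - ((2 * m + 1 - D) - (2 * m + 1 - D) / 2)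
def af' (m D : ℕ) : ℕ :=
  if 4 * D ≤ 3 * (2 * m + 1) then m - (D - D / 2) else m + (2 * m + 1 - D) / 2
def Jf (m D : ℕ) : ℕ := if 4 * D ≤ 3 * (2 * m + 1) then 0 else 1

theorem Jf_mono {m D D' : ℕ} (h : D ≤ D') : Jf m D ≤ Jf m D' := by
  unfold Jf; split_ifs <;> omega

theorem piece_cut {q : ℝ} (h0 : 0 < q) (h1 : q ≤ 1 / 16) {m r D D' : ℕ} (hm : 20 ≤ m) (hr : 1 ≤ r)
    (hk : ((r : ℝ) + 2) * 10 ^ 15 ≤ q ^ 4 * ((2 * m + 1 : ℕ) : ℝ)) (hD : D ≤ D') (hD' : D' ≤ 2 * m + 1)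
    (hτ : (((D' - D : ℕ) : ℝ) + 1) * tauA q ((r - 1) * (2 * m + 1) + 1) ≤ 1 / 4) :
    ∃ s : MA BW, Pos s ∧ Le s (V q (2 * m + 1) (af m D) (r - 1) (2 * m + 1 - af m D')) ∧
      Le s (V q (2 * m + 1) (af' m D) (r - 1 + (Jf m D' - Jf m D)) (2 * m + 1 - af' m D')) ∧
      3 / 4 ≤ mass s := by
  set n := 2 * m + 1 with hn
  have hJ : Jf m D' - Jf m D ≤ 1 := by unfold Jf; split_ifs <;> omega
  have hJ2 : Jf m D ≤ Jf m D' := Jf_mono hD
  refine piece h0 h1 (n := n) (k := r - 1) (a := D' - D) (b := Jf m D' - Jf m D) (by omega) ?_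
    ?_ ?_ ?_ ?_ ?_ ?_ ?_ ?_ ?_ ?_
  · refine le_trans ?_ hk
    have : r - 1 + (Jf m D' - Jf m D) ≤ r := by omega
    have : ((r - 1 + (Jf m D' - Jf m D) : ℕ) : ℝ) ≤ r := by exact_mod_cast this
    nlinarith
  · unfold af; split_ifs <;> omega
  · unfold af; split_ifs <;> omega
  · unfold af; split_ifs <;> omega
  · omega
  · unfold af'; split_ifs <;> omega
  · unfold af'; split_ifs <;> omega
  · unfold af'; split_ifs <;> omega
  · omega
  · have key : af' m D + (Jf m D' - Jf m D) * n + (n - af' m D') = af m D + (n - af m D') + (D' - D) := by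
      unfold af af' Jf
      split_ifs with a b c
      · simp only [Nat.sub_self, zero_mul]; omega
      · simp only [Nat.sub_zero, one_mul]; omega
      · exfalso; omega
      · simp only [Nat.sub_self, zero_mul]; omega
    rw [Nat.add_mul]
    omega
  · have e1 : (r - 1) * n + 1 ≤ af m D + (r - 1) * n + (n - af m D') := by
      have : 1 ≤ n - af m D' := by unfold af; split_ifs <;> omega
      omega
    have e2 := tauA_anti h0 h1 e1
    have e3 : ((Jf m D' - Jf m D : ℕ) : ℝ) ≤ 1 := by exact_mod_cast hJ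
    have e4 : 0 ≤ tauA q ((r - 1) * n + 1) := by unfold tauA; positivity
    have e5 : 0 ≤ tauA q (af m D + (r - 1) * n + (n - af m D')) := by unfold tauA; positivity
    have e6 : (0 : ℝ) ≤ ((D' - D : ℕ) : ℝ) := Nat.cast_nonneg _
    refine le_trans ?_ hτ
    exact mul_le_mul (by linarith) e2 e5 (by linarith)

theorem pieces {q : ℝ} (h0 : 0 < q) (h1 : q ≤ 1 / 16) {m r K : ℕ} (hm : 20 ≤ m) (hr : 1 ≤ r)
    (hK : 1 ≤ K)
    (hk : ((r : ℝ) + 2) * 10 ^ 15 ≤ q ^ 4 * ((2 * m + 1 : ℕ) : ℝ))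
    (hτ : (((2 * m + 1 : ℕ) : ℝ) / K + 2) * tauA q ((r - 1) * (2 * m + 1) + 1) ≤ 1 / 4) :
    ∀ j, 1 ≤ j → j ≤ K → ∃ s : MA BW, Pos s ∧
      Le s (V q (2 * m + 1) m (j * r - 1) (2 * m + 1 - af m (j * (2 * m + 1) / K))) ∧
      Le s (V q (2 * m + 1) m (j * r - 1 + Jf m (j * (2 * m + 1) / K))
        (2 * m + 1 - af' m (j * (2 * m + 1) / K))) ∧
      (3 / 4 : ℝ) ^ j ≤ mass s := by
  set n := 2 * m + 1 with hn
  have hKr : (0 : ℝ) < K := by exact_mod_cast hK
  have hD : ∀ j, j * n / K ≤ (j + 1) * n / K := fun j =>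
    Nat.div_le_div_right (Nat.mul_le_mul_right n (Nat.le_succ j))
  have hDn : ∀ j, j ≤ K → j * n / K ≤ n := by
    intro j hj
    calc j * n / K ≤ K * n / K := Nat.div_le_div_right (Nat.mul_le_mul_right n hj)
      _ = n := Nat.mul_div_cancel_left n hK
  have hdiff : ∀ j, (((j + 1) * n / K - j * n / K : ℕ) : ℝ) ≤ (n : ℝ) / K + 1 := by
    intro j
    rw [Nat.cast_sub (hD j)]
    have a1 : (((j + 1) * n / K : ℕ) : ℝ) ≤ (((j + 1) * n : ℕ) : ℝ) / K := Nat.cast_div_le
    have a2 : (((j * n : ℕ) : ℝ)) / K < ((j * n / K : ℕ) : ℝ) + 1 := by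
      rw [div_lt_iff₀ hKr]
      have := Nat.lt_div_mul_add (a := j * n) (b := K) (by omega)
      have h3 : j * n < (j * n / K + 1) * K := by
        rw [Nat.add_mul, one_mul]; exact this
      exact_mod_cast h3
    push_cast at a1 a2 ⊢
    have a3 : ((j : ℝ) + 1) * n / K = (j : ℝ) * n / K + n / K := by ring
    linarith
  have hpc : ∀ j, j < K → ∃ s : MA BW, Pos s ∧
      Le s (V q n (af m (j * n / K)) (r - 1) (n - af m ((j + 1) * n / K))) ∧
      Le s (V q n (af' m (j * n / K)) (r - 1 + (Jf m ((j + 1) * n / K) - Jf m (j * n / K)))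
        (n - af' m ((j + 1) * n / K))) ∧ 3 / 4 ≤ mass s := by
    intro j hj
    refine piece_cut h0 h1 hm hr hk (hD j) (hDn (j + 1) (by omega)) ?_
    refine le_trans (mul_le_mul_of_nonneg_right ?_ (by unfold tauA; positivity)) hτ
    have := hdiff j
    linarith
  intro j hj
  induction j, hj using Nat.le_induction with
  | base =>
    intro _
    obtain ⟨s, h2, h3, h4, h5⟩ := hpc 0 (by omega)
    refine ⟨s, h2, ?_, ?_, by rw [pow_one]; exact h5⟩
    · have e : af m (0 * n / K) = m := by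
        rw [zero_mul, Nat.zero_div]; unfold af; simp
      rw [e, zero_add] at h3
      rw [one_mul r]
      exact h3
    · have e : af' m (0 * n / K) = m := by
        rw [zero_mul, Nat.zero_div]; unfold af'; simp
      have e2 : Jf m (0 * n / K) = 0 := by
        rw [zero_mul, Nat.zero_div]; unfold Jf; simp
      rw [e, e2, Nat.sub_zero, zero_add] at h4
      rw [one_mul r]
      exact h4
  | succ j hj ih =>
    intro hjK
    obtain ⟨s, s1, s2, s3, s4⟩ := ih (by omega)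
    obtain ⟨t, t1, t2, t3, t4⟩ := hpc j (by omega)
    have hjr : 1 ≤ j * r := Nat.mul_pos hj hr
    refine ⟨s * t, s1.mul t1, ?_, ?_, ?_⟩
    · have h2 : Le (s * t) (V q n m (j * r - 1) (n - af m (j * n / K)) *
          V q n (af m (j * n / K)) (r - 1) (n - af m ((j + 1) * n / K))) :=
        (s2.mul_right t1).trans (t2.mul_left (V_prob h0 h1 _ _ _ _).pos)
      rw [V_mul q (by
        have : af m (j * n / K) ≤ n := by
          have := hDn j (by omega)
          unfold af; split_ifs <;> omega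
        omega)] at h2
      have e : j * r - 1 + 1 + (r - 1) = (j + 1) * r - 1 := by
        have hr2 : (j + 1) * r = j * r + r := by rw [Nat.add_mul, one_mul]
        rw [hr2]; omega
      rw [e] at h2
      exact h2
    · have h2 : Le (s * t) (V q n m (j * r - 1 + Jf m (j * n / K)) (n - af' m (j * n / K)) *
          V q n (af' m (j * n / K)) (r - 1 + (Jf m ((j + 1) * n / K) - Jf m (j * n / K)))
            (n - af' m ((j + 1) * n / K))) :=
        (s3.mul_right t1).trans (t3.mul_left (V_prob h0 h1 _ _ _ _).pos)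
      rw [V_mul q (by
        have : af' m (j * n / K) ≤ n := by
          have := hDn j (by omega)
          unfold af'; split_ifs <;> omega
        omega)] at h2
      have hJ := Jf_mono (m := m) (hD j)
      have e : j * r - 1 + Jf m (j * n / K) + 1 + (r - 1 + (Jf m ((j + 1) * n / K) - Jf m (j * n / K))) =
          (j + 1) * r - 1 + Jf m ((j + 1) * n / K) := by
        have hr2 : (j + 1) * r = j * r + r := by rw [Nat.add_mul, one_mul]
        rw [hr2]
        generalize Jf m ((j + 1) * n / K) = x at hJ ⊢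
        generalize Jf m (j * n / K) = y at hJ ⊢
        omega
      rw [e] at h2
      exact h2
    · rw [mass_mul, pow_succ]
      exact mul_le_mul s4 t4 (by norm_num) (le_trans (by positivity) s4)

/-! ### numbers -/

theorem tau_num {q N : ℝ} (h0 : 0 < q) (h1 : q ≤ 1 / 16) (hN : 8 * 10 ^ 15 ≤ q ^ 4 * N) {A : ℕ}
    (hA : q ^ 4 * N ^ 2 / (4 * 10 ^ 15) ≤ (A : ℝ) + 1) : tauA q A ≤ 10 ^ 8 / (q ^ 3 * N) := by
  have hq4 : 0 < q ^ 4 := by positivity
  have hN0 : 0 < N := by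
    by_contra h
    push Not at h
    nlinarith
  unfold tauA
  have e1 : (10 : ℝ) ^ 8 / (q ^ 3 * N) = 1 / (q ^ 3 * N / 10 ^ 8) := by
    rw [one_div_div]
  rw [e1]
  refine one_div_le_one_div_of_le (by positivity) ?_
  refine Real.le_sqrt_of_sq_le ?_
  have hq2 : q ^ 2 ≤ 1 / 256 := by nlinarith
  have e2 : (1 - q ^ 2) * (1 - (1 - q ^ 2)) = (1 - q ^ 2) * q ^ 2 := by ring
  rw [mul_assoc, e2]
  have h2 : q ^ 4 * N ^ 2 / (4 * 10 ^ 15) * ((1 - q ^ 2) * q ^ 2) ≤ ((A : ℝ) + 1) * ((1 - q ^ 2) * q ^ 2) := by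
    refine mul_le_mul_of_nonneg_right hA ?_
    have : 0 ≤ 1 - q ^ 2 := by linarith
    positivity
  refine le_trans ?_ h2
  have h3 : (0 : ℝ) ≤ q ^ 6 * N ^ 2 := by positivity
  have e3 : (q ^ 3 * N / 10 ^ 8) ^ 2 = q ^ 6 * N ^ 2 / 10 ^ 16 := by ring
  have e4 : q ^ 4 * N ^ 2 / (4 * 10 ^ 15) * ((1 - q ^ 2) * q ^ 2) =
      q ^ 6 * N ^ 2 * (1 - q ^ 2) / (4 * 10 ^ 15) := by ring
  rw [e3, e4, div_le_div_iff₀ (by norm_num) (by norm_num)]
  nlinarith

theorem slip_exists {q : ℝ} (h0 : 0 < q) (h1 : q ≤ 1 / 16) {m : ℕ} (hm : 4 * 10 ^ 15 / q ^ 4 ≤ (m : ℝ)) :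
    ∃ (R : ℕ) (s : MA BW), Slip (g2 q ^ m * d2 q * g2 q ^ (m + 1)) R s ∧ (R : ℝ) + 1 ≤ m ∧
      Real.exp (-(4 * 10 ^ 15 / q ^ 3)) ≤ mass s := by
  have hq4 : 0 < q ^ 4 := by positivity
  have hq3 : 0 < q ^ 3 := by positivity
  have hm' : 4 * 10 ^ 15 ≤ (m : ℝ) * q ^ 4 := (div_le_iff₀ hq4).mp hm
  have hq41 : q ^ 4 ≤ 1 := pow_le_one₀ h0.le (by linarith)
  have hm20 : (20 : ℝ) ≤ m := by
    have : (0 : ℝ) ≤ m := Nat.cast_nonneg m
    nlinarith
  have hm20' : 20 ≤ m := by exact_mod_cast hm20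
  set n : ℕ := 2 * m + 1 with hn
  set N : ℝ := ((n : ℕ) : ℝ) with hNdef
  have hNm : N = 2 * m + 1 := by rw [hNdef, hn]; push_cast; ring
  have hN0 : 0 < N := by rw [hNm]; positivity
  have hqN : 8 * 10 ^ 15 ≤ q ^ 4 * N := by rw [hNm]; nlinarith
  -- choice of r
  set x : ℝ := q ^ 4 * N / (2 * 10 ^ 15) with hx
  have hx4 : 4 ≤ x := by rw [hx, le_div_iff₀ (by norm_num)]; linarith
  set r : ℕ := ⌊x⌋₊ with hr
  have hr1 : (r : ℝ) ≤ x := Nat.floor_le (by linarith)
  have hr2 : x - 1 < r := by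
    have := Nat.lt_floor_add_one x
    linarith
  have hr3 : 1 ≤ r := by
    have : (1 : ℝ) ≤ r := by linarith
    exact_mod_cast this
  have hxe : x * (2 * 10 ^ 15) = q ^ 4 * N := by rw [hx]; field_simp
  -- choice of K
  set K : ℕ := ⌈10 ^ 9 / q ^ 3⌉₊ with hK
  have hK1 : 10 ^ 9 / q ^ 3 ≤ K := Nat.le_ceil _
  have hK2 : (K : ℝ) < 10 ^ 9 / q ^ 3 + 1 := Nat.ceil_lt_add_one (by positivity)
  have hq31 : q ^ 3 ≤ 1 := pow_le_one₀ h0.le (by linarith)
  have hK3 : (1 : ℝ) ≤ 10 ^ 9 / q ^ 3 := by rw [le_div_iff₀ hq3]; nlinarith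
  have hK4 : 1 ≤ K := by
    have : (1 : ℝ) ≤ K := by linarith
    exact_mod_cast this
  have hK5 : (K : ℝ) ≤ 2 * 10 ^ 9 / q ^ 3 := by
    have : 2 * 10 ^ 9 / q ^ 3 = 10 ^ 9 / q ^ 3 + 10 ^ 9 / q ^ 3 := by ring
    rw [this]; linarith
  have hK0 : (0 : ℝ) < K := by linarith
  -- hypotheses of `pieces`
  have hk : ((r : ℝ) + 2) * 10 ^ 15 ≤ q ^ 4 * N := by nlinarith
  have hτ : (N / K + 2) * tauA q ((r - 1) * n + 1) ≤ 1 / 4 := by
    have a1 : q ^ 4 * N ^ 2 / (4 * 10 ^ 15) ≤ (((r - 1) * n + 1 : ℕ) : ℝ) + 1 := by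
      have b1 : (((r - 1) * n + 1 : ℕ) : ℝ) = ((r : ℝ) - 1) * N + 1 := by
        push_cast [Nat.cast_sub hr3]; ring
      rw [b1]
      have b2 : q ^ 4 * N ^ 2 / (4 * 10 ^ 15) = x / 2 * N := by rw [hx]; ring
      rw [b2]
      have b3 : x / 2 ≤ (r : ℝ) - 1 := by linarith
      nlinarith
    have a2 := tau_num h0 h1 hqN a1
    have a3 : N / K ≤ q ^ 3 * N / 10 ^ 9 := by
      rw [div_le_div_iff₀ hK0 (by norm_num)]
      have : 10 ^ 9 ≤ K * q ^ 3 := by rwa [div_le_iff₀ hq3] at hK1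
      nlinarith
    have a4 : 0 ≤ tauA q ((r - 1) * n + 1) := by unfold tauA; positivity
    have a5 : 10 ^ 16 ≤ q ^ 3 * N := by
      have : q ^ 4 * N ≤ q ^ 3 * N * (1 / 16) := by
        have : q ^ 4 * N = q ^ 3 * N * q := by ring
        rw [this]
        exact mul_le_mul_of_nonneg_left h1 (by positivity)
      linarith
    calc (N / K + 2) * tauA q ((r - 1) * n + 1)
        ≤ (q ^ 3 * N / 10 ^ 9 + 2) * (10 ^ 8 / (q ^ 3 * N)) :=
          mul_le_mul (by linarith) a2 a4 (by positivity)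
      _ = 1 / 10 + 2 * 10 ^ 8 / (q ^ 3 * N) := by field_simp
      _ ≤ 1 / 10 + 1 / 10 := by
          have : 2 * 10 ^ 8 / (q ^ 3 * N) ≤ 1 / 10 := by
            rw [div_le_div_iff₀ (by positivity) (by norm_num)]
            linarith
          linarith
      _ ≤ 1 / 4 := by norm_num
  obtain ⟨s, s1, s2, s3, s4⟩ := pieces h0 h1 hm20' hr3 hK4 hk hτ K hK4 le_rfl
  have hKn : K * (2 * m + 1) / K = 2 * m + 1 := Nat.mul_div_cancel_left _ hK4
  rw [hKn] at s2 s3
  have ea : af m (2 * m + 1) = m := by unfold af; rw [if_neg (by omega)]; omega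
  have ea' : af' m (2 * m + 1) = m := by unfold af'; rw [if_neg (by omega)]; omega
  have eJ : Jf m (2 * m + 1) = 1 := by unfold Jf; rw [if_neg (by omega)]
  have en : 2 * m + 1 - m = m + 1 := by omega
  have hKr : 1 ≤ K * r := Nat.mul_pos hK4 hr3
  rw [ea, en, ← a_pow, Nat.sub_add_cancel hKr] at s2
  rw [ea', eJ, en, ← a_pow, Nat.sub_add_cancel hKr] at s3
  have hmass : 0 < mass s := lt_of_lt_of_le (by positivity) s4
  refine ⟨K * r, s, ⟨s1, s2, s3, hmass⟩, ?_, ?_⟩
  · push_cast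
    have c1 : (K : ℝ) * r ≤ 2 * 10 ^ 9 / q ^ 3 * x :=
      mul_le_mul hK5 hr1 (Nat.cast_nonneg _) (by positivity)
    have c2 : 2 * 10 ^ 9 / q ^ 3 * x = q * N / 10 ^ 6 := by rw [hx]; field_simp
    rw [c2] at c1
    have c3 : q * N ≤ 1 / 16 * N := mul_le_mul_of_nonneg_right h1 hN0.le
    rw [hNm] at c1 c3
    linarith
  · refine le_trans ?_ s4
    have d1 : Real.exp (-1) ≤ 3 / 4 := by
      have := Real.exp_neg_one_lt_d9
      linarith
    calc Real.exp (-(4 * 10 ^ 15 / q ^ 3)) ≤ Real.exp ((K : ℝ) * (-1)) := by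
          refine Real.exp_le_exp.mpr ?_
          have : 2 * 10 ^ 9 / q ^ 3 ≤ 4 * 10 ^ 15 / q ^ 3 :=
            div_le_div_of_nonneg_right (by norm_num) hq3.le
          linarith
      _ = Real.exp (-1) ^ K := by rw [Real.exp_nat_mul]
      _ ≤ (3 / 4) ^ K := pow_le_pow_left₀ (Real.exp_pos _).le d1 K

end

end Crest.Agent.R300LB.Sl

namespace Crest.Agent.R300LB

/-- **L10.** base slip of the pair `(01)^m 0 (01)^(m+1)` -/
theorem base_slip : ∃ C : ℝ, 0 < C ∧ ∀ q : ℝ, 0 < q → q ≤ 1 / 16 → ∀ m : ℕ, C / q ^ 4 ≤ (m : ℝ) →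
    ∃ (R : ℕ) (s : MA BW),
      Slip (D q [false, true] ^ m * D q [false] * D q [false, true] ^ (m + 1)) R s ∧
      (R : ℝ) + 1 ≤ m ∧ Real.exp (-(C / q ^ 3)) ≤ mass s :=
  ⟨4 * 10 ^ 15, by norm_num, fun _ h0 h1 _ hm => Sl.slip_exists h0 h1 hm⟩

end Crest.Agent.R300LB
end

-- ▼ part R300/LBStepA
section

/-!
# Row 300, lower bounds, piece E7 part A: algebra for the step (monotonicity of `SB`, words)
-/

set_option autoImplicit false

namespace Crest.Agent.R300LB

open Finset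

noncomputable section

namespace Stp

variable {G : Type*} [Monoid G]

theorem SB_monoPd {p : ℝ} {a Z : MA G} {z Pd Pd' : ℕ} (h : SB p a Z z Pd) (hP : Pd ≤ Pd') :
    SB p a Z z Pd' := fun T f => by
  refine (Finset.sum_le_sum_of_subset_of_nonneg (Finset.Icc_subset_Icc hP (by omega))
    (fun _ _ _ => sq_nonneg _)).trans (h T f)

theorem SB_mono {p p' : ℝ} {a Z : MA G} {z Pd : ℕ} (ha : Prob a) (h : SB p a Z z Pd)
    (hP : p ≤ p') : SB p' a Z z Pd := fun T f =>
  (h T f).trans (mul_le_mul_of_nonneg_right hP ((ha.pow _).pos _ (fun w => sq_nonneg _)))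

theorem SB_dom {p : ℝ} {a Z : MA G} {z Pd m : ℕ} (h : SB p a Z z Pd) (hm : Pd ≤ m) :
    Dom p (a ^ (2 * m + z)) (a ^ m * Z * a ^ m) := fun f => by
  have h1 := h (2 * m) f
  have hmem : m ∈ Icc Pd (2 * m - Pd) := by rw [Finset.mem_Icc]; omega
  have h2 := Finset.single_le_sum (f := fun x => (ev (a ^ x * Z * a ^ (2 * m - x)) f) ^ 2)
    (fun _ _ => sq_nonneg _) hmem
  have e : 2 * m - m = m := by omega
  simp only [e] at h2
  exact h2.trans h1

/-! ### words -/

theorem Wd_lower {u : ℝ} {a b : MA G} (ha : Prob a) (hu0 : 0 ≤ u) (hu : u ≤ 1)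
    (h : Bd u a (a - b)) (w : List Bool) :
    Le ((1 - u) ^ w.length • a ^ w.length) (Wd a b w) := by
  have := Bd.prod_lower ha hu (w.map (fun t => if t then b else a)) (by
    intro c hc
    rw [List.mem_map] at hc
    obtain ⟨t, _, rfl⟩ := hc
    cases t
    · simpa using smul_le_self ha.pos (by linarith)
    · have h1 := h.lower
      rw [sub_sub_cancel] at h1
      simpa using h1)
  rw [List.length_map] at this
  exact this

theorem Wd_upper {u : ℝ} {a b : MA G} (ha : Prob a) (hb : Prob b) (hu0 : 0 ≤ u)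
    (h : Bd u a (a - b)) (w : List Bool) :
    Le (Wd a b w) ((1 + u) ^ w.length • a ^ w.length) := by
  have := Bd.prod_upper ha hu0 (w.map (fun t => if t then b else a)) (by
    intro c hc
    rw [List.mem_map] at hc
    obtain ⟨t, _, rfl⟩ := hc
    cases t
    · exact ⟨by simpa using ha.pos, by simpa using le_smul_self ha.pos (by linarith)⟩
    · have h1 := h.upper
      rw [sub_sub_cancel] at h1
      exact ⟨by simpa using hb.pos, by simpa using h1⟩)
  rw [List.length_map] at this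
  exact this

/-- two words of the same length: pointwise closeness -/
theorem Wd_bd {u : ℝ} {a b : MA G} (ha : Prob a) (hb : Prob b) (hu0 : 0 ≤ u)
    (h : Bd u a (a - b)) (w w' : List Bool) (N : ℕ) (hw : w.length = N) (hw' : w'.length = N)
    (hN : (N : ℝ) * u ≤ 1 / 4) :
    Bd (4 * N * u) (Wd a b w) (Wd a b w - Wd a b w') ∧
      ∀ f : G → ℝ, (∀ v, 0 ≤ f v) → ev (a ^ N) f ≤ 2 * ev (Wd a b w) f := by
  have hNu : 0 ≤ (N : ℝ) * u := by positivity
  have h1 : 1 - (N : ℝ) * u ≤ (1 - u) ^ N := by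
    rcases Nat.eq_zero_or_pos N with h0 | h0
    · subst h0; simp
    · have hN1 : (1 : ℝ) ≤ N := by exact_mod_cast h0
      have hu1 : u ≤ 1 := by nlinarith
      have := one_add_mul_le_pow (a := -u) (by linarith) N
      have e : (1 : ℝ) + -u = 1 - u := by ring
      rw [e] at this
      linarith
  have h2 : (1 + u) ^ N ≤ 1 + 2 * (N * u) := by
    have := one_add_pow_sub_le hu0 N (by linarith)
    linarith
  have key : ∀ w : List Bool, w.length = N → ∀ f : G → ℝ, (∀ v, 0 ≤ f v) →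
      (1 - (N : ℝ) * u) * ev (a ^ N) f ≤ ev (Wd a b w) f ∧
      ev (Wd a b w) f ≤ (1 + 2 * (N * u)) * ev (a ^ N) f := by
    intro w hw f hf
    have hX : 0 ≤ ev (a ^ N) f := (ha.pow N).pos f hf
    constructor
    · rcases Nat.eq_zero_or_pos N with h0 | h0
      · subst h0
        have : w = [] := List.length_eq_zero_iff.mp hw
        subst this
        rw [Wd_nil]; simp
      · have hN1 : (1 : ℝ) ≤ N := by exact_mod_cast h0
        have hu1 : u ≤ 1 := by nlinarith
        have h3 := (Wd_lower ha hu0 hu1 h w).ev_le hf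
        rw [ev_smul, hw] at h3
        exact (mul_le_mul_of_nonneg_right h1 hX).trans h3
    · have h3 := (Wd_upper ha hb hu0 h w).ev_le hf
      rw [ev_smul, hw] at h3
      exact h3.trans (mul_le_mul_of_nonneg_right h2 hX)
  refine ⟨fun f hf => ?_, fun f hf => ?_⟩
  · obtain ⟨a1, a2⟩ := key w hw f hf
    obtain ⟨b1, b2⟩ := key w' hw' f hf
    have hX : 0 ≤ ev (a ^ N) f := (ha.pow N).pos f hf
    rw [ev_sub]
    set X := ev (a ^ N) f
    set t := ev (Wd a b w) f
    set t' := ev (Wd a b w') f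
    have h3 : |t - t'| ≤ 3 * ((N : ℝ) * u) * X := abs_le.mpr ⟨by linarith, by linarith⟩
    have h4 : X ≤ 4 / 3 * t := by nlinarith
    calc |t - t'| ≤ 3 * ((N : ℝ) * u) * X := h3
      _ ≤ 3 * ((N : ℝ) * u) * (4 / 3 * t) := mul_le_mul_of_nonneg_left h4 (by positivity)
      _ = 4 * N * u * t := by ring
  · obtain ⟨a1, a2⟩ := key w hw f hf
    have hX : 0 ≤ ev (a ^ N) f := (ha.pow N).pos f hf
    nlinarith

/-- padding with `a ^ m` on both sides -/
theorem pad_le {a A B : MA G} {c : ℝ} (ha : Prob a) (m : ℕ)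
    (h : ∀ f : G → ℝ, (∀ v, 0 ≤ f v) → ev A f ≤ c * ev B f) :
    ∀ f : G → ℝ, (∀ v, 0 ≤ f v) → ev (a ^ m * A * a ^ m) f ≤ c * ev (a ^ m * B * a ^ m) f := by
  intro f hf
  have hpm := (ha.pow m).pos
  rw [mul_assoc, mul_assoc, ev_mul, ev_mul, ← ev_mul_fun]
  refine hpm.mono (fun x => ?_)
  rw [ev_mul, ev_mul]
  exact h _ (fun y => hpm _ (fun z => hf _))

/-- `M` copies of a word -/
def reps (w : List Bool) : ℕ → List Bool
  | 0 => []
  | (M + 1) => reps w M ++ w

theorem reps_length (w : List Bool) (M : ℕ) : (reps w M).length = w.length * M := by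
  induction M with
  | zero => simp [reps]
  | succ M ih => rw [reps, List.length_append, ih]; ring

theorem reps_count (w : List Bool) (M : ℕ) : (reps w M).count true = w.count true * M := by
  induction M with
  | zero => simp [reps]
  | succ M ih => rw [reps, List.count_append, ih]; ring

theorem Wd_reps (a b : MA G) (w : List Bool) (M : ℕ) : Wd a b (reps w M) = (Wd a b w) ^ M := by
  induction M with
  | zero => simp [reps, Wd_nil]
  | succ M ih => rw [reps, Wd_append, ih, pow_succ]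

theorem pat_length (m r : ℕ) (c : Bool) : (pat m r c).length = 2 * m + 2 ^ r := by
  unfold pat
  rw [List.length_append, List.length_append, List.length_replicate, List.length_map, tm_length]
  ring

theorem pat_count (m r : ℕ) (c : Bool) : (pat m r c).count true ≤ 2 ^ r := by
  unfold pat
  rw [List.count_append, List.count_append]
  have h1 : (List.replicate m false).count true = 0 := by
    rw [List.count_replicate]; simp
  rw [h1, zero_add, add_zero]
  refine (List.count_le_length).trans ?_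
  rw [List.length_map, tm_length]

/-- reference change for the powers of the new measure -/
theorem refCh_pow (hRC : RefChStatement) (G : Type) [Monoid G] (a b : MA G) (V u : ℝ) (lam m r M : ℕ)
    (ha : Prob a) (hb : Prob b) (hd : Dom V a (a - b)) (hbd : Bd u a (a - b)) (hV : 0 ≤ V)
    (hu : 0 ≤ u) (hlam : 1 ≤ lam) (h1 : u * lam ≤ 1 / 4)
    (h2 : 32 * lam * V * (2 ^ r * M) ≤ 1) :
    RefCh (Real.exp (-((lam : ℝ) / 8))) (a ^ ((2 * m + 2 ^ r) * M)) ((Wd a b (pat m r false)) ^ M) := by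
  have := hRC G a b V u lam (reps (pat m r false) M) ha hb hd hbd hV hu hlam h1 (by
    refine le_trans ?_ h2
    refine mul_le_mul_of_nonneg_left ?_ (by positivity)
    rw [reps_count]
    have h3 := Nat.mul_le_mul_right M (pat_count m r false)
    calc (((pat m r false).count true * M : ℕ) : ℝ) ≤ ((2 ^ r * M : ℕ) : ℝ) := by exact_mod_cast h3
      _ = 2 ^ r * M := by push_cast; ring)
  rw [reps_length, pat_length, Wd_reps] at this
  exact this

end Stp

end

end Crest.Agent.R300LB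
private theorem rz_247949c2e3 : type_of% @_root_.Crest.Agent.R300LB.Stp.reps.eq_def := @_root_.Crest.Agent.R300LB.Stp.reps.eq_def -- L138
private theorem rz_44f06f66ff : type_of% @_root_.Crest.Agent.R300LB.Stp.reps.eq_1 := @_root_.Crest.Agent.R300LB.Stp.reps.eq_1 -- L138
end

-- ▼ part R300/LBStepC
section

/-!
# Row 300, lower bounds, piece E7 part C: drift and slip of the new level with explicit exponents
-/

set_option autoImplicit false

namespace Crest.Agent.R300LB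

open Finset

noncomputable section

namespace Stp

open Real

/-- the drift of the powers, with explicit exponents -/
theorem drift_use (hDr : DriftStatement) {G : Type} [Monoid G] {a b s : MA G} {R m r K : ℕ}
    {w L X α β : ℝ} (ha : Prob a) (hb : Prob b) (hs : Slip a R s) (hm1 : 1 ≤ m)
    (hd : Dom (exp (-X)) a (a - b)) (hR : (R : ℝ) + 1 ≤ exp L * (mass s) ^ 2)
    (hm : exp L ≤ m) (hN : (2 : ℝ) ^ r ≤ exp w) (hNV : 2 ^ r * exp (-X) ≤ 1)
    (hw : 1000 ≤ exp w) (hL1 : 1 ≤ L) (hLe : L ≤ exp w) (hK : 1 ≤ K) (hKα : 2 * (K : ℝ) ≤ exp α)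
    (hα : α ≤ 3 * L) (hβ : exp (α - L) + exp (α / 2) ≤ exp β) (hβ2 : 4 * w - X + β ≤ -(3 * w)) :
    ∀ M : ℕ, M ≤ K → Dom (4 * exp (4 * w - X + β)) (a ^ ((2 * m + 2 ^ r) * M))
      ((a ^ m * Wd a b (tm r) * a ^ m) ^ M - a ^ ((2 * m + 2 ^ r) * M)) := by
  intro M hM
  obtain ⟨l, hl1, hl2⟩ := exists_two_pow hK
  have hlα : (2 : ℝ) ^ l ≤ exp α := hl2.trans hKα
  have hV0 : (0 : ℝ) ≤ exp (-X) := (exp_pos _).le
  have hVZ0 : (0 : ℝ) ≤ 2 * (2 ^ r * exp (-X)) := by positivity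
  have hVZ : Dom (2 * (2 ^ r * exp (-X))) (a ^ (2 ^ r)) (Wd a b (tm r) - a ^ (2 ^ r)) := by
    have h1 := Wd_dom ha hb hV0 hd (tm r)
    rw [tm_length] at h1
    refine h1.mono ?_ (ha.pow _).pos
    have := one_add_pow_sub_le hV0 (2 ^ r) (by push_cast; exact hNV)
    push_cast at this
    exact this
  have hVZ2 : 2 * (2 ^ r * exp (-X)) ≤ exp (2 * w - X) := by
    calc 2 * (2 ^ r * exp (-X)) ≤ exp w * (exp w * exp (-X)) := by
          refine mul_le_mul (by linarith) (mul_le_mul_of_nonneg_right hN hV0) (by positivity)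
            (by positivity)
      _ = exp (2 * w - X) := by rw [← exp_add, ← exp_add]; congr 1; ring
  have hN' : ((2 ^ r : ℕ) : ℝ) ≤ exp w := by push_cast; exact hN
  have hmn : exp L ≤ 2 * (m : ℝ) + ((2 ^ r : ℕ) : ℝ) := by
    have : (0 : ℝ) ≤ ((2 ^ r : ℕ) : ℝ) := Nat.cast_nonneg _
    have h2 : (0 : ℝ) ≤ m := Nat.cast_nonneg _
    linarith
  have hσ := sigma_bound hN' hVZ0 hVZ2 hw hlα hmn
  have hσ2 : sigmaB (2 ^ r) m l (2 * (2 ^ r * exp (-X))) 1 ≤ exp (4 * w - X + β) := by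
    refine hσ.trans ?_
    rw [exp_add (4 * w - X) β]
    exact mul_le_mul_of_nonneg_left hβ (by positivity)
  have h1 := hDr G a (Wd a b (tm r)) s R m (2 ^ r) l (2 * (2 ^ r * exp (-X))) 1 ha
    (Wd_prob ha hb _) hs Nat.one_le_two_pow hm1 hVZ0 hVZ zero_le_one (by
      have h2 : (0 : ℝ) ≤ (mass s) ^ 2 := sq_nonneg _
      calc (R : ℝ) + 1 ≤ exp L * (mass s) ^ 2 := hR
        _ ≤ m * (mass s) ^ 2 := mul_le_mul_of_nonneg_right hm h2
        _ = 1 ^ 2 * (mass s) ^ 2 * m := by ring)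
    (drift_cond hlα hα hL1 hLe (by linarith) (hσ2.trans (exp_le_exp.mpr hβ2))) M (hM.trans hl1)
  exact h1.mono (mul_le_mul_of_nonneg_left hσ2 (by norm_num)) (ha.pow _).pos

/-- drift for the pair step -/
theorem drift_pair (hDr : DriftStatement) {G : Type} [Monoid G] {a b s : MA G} {R m r S : ℕ}
    {w L X Z : ℝ} (ha : Prob a) (hb : Prob b) (hs : Slip a R s) (hm1 : 1 ≤ m)
    (hd : Dom (exp (-X)) a (a - b)) (hR : (R : ℝ) + 1 ≤ exp L * (mass s) ^ 2)
    (hm : exp L ≤ m) (hN : (2 : ℝ) ^ r ≤ exp w) (hNV : 2 ^ r * exp (-X) ≤ 1)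
    (hw1 : 1000 ≤ w) (he5 : 500000 ≤ exp w) (hwL : 27000 * w ≤ L) (hLe : L ≤ exp w) (hS1 : 1 ≤ S)
    (hS2 : (S : ℝ) ≤ exp (4 * Z)) (hZ0 : 0 ≤ Z) (hZL : 2 * Z ≤ L) (hZX : 8 * Z ≤ X)
    (hX : 11 / 10 * L ≤ X) :
    ∀ M : ℕ, M ≤ 3 * S → Dom (exp (2 * Z - X + 7 * w)) (a ^ ((2 * m + 2 ^ r) * M))
      ((a ^ m * Wd a b (tm r) * a ^ m) ^ M - a ^ ((2 * m + 2 ^ r) * M)) := by
  intro M hM
  have h1 := drift_use hDr (K := 3 * S) (w := w) (L := L) (X := X) (α := 4 * Z + w)
    (β := 2 * Z + 2 * w) ha hb hs hm1 hd hR hm hN hNV (by linarith) (by linarith) hLe (by omega)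
    (by
      push_cast
      have e : exp (4 * Z + w) = exp (4 * Z) * exp w := by rw [← exp_add]
      rw [e]
      nlinarith [exp_pos (4 * Z)])
    (by linarith)
    (by
      have e1 : exp (4 * Z + w - L) ≤ exp (2 * Z + w) := exp_le_exp.mpr (by linarith)
      have e2 : exp ((4 * Z + w) / 2) ≤ exp (2 * Z + w) := exp_le_exp.mpr (by linarith)
      have e3 : exp (2 * Z + 2 * w) = exp (2 * Z + w) * exp w := by
        rw [← exp_add]; congr 1; ring
      rw [e3]
      nlinarith [exp_pos (2 * Z + w)])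
    (by linarith) M hM
  refine h1.mono ?_ (ha.pow _).pos
  have e3 : exp (2 * Z - X + 7 * w) = exp (4 * w - X + (2 * Z + 2 * w)) * exp w := by
    rw [← exp_add]; congr 1; ring
  rw [e3]
  nlinarith [exp_pos (4 * w - X + (2 * Z + 2 * w))]

/-- slip of the new level -/
theorem slip_use (hDr : DriftStatement) (hSl : SlipStepStatement) {G : Type} [Monoid G]
    {a b s : MA G} {R m r : ℕ}
    {w L X : ℝ} (ha : Prob a) (hb : Prob b) (hs : Slip a R s) (hm1 : 1 ≤ m)
    (hd : Dom (exp (-X)) a (a - b)) (hR : (R : ℝ) + 1 ≤ exp L * (mass s) ^ 2)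
    (hη1 : mass s ≤ 1)
    (hm : exp L ≤ m) (hN : (2 : ℝ) ^ r ≤ exp w) (hNV : 2 ^ r * exp (-X) ≤ 1)
    (hn2 : 2 * (m : ℝ) + 2 ^ r ≤ exp (L + 502 * w))
    (hw1 : 1000 ≤ w) (he5 : 500000 ≤ exp w) (hwL : 27000 * w ≤ L) (hLe : L ≤ exp w)
    (hX : 11 / 10 * L ≤ X) :
    ∃ (R' : ℕ) (s' : MA G), Slip (a ^ m * Wd a b (tm r) * a ^ m) R' s' ∧
      ((R' : ℝ) + 1) ≤ exp (2 * L + 1000 * w) * (mass s') ^ 2 := by
  have hη0 : 0 < mass s := hs.mpos
  have hL1 : 1 ≤ L := by linarith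
  obtain ⟨R', hR1, hR2⟩ : ∃ R' : ℕ, 64 * (2 * (m : ℝ) + 2 ^ r) * (R + 1) ≤ mass s * R' ∧
      (R' : ℝ) + 1 ≤ exp (2 * L + 504 * w) := by
    refine ⟨⌈64 * (2 * (m : ℝ) + 2 ^ r) * (R + 1) / mass s⌉₊, ?_, ?_⟩
    · have h1 := Nat.le_ceil (64 * (2 * (m : ℝ) + 2 ^ r) * (R + 1) / mass s)
      rw [div_le_iff₀ hη0] at h1
      linarith
    · have h1 := (Nat.ceil_lt_add_one (a := 64 * (2 * (m : ℝ) + 2 ^ r) * (R + 1) / mass s)
        (by positivity)).le
      have h2 : ((R : ℝ) + 1) / mass s ≤ exp L := by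
        rw [div_le_iff₀ hη0]
        refine hR.trans (mul_le_mul_of_nonneg_left ?_ (exp_pos _).le)
        nlinarith
      have h3 : 64 * (2 * (m : ℝ) + 2 ^ r) * (R + 1) / mass s ≤ 64 * exp (2 * L + 502 * w) := by
        have e1 : 64 * (2 * (m : ℝ) + 2 ^ r) * (R + 1) / mass s
          = 64 * ((2 * (m : ℝ) + 2 ^ r) * (((R : ℝ) + 1) / mass s)) := by ring
        have e2 : exp (2 * L + 502 * w) = exp (L + 502 * w) * exp L := by
          rw [← exp_add]; congr 1; ring
        rw [e1, e2]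
        refine mul_le_mul_of_nonneg_left (mul_le_mul hn2 h2 (by positivity) (exp_pos _).le)
          (by norm_num)
      have h4 : 1 ≤ exp (2 * L + 502 * w) := one_le_exp (by linarith)
      have e3 : exp (2 * L + 504 * w) = exp (2 * L + 502 * w) * (exp w * exp w) := by
        rw [← exp_add, ← exp_add]; congr 1; ring
      rw [e3]
      have h5 : 66 ≤ exp w * exp w := by nlinarith
      nlinarith
  have h1 := drift_use hDr (K := R' + 1) (w := w) (L := L) (X := X) (α := 2 * L + 505 * w)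
    (β := L + 506 * w) ha hb hs hm1 hd hR hm hN hNV (by linarith) (by linarith) hLe (by omega)
    (by
      push_cast
      have e : exp (2 * L + 505 * w) = exp (2 * L + 504 * w) * exp w := by
        rw [← exp_add]; congr 1; ring
      rw [e]
      nlinarith [exp_pos (2 * L + 504 * w)])
    (by linarith)
    (by
      have e1 : exp (2 * L + 505 * w - L) ≤ exp (L + 505 * w) := exp_le_exp.mpr (by linarith)
      have e2 : exp ((2 * L + 505 * w) / 2) ≤ exp (L + 505 * w) := exp_le_exp.mpr (by linarith)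
      have e3 : exp (L + 506 * w) = exp (L + 505 * w) * exp w := by
        rw [← exp_add]; congr 1; ring
      rw [e3]
      nlinarith [exp_pos (L + 505 * w)])
    (by linarith)
  have hn1 : 1 ≤ 2 * m + 2 ^ r := by
    have := Nat.one_le_two_pow (n := r)
    omega
  obtain ⟨s', hs', hs2⟩ := hSl G a (a ^ m * Wd a b (tm r) * a ^ m) s R R' (2 * m + 2 ^ r) ha
    (((ha.pow m).mul (Wd_prob ha hb _)).mul (ha.pow m)) hs hn1 (by push_cast; exact hR1)
    (fun M hM => (h1 M hM).mono (by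
      have e : exp (4 * w - X + (L + 506 * w)) ≤ exp (-w) := exp_le_exp.mpr (by linarith)
      have e2 : exp (-w) ≤ 1 / 64 := by
        rw [exp_neg, inv_eq_one_div]
        exact one_div_le_one_div_of_le (by norm_num) (by linarith)
      linarith) (ha.pow _).pos)
  refine ⟨R', s', hs', hR2.trans ?_⟩
  have h2 : 1 / 4 ≤ (mass s') ^ 2 := by nlinarith
  have e4 : exp (2 * L + 1000 * w) = exp (2 * L + 504 * w) * exp (496 * w) := by
    rw [← exp_add]; congr 1; ring
  have h3 : 4 ≤ exp (496 * w) := by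
    have := exp_le_exp.mpr (show w ≤ 496 * w by linarith)
    linarith
  rw [e4, mul_assoc]
  have h4 : 1 ≤ exp (496 * w) * mass s' ^ 2 := by nlinarith
  nlinarith [exp_pos (2 * L + 504 * w)]

/-- the reference change for the pair step -/
theorem refCh_use (hRC : RefChStatement) {G : Type} [Monoid G] {a b : MA G} {m r S g : ℕ}
    {w L P c u A Z : ℝ} (ha : Prob a) (hb : Prob b) (hd : Dom (exp (-(c * L))) a (a - b))
    (hbd : Bd u a (a - b)) (hu : 0 ≤ u) (hN : (2 : ℝ) ^ r ≤ exp w) (hw1 : 1000 ≤ w)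
    (he5 : 500000 ≤ exp w)
    (hwL : 27000 * w ≤ L) (hLe : L ≤ exp w) (hP : 27 / 10 ≤ P) (hPL : P ≤ L)
    (hA : 404 * P ≤ A) (huL : u * (A * L) ≤ 1) (hX : 11 / 10 * L ≤ c * L)
    (hZX : 8 * Z ≤ c * L) (hS2 : (S : ℝ) ≤ exp (4 * Z)) (hg : 2 * (g + 1) ≤ S) :
    ∃ e0 : ℝ, 0 ≤ e0 ∧ e0 ≤ exp (-(12 * (P * L))) ∧
      RefCh e0 (a ^ ((2 * m + 2 ^ r) * (3 * S + g + 2)))
        ((Wd a b (pat m r false)) ^ (3 * S + g + 2)) := by
  have hL1 : 1 ≤ L := by linarith
  have hPL0 : 2 ≤ P * L := by nlinarith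
  obtain ⟨lam, hl1, hl2⟩ : ∃ lam : ℕ, 100 * (P * L) ≤ lam ∧ (lam : ℝ) ≤ 101 * (P * L) := by
    refine ⟨⌈100 * (P * L)⌉₊, Nat.le_ceil _, ?_⟩
    have := (Nat.ceil_lt_add_one (a := 100 * (P * L)) (by positivity)).le
    linarith
  have hlam1 : 1 ≤ lam := by
    have : (0 : ℝ) < lam := by linarith
    exact_mod_cast this
  refine ⟨exp (-((lam : ℝ) / 8)), (exp_pos _).le, exp_le_exp.mpr (by linarith), ?_⟩
  refine refCh_pow hRC G a b (exp (-(c * L))) u lam m r (3 * S + g + 2) ha hb hd hbd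
    (exp_pos _).le hu hlam1 ?_ ?_
  · have h1 : u * lam ≤ u * (101 * (P * L)) := mul_le_mul_of_nonneg_left hl2 hu
    have h2 : u * (404 * P * L) ≤ u * (A * L) :=
      mul_le_mul_of_nonneg_left (mul_le_mul_of_nonneg_right hA (by linarith)) hu
    linarith
  · have h1 : 32 * (lam : ℝ) ≤ exp (3 * w) := by
      calc 32 * (lam : ℝ) ≤ 3232 * (L * L) := by nlinarith
        _ ≤ exp w * (exp w * exp w) := by
            refine mul_le_mul (by linarith) (mul_le_mul hLe hLe (by linarith) (exp_pos _).le)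
              (by positivity) (exp_pos _).le
        _ = exp (3 * w) := by rw [← exp_add, ← exp_add]; congr 1; ring
    have h2 : (((3 * S + g + 2 : ℕ)) : ℝ) ≤ exp (4 * Z + w) := by
      have h3 : 3 * S + g + 2 ≤ 4 * S := by omega
      have h4 : (((3 * S + g + 2 : ℕ)) : ℝ) ≤ 4 * S := by exact_mod_cast h3
      have e : exp (4 * Z + w) = exp (4 * Z) * exp w := by rw [← exp_add]
      rw [e]
      nlinarith [exp_pos (4 * Z)]
    calc 32 * (lam : ℝ) * exp (-(c * L)) * (2 ^ r * ((3 * S + g + 2 : ℕ) : ℝ))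
        ≤ exp (3 * w) * exp (-(c * L)) * (exp w * exp (4 * Z + w)) := by
          refine mul_le_mul (mul_le_mul_of_nonneg_right h1 (exp_pos _).le)
            (mul_le_mul hN h2 (by positivity) (exp_pos _).le) (by positivity) (by positivity)
      _ = exp (5 * w - c * L + 4 * Z) := by
          rw [← exp_add, ← exp_add, ← exp_add]; congr 1; ring
      _ ≤ 1 := by rw [exp_le_one_iff]; linarith

end Stp

end

end Crest.Agent.R300LB
end

-- ▼ part R300/LBStep
section

/-!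
# Row 300, lower bounds, piece E7: one step of the recursion in exponential form
-/

set_option autoImplicit false

namespace Crest.Agent.R300LB

open Finset

noncomputable section

namespace Stp

open Real

/-- the pair property of the new level -/
theorem pair_use (hDr : DriftStatement) (hRC : RefChStatement) (hPair : PairStepStatement)
    {G : Type} [Monoid G] {a b s W E : MA G} {R m r Pd : ℕ} {w L P c u A Z pW θ : ℝ}
    (ha : Prob a) (hb : Prob b) (hs : Slip a R s) (hR : (R : ℝ) + 1 ≤ exp L * (mass s) ^ 2)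
    (hMC : MChoice L w r m Pd) (hd : Dom (exp (-(c * L))) a (a - b)) (hbd : Bd u a (a - b))
    (hu : 0 ≤ u) (hN : (2 : ℝ) ^ r ≤ exp w) (hw1 : 1000 ≤ w) (he5 : 500000 ≤ exp w)
    (hwL : 27000 * w ≤ L) (hLe : L ≤ exp w) (hP : 27 / 10 ≤ P) (hPL : P ≤ L)
    (hA : 404 * P ≤ A) (huL : u * (A * L) ≤ 1) (hX : 11 / 10 * L ≤ c * L)
    (hZ1 : 11 / 80 * L ≤ Z) (hZL : 2 * Z ≤ L)
    (hZX : 8 * Z ≤ c * L) (hNV : 2 ^ r * exp (-(c * L)) ≤ 1)
    (hWE : Wd a b (pat m r false) - Wd a b (pat m r true) = a ^ m * W * a ^ m + E)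
    (hPa : Wd a b (pat m r false) = a ^ m * Wd a b (tm r) * a ^ m)
    (hW0 : mass W = 0) (hpW0 : 0 ≤ pW) (hpW : pW ≤ exp (5 * w - P * L))
    (hWSB : SB pW a W (2 ^ r) Pd) (hθ0 : 0 ≤ θ) (hθ : θ ≤ exp (-(19 * (P * L))))
    (hE : Dom θ (a ^ (2 * m + 2 ^ r)) E) (h4N : 4 * (2 : ℝ) ^ r ≤ A)
    (hbd' : Bd (4 * (2 : ℝ) ^ r * u) (Wd a b (pat m r false))
      (Wd a b (pat m r false) - Wd a b (pat m r true))) (g Pd' : ℕ)
    (hg : (g : ℝ) ≤ exp ((2 * L + 1000 * w) / 100)) (hPd' : exp (2 * L + 1000 * w) ≤ Pd') :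
    SB (exp (-(2 * (P * L)) - 2 * Z + 27 * w)) (Wd a b (pat m r false))
      ((Wd a b (pat m r false) - Wd a b (pat m r true)) * (Wd a b (pat m r false)) ^ g *
        (Wd a b (pat m r false) - Wd a b (pat m r true))) (g + 2) Pd' := by
  have hL1 : 1 ≤ L := by linarith
  have hY1 : 27 / 10 * L ≤ P * L := mul_le_mul_of_nonneg_right hP (by linarith)
  have hn500 : exp (L + 500 * w) ≤ ((2 * m + 2 ^ r : ℕ) : ℝ) := by
    push_cast
    have h1 := hMC.m1
    have h2 : (0 : ℝ) ≤ 2 ^ r := by positivity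
    have h3 : (0 : ℝ) ≤ m := Nat.cast_nonneg _
    linarith
  obtain ⟨S, k, hSC⟩ := exists_sChoice (Z := Z) hw1 he5 (by linarith) hs.mpos hR hn500
  have hgS : 2 * (g + 1) ≤ S := by
    have h1 : (2 * ((g : ℝ) + 1)) ≤ S := by
      have h2 : 1 ≤ exp ((2 * L + 1000 * w) / 100) := one_le_exp (by linarith)
      have h3 : exp ((2 * L + 1000 * w) / 100) * exp w ≤ exp (4 * Z - w) := by
        rw [← exp_add]; exact exp_le_exp.mpr (by linarith)
      have h4 := hSC.S3
      nlinarith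
    exact_mod_cast h1
  obtain ⟨e0, he0, he1, hRCh⟩ := refCh_use (m := m) (S := S) (g := g) hRC ha hb hd hbd hu hN hw1
    he5 hwL hLe hP hPL hA huL hX hZX hSC.S2 hgS
  have hdr := drift_pair hDr ha hb hs hMC.m_1 hd hR hMC.mL hN hNV hw1 he5 hwL hLe hSC.S1 hSC.S2
    (by linarith) hZL hZX hX
  rw [← hPa] at hdr
  have hNu : 4 * ((2 : ℝ) ^ r) * u ≤ A * u := mul_le_mul_of_nonneg_right h4N hu
  have hAu1 : A * u ≤ 1 := by
    have h0 : 0 ≤ A * u := by
      have : 0 ≤ A := by linarith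
      positivity
    nlinarith
  have hχ1 : exp (2 * Z - c * L + 7 * w) ≤ 1 := by rw [exp_le_one_iff]; linarith
  have hsb := hPair G a (Wd a b (pat m r false)) (Wd a b (pat m r true)) W E s R m (2 ^ r) Pd S g k
    pW θ (exp (2 * Z - c * L + 7 * w)) (4 * (2 : ℝ) ^ r * u) e0 ha (Wd_prob ha hb _)
    (Wd_prob ha hb _) hs Nat.one_le_two_pow hSC.S1 hMC.m_1 hWE hW0 hpW0 hWSB hMC.Pdm hMC.Nm hθ0 hE
    (exp_pos _).le hχ1 hdr hgS hSC.k1 (by positivity) hbd' he0 hRCh
  have hb5 := pair_bound (S := S) (n := 2 * m + 2 ^ r) (k := k) (η := mass s) (pW := pW) (θ := θ)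
    (χ := exp (2 * Z - c * L + 7 * w)) (u' := 4 * (2 : ℝ) ^ r * u) (e0 := e0) (L := L) (w := w)
    (X := c * L) (Y := P * L) (Z := Z) (by linarith) (by linarith) hpW0 hpW hθ le_rfl hSC.S2
    ((exp_le_exp.mpr (by linarith)).trans hn500) hSC.k2 hs.mpos.le hZL hZX hY1 hwL (by positivity)
    (hNu.trans hAu1) he0 he1
  refine SB_monoPd (SB_mono (Wd_prob ha hb _) hsb hb5) ?_
  have h3 : (3 * (S : ℝ)) ≤ Pd' := by
    refine le_trans ?_ hPd'
    have e : exp (2 * L + 1000 * w) = exp (2 * L + 999 * w) * exp w := by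
      rw [← exp_add]; congr 1; ring
    have h4 : (S : ℝ) ≤ exp (2 * L + 999 * w) := hSC.S2.trans (exp_le_exp.mpr (by linarith))
    rw [e]
    nlinarith [exp_pos (2 * L + 999 * w)]
  exact_mod_cast h3

end Stp

open Stp Real in
/-- **E7** -/
theorem stepStatement (hTM : TMStatement) (hWord : WordStatement) (hDr : DriftStatement)
    (hSl : SlipStepStatement) (hRC : RefChStatement) (hPair : PairStepStatement) :
    StepStatement := by
  intro δ hδ0 hδ1
  have hδ2 : 0 < δ ^ 2 := by positivity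
  refine ⟨10 ^ 8 / δ ^ 2, ?_, ?_⟩
  · rw [le_div_iff₀ hδ2]; nlinarith
  intro q hq0 hq1 L c P u τ hc hP hPc hL hu0 huL hτ x y a b hSt
  obtain ⟨w, r, hU, hPL, h4N, h404⟩ := base_num hδ0 hδ1 hP hL
  generalize exp (10 ^ 8 / δ ^ 2 * P ^ 2) = A at huL h4N h404 ⊢
  have hw1 := hU.w1
  have hwL := hU.wL
  have hwP := hU.wP
  have hLe := hU.Le
  have hN0 := hU.N0
  have he5 := hU.e5
  have hw0 : 0 ≤ w := by linarith
  have hL1 : 1 ≤ L := by linarith
  have hL0 : 0 < L := by linarith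
  have ha := hSt.pa
  have hb := hSt.pb
  obtain ⟨R, s, hs, hR⟩ := hSt.slip
  obtain ⟨ν, hν, hν1, hν2, hν3⟩ : ∃ ν : ℝ, min (1 / 2) (c / 8) = ν ∧ ν ≤ 1 / 2 ∧ ν ≤ c / 8 ∧
      11 / 80 ≤ ν :=
    ⟨_, rfl, min_le_left _ _, min_le_right _ _, le_min (by norm_num) (by linarith)⟩
  rw [hν]
  have hX1 : 11 / 10 * L ≤ c * L := mul_le_mul_of_nonneg_right hc hL0.le
  have hY1 : 27 / 10 * L ≤ P * L := mul_le_mul_of_nonneg_right hP hL0.le
  have hYX : P * L ≤ 3 * (c * L) := by
    have := mul_le_mul_of_nonneg_right hPc hL0.le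
    linarith
  have hZ1 : 11 / 80 * L ≤ ν * L := mul_le_mul_of_nonneg_right hν3 hL0.le
  have hZ2 : 2 * (ν * L) ≤ L := by
    have := mul_le_mul_of_nonneg_right hν1 hL0.le
    linarith
  have hZ3 : 8 * (ν * L) ≤ c * L := by
    have := mul_le_mul_of_nonneg_right hν2 hL0.le
    linarith
  have hdw : 2700 * w ≤ δ * L := by
    have := mul_le_mul_of_nonneg_right hP hw0
    linarith
  obtain ⟨hL', hc', hP'⟩ := expo hδ0 hP hν1 hw0 hwP hdw
  have hη0 : 0 < mass s := hs.mpos
  have hη1 : mass s ≤ 1 := by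
    have := hs.le0.mass_le
    rwa [(ha.pow R).one] at this
  obtain ⟨m, Pd, hMC⟩ := exists_mChoice hw1 hwL he5 hN0
  have hNL : ((2 ^ r : ℕ) : ℝ) ≤ exp (L / 100) := by
    push_cast
    exact hN0.trans (exp_le_exp.mpr (by linarith))
  have hNV : 2 ^ r * exp (-(c * L)) ≤ 1 := by
    calc 2 ^ r * exp (-(c * L)) ≤ exp w * exp (-(c * L)) :=
          mul_le_mul_of_nonneg_right hN0 (exp_pos _).le
      _ = exp (w - c * L) := by rw [← exp_add]; congr 1
      _ ≤ 1 := by rw [exp_le_one_iff]; linarith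
  -- Thue–Morse core
  obtain ⟨W, E, hWE, hW0, hWSB, hE⟩ := hTM BW a b s R m r (2 ^ r) Pd (exp (-(c * L)))
    (exp (-(P * L))) ha hb (exp_pos _).le (exp_pos _).le hSt.dom (by
      rw [← exp_nat_mul]; exact exp_le_exp.mpr (by push_cast; linarith)) hNV hU.r1 le_rfl
    (fun g hg => hSt.pair g Pd (le_trans (by exact_mod_cast hg) hNL) hMC.Pd1) hs hMC.m_1
  obtain ⟨hlen, hne, htv, hPa, hPb⟩ := hWord q τ x y a b m r hq0 hq1 hτ hSt.len hSt.ne ha hb
    hSt.ta hSt.tb
  obtain ⟨hθ0, hθ1⟩ := theta_bound (R := R) (c := c) (L := L) (P := P) hU.r1 (by linarith) hN0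
    hη0 hR hMC.m1 (by linarith) hU.wr
  generalize (2 ^ r * 4 * r * ((R : ℝ) + 1) / ((mass s) ^ 2 * m)) ^ r * exp (-(c * L)) = θ
    at hθ0 hθ1 hE
  obtain ⟨hpW0, hpW1⟩ := pW_bound (Y := P * L) he5 hN0
  generalize 10 * ((2 : ℝ) ^ r) ^ 4 * exp (-(P * L)) = pW at hpW0 hpW1 hWSB
  -- pointwise closeness
  have hA0 : 0 ≤ A := by linarith
  have hNu : 4 * ((2 : ℝ) ^ r) * u ≤ A * u := mul_le_mul_of_nonneg_right h4N hu0.le
  have hAu1 : A * u ≤ 1 := by
    have h0 : 0 ≤ A * u := by positivity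
    nlinarith
  obtain ⟨hbd1, hle1⟩ := Wd_bd ha hb hu0.le hSt.bd (tm r) ((tm r).map not) (2 ^ r) (tm_length r)
    (by rw [List.length_map, tm_length]) (by push_cast; linarith)
  have hdiff : Wd a b (pat m r false) - Wd a b (pat m r true)
      = a ^ m * (Wd a b (tm r) - Wd a b ((tm r).map not)) * a ^ m := by
    rw [hPa, hPb, mul_sub, sub_mul]
  have hWE' : Wd a b (pat m r false) - Wd a b (pat m r true)
      = a ^ m * W * a ^ m + a ^ m * E * a ^ m := by
    rw [hdiff, hWE, mul_add, add_mul]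
  have hbd' : Bd (4 * (2 : ℝ) ^ r * u) (Wd a b (pat m r false))
      (Wd a b (pat m r false) - Wd a b (pat m r true)) := by
    rw [hdiff, hPa]
    have h1 := (hbd1.mulLeft (ha.pow m).pos).mulRight (by positivity)
      ((ha.pow m).pos.mul (Wd_prob ha hb _).pos) (ha.pow m).pos
    push_cast at h1
    exact h1
  have hle' : ∀ f : BW → ℝ, (∀ v, 0 ≤ f v) →
      ev (a ^ (2 * m + 2 ^ r)) f ≤ 2 * ev (Wd a b (pat m r false)) f := by
    have h1 := pad_le ha m hle1
    rw [hPa]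
    have e : a ^ (2 * m + 2 ^ r) = a ^ m * a ^ (2 ^ r) * a ^ m := by
      rw [← pow_add, ← pow_add]; congr 1; ring
    rw [e]; exact h1
  have hnE : ((2 * (m : ℝ)) + 2 ^ r) ≤ exp ((2 + δ / P) * L) := by
    rw [hL']; exact hMC.n2.trans (exp_le_exp.mpr (by linarith))
  refine ⟨blk x y (pat m r false), blk x y (pat m r true), Wd a b (pat m r false),
    Wd a b (pat m r true), ?_⟩
  have hDomW : Dom ((√pW) ^ 2) (a ^ (2 * m + 2 ^ r)) (a ^ m * W * a ^ m) := by
    rw [sq_sqrt hpW0]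
    exact SB_dom hWSB (by have := hMC.Pdm; omega)
  have hDomE : Dom ((√θ) ^ 2) (a ^ (2 * m + 2 ^ r)) (a ^ m * E * a ^ m) := by
    rw [sq_sqrt hθ0]; exact hE
  refine
    { len := by rw [hlen, hlen]
      ne := hne
      lenL := ?_
      pa := Wd_prob ha hb _
      pb := Wd_prob ha hb _
      ta := (htv false).mono (mul_le_mul_of_nonneg_right hnE hτ)
      tb := (htv true).mono (mul_le_mul_of_nonneg_right hnE hτ)
      bd := hbd'.mono hNu (Wd_prob ha hb _).pos
      dom := ?_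
      pair := ?_
      slip := ?_ }
  · rw [hlen]
    push_cast
    calc (2 * (m : ℝ) + 2 ^ r) * x.length ≤ exp (L + 502 * w) * exp L :=
          mul_le_mul hMC.n2 hSt.lenL (Nat.cast_nonneg _) (exp_pos _).le
      _ = exp (2 * L + 502 * w) := by rw [← exp_add]; congr 1; ring
      _ ≤ exp ((2 + δ / P) * L) := by rw [hL']; exact exp_le_exp.mpr (by linarith)
  · have h1 := Dom.add hDomW hDomE (sqrt_nonneg _) (sqrt_nonneg _) (ha.pow _).pos
    rw [← hWE'] at h1
    have h2 := h1.ref (sq_nonneg _) hle'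
    exact h2.mono (newV he5 hpW1 hw0 (by linarith) hθ1 hc') (Wd_prob ha hb _).pos
  · intro g Pd' hg hPd'
    rw [hL'] at hg hPd'
    refine SB_mono (Wd_prob ha hb _) (pair_use hDr hRC hPair ha hb hs hR hMC hSt.dom hSt.bd hu0.le
      hN0 hw1 he5 hwL hLe hP hPL h404 huL hX1 hZ1 hZ2 hZ3 hNV hWE' hPa hW0 hpW0 hpW1 hWSB hθ0
      hθ1 hE h4N hbd' g Pd' hg hPd') (exp_le_exp.mpr ?_)
    linarith
  · have h1 := slip_use hDr hSl ha hb hs hMC.m_1 hSt.dom hR hη1 hMC.mL hN0 hNV hMC.n2 hw1 he5 hwL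
      hLe hX1
    rw [← hPa] at h1
    rw [hL']
    exact h1

end

end Crest.Agent.R300LB
end

-- ▼ part R300/LBDone

/-! Row 300, lower bounds: `CoreStatement` -/

set_option autoImplicit false

namespace Crest.Agent.R300LB

theorem core : CoreStatement :=
  core_of base_slip (stepStatement stepPieces.tmS stepPieces.word stepPieces.drift
    stepPieces.slipStep stepPieces.refCh stepPieces.pair)

end Crest.Agent.R300LB
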