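import Crest.Agent.R300.LBInterface
import Crest.Agent.R300.LBLaw2
import Crest.Prelude.Def_TraceTV
import Crest.Agent.R300.LBPlan
import Crest.Agent.R300.LBOrth
import Crest.Agent.R300.LBDefs
import Crest.Agent.R300.LBCoin
import Crest.Agent.R300.LBOneLevel

-- ▼ part R300/LBFinal
section

/-!
# Row 300, lower bounds: thinning, padding, the word family, and the final deduction from `CoreStatement`
-/

set_option autoImplicit false

namespace Crest.Agent.R300LB

open Finset

noncomputable section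

namespace Fnl

variable {G : Type*} [Monoid G]

/-! ### TV calculus -/

theorem TVle.add {τ σ : ℝ} {μ ν : MA G} (h1 : TVle τ μ) (h2 : TVle σ ν) : TVle (τ + σ) (μ + ν) := by
  intro f hf
  rw [ev_add]
  exact (abs_add_le _ _).trans (add_le_add (h1 f hf) (h2 f hf))

theorem TVle.neg {τ : ℝ} {μ : MA G} (h1 : TVle τ μ) : TVle τ (-μ) := by
  intro f hf
  rw [ev_neg, abs_neg]
  exact h1 f hf


theorem TVle.mono {τ σ : ℝ} {μ : MA G} (h1 : TVle τ μ) (h : τ ≤ σ) : TVle σ μ :=
  fun f hf => (h1 f hf).trans h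

theorem TVle.zero' : TVle 0 (0 : MA G) := by
  intro f _
  rw [ev_zero, abs_zero]

theorem abs_ev_le_one {a : MA G} (ha : Prob a) {f : G → ℝ} (hf : ∀ w, |f w| ≤ 1) :
    |ev a f| ≤ 1 := by
  have h1 : ev a f ≤ ev a (fun _ => 1) := ha.pos.mono (fun w => (abs_le.mp (hf w)).2)
  have h2 : ev a (fun _ => -1) ≤ ev a f := ha.pos.mono (fun w => (abs_le.mp (hf w)).1)
  rw [ev_const ha] at h1 h2
  exact abs_le.mpr ⟨h2, h1⟩

theorem TVle.mul_left {τ : ℝ} {ν a : MA G} (h : TVle τ ν) (ha : Prob a) (hτ : 0 ≤ τ) :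
    TVle τ (a * ν) := by
  intro f hf
  rw [ev_mul]
  have h1 : ∀ u, |ev ν fun v => f (u * v)| ≤ τ := fun u => h _ (fun v => hf _)
  rcases hτ.eq_or_lt with h0 | h0
  · have : ∀ u, (ev ν fun v => f (u * v)) = 0 := fun u => by
      have := h1 u
      rw [← h0] at this
      exact abs_nonpos_iff.mp this
    simp only [this]
    have hz : ev a (fun _ => (0:ℝ)) = 0 := ev_const ha 0
    rw [hz, abs_zero]; exact hτ
  · have h2 := abs_ev_le_one ha (f := fun u => τ⁻¹ * ev ν fun v => f (u * v)) (fun u => by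
      rw [abs_mul, abs_of_pos (inv_pos.mpr h0)]
      rw [inv_mul_le_iff₀ h0, mul_one]
      exact h1 u)
    rw [ev_mul_fun, abs_mul, abs_of_pos (inv_pos.mpr h0), inv_mul_le_iff₀ h0, mul_one] at h2
    exact h2

theorem TVle.mul_right {τ : ℝ} {ν a : MA G} (h : TVle τ ν) (ha : Prob a) :
    TVle τ (ν * a) := by
  intro f hf
  rw [ev_mul]
  exact h _ (fun u => abs_ev_le_one ha (fun v => hf _))

theorem TVle.nonneg {τ : ℝ} {ν : MA G} (h : TVle τ ν) : 0 ≤ τ :=
  (abs_nonneg _).trans (h (fun _ => 0) (by simp))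

/-- product of two close pairs -/
theorem TVle.prod {τ σ : ℝ} {a a' b b' : MA G} (h1 : TVle τ (a - a')) (h2 : TVle σ (b - b'))
    (hb : Prob b) (ha' : Prob a') : TVle (τ + σ) (a * b - a' * b') := by
  have e : a * b - a' * b' = (a - a') * b + a' * (b - b') := by
    rw [sub_mul, mul_sub]; abel
  rw [e]
  exact TVle.add (TVle.mul_right h1 hb) (TVle.mul_left h2 ha' (TVle.nonneg h2))

theorem TVle.pow {τ : ℝ} {a a' : MA G} (h1 : TVle τ (a - a')) (ha : Prob a) (ha' : Prob a') (k : ℕ) :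
    TVle (k * τ) (a ^ k - a' ^ k) := by
  induction k with
  | zero => simpa using (TVle.zero' (G := G))
  | succ k ih =>
    rw [pow_succ, pow_succ]
    have := TVle.prod ih h1 ha (ha'.pow k)
    refine TVle.mono this ?_
    push_cast
    linarith

theorem tv_of_dom {V : ℝ} {π ν : MA G} (h : Dom V π ν) (hπ : Prob π) (hV : 0 ≤ V) :
    TVle (Real.sqrt V) ν := by
  intro f hf
  have h1 := h f
  have h2 : ev π (fun w => f w ^ 2) ≤ 1 := by
    have := hπ.pos.mono (f := fun w => f w ^ 2) (g := fun _ => 1) (fun w => by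
      have := hf w
      rw [← sq_abs]
      nlinarith [abs_nonneg (f w)])
    rwa [ev_const hπ] at this
  have h3 : (ev ν f) ^ 2 ≤ V := h1.trans (by nlinarith)
  exact Real.abs_le_sqrt h3

/-! ### the deletion channel -/

theorem prob_letter {q : ℝ} (h0 : 0 ≤ q) (h1 : q ≤ 1) (c : Bool) : Prob (letter q c) := by
  constructor
  · refine Pos.add (Pos.smul Pos.one h0) (Pos.smul ?_ (by linarith))
    intro f hf
    rw [ev_single, one_mul]
    exact hf _
  · unfold letter mass
    rw [ev_add, ev_smul, ev_smul, ev_one, ev_single]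
    ring

theorem D_nil (q : ℝ) : D q [] = 1 := rfl

theorem D_cons (q : ℝ) (c : Bool) (w : List Bool) : D q (c :: w) = letter q c * D q w := rfl

theorem D_append (q : ℝ) (u v : List Bool) : D q (u ++ v) = D q u * D q v := by
  unfold D
  rw [List.map_append, List.prod_append]

theorem prob_D {q : ℝ} (h0 : 0 ≤ q) (h1 : q ≤ 1) (w : List Bool) : Prob (D q w) := by
  induction w with
  | nil => exact Prob.one'
  | cons c w ih => rw [D_cons]; exact (prob_letter h0 h1 c).mul ih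

/-- `k`-fold repetition of a word -/
def rep (x : List Bool) : ℕ → List Bool
  | 0 => []
  | k + 1 => x ++ rep x k

theorem rep_length (x : List Bool) (k : ℕ) : (rep x k).length = k * x.length := by
  induction k with
  | zero => simp [rep]
  | succ k ih => rw [rep, List.length_append, ih]; ring

theorem D_rep (q : ℝ) (x : List Bool) (k : ℕ) : D q (rep x k) = D q x ^ k := by
  induction k with
  | zero => rw [rep, pow_zero, D_nil]
  | succ k ih => rw [rep, D_append, ih, pow_succ']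

theorem rep_add (x : List Bool) (j k : ℕ) : rep x (j + k) = rep x j ++ rep x k := by
  induction j with
  | zero => simp [rep]
  | succ j ih =>
    rw [Nat.add_right_comm, rep, ih, rep, List.append_assoc]

/-! ### thinning -/

/-- the thinning homomorphism -/
def Th (r : ℝ) : MA BW →ₐ[ℝ] MA BW :=
  MonoidAlgebra.lift ℝ (MA BW) BW (FreeMonoid.lift (letter r))

theorem Th_single (r : ℝ) (w : BW) (c : ℝ) :
    Th r (MonoidAlgebra.single w c) = c • D r w.toList := by
  unfold Th D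
  rw [MonoidAlgebra.lift_single, FreeMonoid.lift_apply]

theorem ev_Th (r : ℝ) (ν : MA BW) (f : BW → ℝ) :
    ev (Th r ν) f = ev ν (fun w => ev (D r w.toList) f) := by
  induction ν using MonoidAlgebra.induction_linear with
  | zero => rw [map_zero, ev_zero, ev_zero]
  | add x y hx hy => rw [map_add, ev_add, ev_add, hx, hy]
  | single w c => rw [Th_single, ev_smul, ev_single]

theorem Th_letter {q0 r q : ℝ} (h : q = q0 + (1 - q0) * r) (c : Bool) :
    Th r (letter q0 c) = letter q c := by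
  unfold letter
  rw [map_add, map_smul, map_smul, map_one, Th_single]
  have : (FreeMonoid.toList (FreeMonoid.of c)) = [c] := rfl
  rw [this, D_cons, D_nil, mul_one, one_smul]
  unfold letter
  rw [smul_add, smul_smul, smul_smul, ← add_assoc, ← add_smul, h]
  congr 2
  ring

theorem Th_D {q0 r q : ℝ} (h : q = q0 + (1 - q0) * r) (w : List Bool) :
    Th r (D q0 w) = D q w := by
  induction w with
  | nil => rw [D_nil, D_nil, map_one]
  | cons c w ih => rw [D_cons, D_cons, map_mul, ih, Th_letter h]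

theorem prob_Th {r : ℝ} (h0 : 0 ≤ r) (h1 : r ≤ 1) {a : MA BW} (ha : Prob a) : Prob (Th r a) := by
  constructor
  · intro f hf
    rw [ev_Th]
    exact ha.pos _ (fun w => (prob_D h0 h1 _).pos f hf)
  · unfold mass
    rw [ev_Th]
    have : (fun w : BW => ev (D r w.toList) (fun _ => (1:ℝ))) = fun _ => 1 := by
      funext w
      exact ev_const (prob_D h0 h1 _) 1
    rw [this]
    exact ha.one

theorem tv_Th {r : ℝ} (h0 : 0 ≤ r) (h1 : r ≤ 1) {τ : ℝ} {ν : MA BW} (h : TVle τ ν) :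
    TVle τ (Th r ν) := by
  intro f hf
  rw [ev_Th]
  exact h _ (fun w => abs_ev_le_one (prob_D h0 h1 _) hf)

theorem dom_Th {r : ℝ} (h0 : 0 ≤ r) (h1 : r ≤ 1) {V : ℝ} (hV : 0 ≤ V) {π ν : MA BW}
    (hπ : Pos π) (h : Dom V π ν) : Dom V (Th r π) (Th r ν) := by
  intro f
  rw [ev_Th, ev_Th]
  refine (h _).trans (mul_le_mul_of_nonneg_left ?_ hV)
  refine hπ.mono (fun w => ?_)
  have := Dom.self_prob (prob_D h0 h1 w.toList) f
  simpa using this

/-! ### lists as functions -/

theorem exists_ofFn {n : ℕ} (l : List Bool) (h : l.length = n) :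
    ∃ f : Fin n → Bool, List.ofFn f = l := by
  subst h
  exact ⟨l.get, List.ofFn_get l⟩

/-- the `i`-th member of the family: `x^i y x^(T-1-i)` padded by `false` to length `n` -/
def zw (n T : ℕ) (x y : List Bool) (i : ℕ) : List Bool :=
  rep x i ++ (y ++ (rep x (T - 1 - i) ++ List.replicate (n - T * x.length) false))

theorem zw_length {n T : ℕ} {x y : List Bool} (hxy : x.length = y.length) (h : T * x.length ≤ n)
    {i : ℕ} (hi : i < T) : (zw n T x y i).length = n := by
  unfold zw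
  rw [List.length_append, List.length_append, List.length_append, rep_length, rep_length,
    List.length_replicate, ← hxy]
  have h1 : i * x.length + (x.length + (T - 1 - i) * x.length) = T * x.length := by
    have : i + 1 + (T - 1 - i) = T := by omega
    calc i * x.length + (x.length + (T - 1 - i) * x.length)
        = (i + 1 + (T - 1 - i)) * x.length := by ring
      _ = T * x.length := by rw [this]
  omega

theorem zw_inj {n T : ℕ} {x y : List Bool} (hxy : x.length = y.length) (hne : x ≠ y)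
    {i j : ℕ} (hij : i < j) (hj : j < T) : zw n T x y i ≠ zw n T x y j := by
  intro h
  unfold zw at h
  obtain ⟨k, rfl⟩ : ∃ k, j = i + (k + 1) := ⟨j - i - 1, by omega⟩
  rw [rep_add, List.append_assoc] at h
  have h1 := List.append_cancel_left h
  rw [rep, List.append_assoc] at h1
  have h2 := (List.append_inj h1 hxy.symm).1
  exact hne h2.symm

theorem D_zw (q : ℝ) (n T : ℕ) (x y : List Bool) (i : ℕ) :
    D q (zw n T x y i) = D q x ^ i * (D q y * (D q x ^ (T - 1 - i) *
      D q (List.replicate (n - T * x.length) false))) := by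
  unfold zw
  rw [D_append, D_append, D_append, D_rep, D_rep]

/-- Everything the sampling argument needs: for the deletion probability `q ≥ q0`. -/
theorem family {q0 q : ℝ} (h0 : 0 ≤ q0) (h01 : q0 < 1) (hq : q0 ≤ q) (hq1 : q ≤ 1)
    {n T : ℕ} {x y : List Bool} (hxy : x.length = y.length) (hne : x ≠ y)
    (hT : T * x.length ≤ n) {a b : MA BW} (ha : Prob a) (hb : Prob b) {V τ : ℝ}
    (hV : 0 ≤ V) (hta : TVle τ (a - D q0 x)) (htb : TVle τ (b - D q0 y)) (hd : Dom V a (a - b)) :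
    ∃ (z : Fin T → (Fin n → Bool)) (π : MA BW) (ν : Fin T → MA BW),
      Function.Injective z ∧ Prob π ∧ (∀ i, mass (ν i) = 0) ∧ (∀ i, Dom V π (ν i)) ∧
      (∀ i, Prob (π + ν i)) ∧ (∀ i, TVle (T * τ) (π + ν i - D q (List.ofFn (z i)))) := by
  classical
  set r : ℝ := (q - q0) / (1 - q0) with hr
  have h1q : 0 < 1 - q0 := by linarith
  have hr0 : 0 ≤ r := div_nonneg (by linarith) h1q.le
  have hr1 : r ≤ 1 := (div_le_one h1q).mpr (by linarith)
  have hrq : q = q0 + (1 - q0) * r := by rw [hr]; field_simp; ring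
  have hτ : 0 ≤ τ := TVle.nonneg hta
  -- thinned data
  set a' := Th r a with ha'
  set b' := Th r b with hb'
  have pa : Prob a' := prob_Th hr0 hr1 ha
  have pb : Prob b' := prob_Th hr0 hr1 hb
  have ta : TVle τ (a' - D q x) := by
    rw [ha', ← Th_D hrq x, ← map_sub]; exact tv_Th hr0 hr1 hta
  have tb : TVle τ (b' - D q y) := by
    rw [hb', ← Th_D hrq y, ← map_sub]; exact tv_Th hr0 hr1 htb
  have da : Dom V a' (a' - b') := by
    rw [ha', hb', ← map_sub]; exact dom_Th hr0 hr1 hV ha.pos hd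
  have hq0 : 0 ≤ q := h0.trans hq
  have hz : ∀ i : Fin T, ∃ f : Fin n → Bool, List.ofFn f = zw n T x y i := fun i =>
    exists_ofFn _ (zw_length hxy hT i.2)
  choose z hz using hz
  set c := D q (List.replicate (n - T * x.length) false) with hc
  have pc : Prob c := prob_D hq0 hq1 _
  have key : ∀ i : Fin T, a' ^ T = a' ^ (i : ℕ) * (a' * a' ^ (T - 1 - (i : ℕ))) := fun i => by
    rw [← pow_succ', ← pow_add]; congr 1; have := i.2; omega
  refine ⟨z, a' ^ T * c, fun i => - (a' ^ (i : ℕ) * ((a' - b') * (a' ^ (T - 1 - (i : ℕ)) * c))),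
    ?_, (pa.pow T).mul pc, ?_, ?_, ?_, ?_⟩
  · intro i j hij
    have e : zw n T x y i = zw n T x y j := by rw [← hz i, ← hz j, hij]
    by_contra hne'
    rcases lt_or_gt_of_ne (fun h => hne' (Fin.ext h) : (i : ℕ) ≠ j) with h | h
    · exact zw_inj hxy hne h j.2 e
    · exact zw_inj hxy hne h i.2 e.symm
  · intro i
    have : mass (a' - b') = 0 := by rw [mass_sub, pa.one, pb.one, sub_self]
    have h1 : mass (-(a' ^ (i : ℕ) * ((a' - b') * (a' ^ (T - 1 - (i : ℕ)) * c)))) =
        - mass (a' ^ (i : ℕ) * ((a' - b') * (a' ^ (T - 1 - (i : ℕ)) * c))) := ev_neg _ _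
    rw [h1, mass_mul, mass_mul, this]
    ring
  · intro i
    refine Dom.neg ?_
    have h1 := Dom.mul (Dom.self_prob (pa.pow (i : ℕ)))
      (Dom.mul da (Dom.self_prob ((pa.pow (T - 1 - (i : ℕ))).mul pc)) hV pa.pos) zero_le_one
      (pa.pow _).pos
    have e1 : a' ^ (i : ℕ) * (a' * (a' ^ (T - 1 - (i : ℕ)) * c)) = a' ^ T * c := by
      rw [key i]; simp only [mul_assoc]
    rw [e1, one_mul, mul_one] at h1
    exact h1
  · intro i
    have e : a' ^ T * c + -(a' ^ (i : ℕ) * ((a' - b') * (a' ^ (T - 1 - (i : ℕ)) * c))) =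
        a' ^ (i : ℕ) * (b' * (a' ^ (T - 1 - (i : ℕ)) * c)) := by
      rw [key i]; simp only [mul_assoc, sub_mul, mul_sub]; abel
    rw [e]
    exact (pa.pow _).mul (pb.mul ((pa.pow _).mul pc))
  · intro i
    have e : a' ^ T * c + -(a' ^ (i : ℕ) * ((a' - b') * (a' ^ (T - 1 - (i : ℕ)) * c))) =
        a' ^ (i : ℕ) * (b' * (a' ^ (T - 1 - (i : ℕ)) * c)) := by
      rw [key i]; simp only [mul_assoc, sub_mul, mul_sub]; abel
    rw [e, hz i, D_zw]
    have pD : Prob (D q x) := prob_D hq0 hq1 _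
    have pDy : Prob (D q y) := prob_D hq0 hq1 _
    have t1 := TVle.pow ta pa pD (i : ℕ)
    have t2 := TVle.pow ta pa pD (T - 1 - (i : ℕ))
    have t3 : TVle 0 (c - c) := by rw [sub_self]; exact TVle.zero'
    have t4 := TVle.prod t2 t3 pc (pD.pow _)
    have t5 := TVle.prod tb t4 ((pa.pow _).mul pc) pDy
    have t6 := TVle.prod t1 t5 (pb.mul ((pa.pow _).mul pc)) (pD.pow _)
    refine TVle.mono t6 ?_
    have hi : ((i : ℕ) : ℝ) + 1 + ((T - 1 - (i : ℕ) : ℕ) : ℝ) = T := by
      have : (i : ℕ) + 1 + (T - 1 - (i : ℕ)) = T := by have := i.2; omega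
      exact_mod_cast this
    rw [← hi]
    nlinarith

/-! ### real analysis -/

theorem num_samples {c c' s : ℝ} (hc : 0 < c) (hcc : c < c') (hs : 0 < s) (T : ℕ) :
    ∃ (N₀ : ℕ) (R : ℝ), 1 ≤ R ∧ ∀ n : ℕ, N₀ ≤ n → ∀ Λ Λ0 : ℝ, R ≤ Λ → Λ ≤ Real.log n →
      Λ / 4096 ≤ Λ0 → ∀ m : ℕ, (m : ℝ) < (n : ℝ) ^ (c * Real.log Λ) → ∀ V τ : ℝ, 0 ≤ V →
      V ≤ (n : ℝ) ^ (-(c' * Real.log Λ0)) → 0 ≤ τ → τ ≤ Real.exp (-(Real.log n) ^ (3 / 2 : ℝ)) →
      Real.sqrt ((1 + V) ^ m - 1) + m * (T * τ) ≤ s / 2 := by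
  set B : ℝ := (4 * c + 1) ^ 4 with hB
  obtain ⟨N₀, hN₀⟩ := exists_nat_ge (max (max (Real.exp B) 2) (max (32 / s ^ 2) (4 * T / s)))
  refine ⟨N₀, max 1 (Real.exp ((c' * Real.log 4096 + 1) / (c' - c))), le_max_left _ _, ?_⟩
  intro n hn Λ Λ0 hΛR hΛn hΛ0 m hm V τ hV0 hV hτ0 hτ
  have hnN : (N₀ : ℝ) ≤ n := by exact_mod_cast hn
  have hn1 : Real.exp B ≤ n := ((le_max_left _ _).trans (le_max_left _ _)).trans (hN₀.trans hnN)
  have hn2 : (2 : ℝ) ≤ n := ((le_max_right _ _).trans (le_max_left _ _)).trans (hN₀.trans hnN)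
  have hn3 : 32 / s ^ 2 ≤ n := ((le_max_left _ _).trans (le_max_right _ _)).trans (hN₀.trans hnN)
  have hn4 : 4 * T / s ≤ n := ((le_max_right _ _).trans (le_max_right _ _)).trans (hN₀.trans hnN)
  have hnpos : (0 : ℝ) < n := by linarith
  set l := Real.log n with hl
  have hlexp : Real.exp l = n := Real.exp_log hnpos
  have hlB : B ≤ l := by rw [hl]; exact (Real.le_log_iff_exp_le hnpos).mpr hn1
  have hB1 : 1 ≤ B := by
    rw [hB]; exact one_le_pow₀ (by linarith)
  have hl1 : 1 ≤ l := hB1.trans hlB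
  have hl0 : 0 < l := by linarith
  have hΛ1 : 1 ≤ Λ := (le_max_left _ _).trans hΛR
  have hΛpos : 0 < Λ := by linarith
  have hlogΛ0 : 0 ≤ Real.log Λ := Real.log_nonneg hΛ1
  have hΛe : (c' * Real.log 4096 + 1) / (c' - c) ≤ Real.log Λ :=
    (Real.le_log_iff_exp_le hΛpos).mpr ((le_max_right _ _).trans hΛR)
  have hcc' : 0 < c' - c := by linarith
  have hc' : 0 < c' := by linarith
  have h1 : c' * Real.log 4096 + 1 ≤ (c' - c) * Real.log Λ := by
    rw [div_le_iff₀ hcc'] at hΛe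
    linarith
  have hrp : ∀ x : ℝ, (n : ℝ) ^ x = Real.exp (l * x) := fun x => by
    rw [Real.rpow_def_of_pos hnpos]
  rw [hrp] at hm hV
  have hlogΛ0' : Real.log Λ - Real.log 4096 ≤ Real.log Λ0 := by
    rw [← Real.log_div hΛpos.ne' (by norm_num)]
    exact Real.log_le_log (by positivity) hΛ0
  have hm0 : (0 : ℝ) ≤ m := Nat.cast_nonneg m
  -- m V ≤ exp (-l)
  have hmV : (m : ℝ) * V ≤ Real.exp (-l) := by
    calc (m : ℝ) * V ≤ Real.exp (l * (c * Real.log Λ)) * Real.exp (l * -(c' * Real.log Λ0)) :=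
          mul_le_mul hm.le hV hV0 (Real.exp_pos _).le
      _ = Real.exp (l * (c * Real.log Λ - c' * Real.log Λ0)) := by
          rw [← Real.exp_add]; congr 1; ring
      _ ≤ Real.exp (-l) := by
          apply Real.exp_le_exp.mpr
          have h2 : c * Real.log Λ - c' * Real.log Λ0 ≤ -1 := by
            have := mul_le_mul_of_nonneg_left hlogΛ0' hc'.le
            linarith
          have h3 := mul_le_mul_of_nonneg_left h2 hl0.le
          linarith
  have hexpn : Real.exp (-l) = 1 / n := by rw [Real.exp_neg, hlexp, one_div]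
  have hmV0 : 0 ≤ (m : ℝ) * V := mul_nonneg hm0 hV0
  have hmV1 : (m : ℝ) * V ≤ 1 := hmV.trans (by
    rw [hexpn, div_le_one hnpos]; linarith)
  have hpow : (1 + V) ^ m ≤ Real.exp (m * V) := by
    rw [Real.exp_nat_mul]
    exact pow_le_pow_left₀ (by linarith) (by linarith [Real.add_one_le_exp V]) m
  have hexp2 : Real.exp (m * V) - 1 ≤ 2 * (m * V) := by
    have := Real.abs_exp_sub_one_le (x := (m : ℝ) * V) (by rw [abs_of_nonneg hmV0]; exact hmV1)
    rw [abs_of_nonneg hmV0] at this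
    exact (le_abs_self _).trans this
  have hsq : Real.sqrt ((1 + V) ^ m - 1) ≤ s / 4 := by
    apply Real.sqrt_le_iff.mpr
    refine ⟨by linarith, ?_⟩
    have h3 : 2 * (1 / (n : ℝ)) ≤ (s / 4) ^ 2 := by
      rw [div_le_iff₀ (by positivity)] at hn3
      rw [mul_one_div, div_le_iff₀ hnpos]
      linarith
    have h4 : (1 + V) ^ m - 1 ≤ 2 * (m * V) := by linarith
    have h5 : 2 * ((m : ℝ) * V) ≤ 2 * (1 / (n : ℝ)) := by rw [← hexpn]; linarith
    linarith
  -- the TV part
  have hloglog : Real.log Λ ≤ Real.log l := Real.log_le_log hΛpos hΛn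
  have hlogl : Real.log l ≤ 4 * l ^ (1 / 4 : ℝ) := by
    have := Real.log_le_rpow_div hl0.le (show (0 : ℝ) < 1 / 4 by norm_num)
    calc Real.log l ≤ l ^ (1 / 4 : ℝ) / (1 / 4) := this
      _ = 4 * l ^ (1 / 4 : ℝ) := by ring
  have hlq : 4 * c + 1 ≤ l ^ (1 / 4 : ℝ) := by
    have h6 : (B : ℝ) ^ (1 / 4 : ℝ) ≤ l ^ (1 / 4 : ℝ) :=
      Real.rpow_le_rpow (by linarith) hlB (by norm_num)
    have h7 : B ^ (1 / 4 : ℝ) = 4 * c + 1 := by
      rw [hB, ← Real.rpow_natCast, ← Real.rpow_mul (by linarith)]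
      norm_num
    rw [← h7]; exact h6
  have hl32 : l ^ (3 / 2 : ℝ) = l * (l ^ (1 / 4 : ℝ) * l ^ (1 / 4 : ℝ)) := by
    rw [← Real.rpow_add hl0]
    nth_rewrite 2 [← Real.rpow_one l]
    rw [← Real.rpow_add hl0]
    norm_num
  have hmT : (m : ℝ) * (T * τ) ≤ s / 4 := by
    have h8 : (m : ℝ) * τ ≤ Real.exp (-l) := by
      calc (m : ℝ) * τ ≤ Real.exp (l * (c * Real.log Λ)) * Real.exp (-l ^ (3 / 2 : ℝ)) :=
            mul_le_mul hm.le hτ hτ0 (Real.exp_pos _).le
        _ = Real.exp (l * (c * Real.log Λ) - l ^ (3 / 2 : ℝ)) := by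
            rw [← Real.exp_add]; congr 1
        _ ≤ Real.exp (-l) := by
            apply Real.exp_le_exp.mpr
            rw [hl32]
            set z := l ^ (1 / 4 : ℝ) with hz
            have hz1 : 1 ≤ z := by linarith
            have h9 : c * Real.log Λ ≤ c * (4 * z) :=
              mul_le_mul_of_nonneg_left (hloglog.trans hlogl) hc.le
            have h10 : c * (4 * z) + 1 ≤ z * z := by
              have := mul_le_mul_of_nonneg_right hlq (show 0 ≤ z by linarith)
              linarith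
            have h11 : c * Real.log Λ - z * z ≤ -1 := by linarith
            have h12 := mul_le_mul_of_nonneg_left h11 hl0.le
            linarith
    calc (m : ℝ) * (T * τ) = T * (m * τ) := by ring
      _ ≤ T * (1 / n) := by
          rw [← hexpn]; exact mul_le_mul_of_nonneg_left h8 (Nat.cast_nonneg T)
      _ ≤ s / 4 := by
          rw [div_le_iff₀ hs] at hn4
          rw [mul_one_div, div_le_iff₀ hnpos]
          linarith
  linarith

theorem num_tv {c' A ε : ℝ} (hc' : 0 < c') (hA : 0 < A) (hε : 0 < ε) :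
    ∃ (N₀ : ℕ) (R : ℝ), ∀ n : ℕ, N₀ ≤ n → ∀ Λ0 : ℝ, R ≤ Λ0 → ∀ V τ : ℝ, 0 ≤ V →
      V ≤ (n : ℝ) ^ (-(c' * Real.log Λ0)) → τ ≤ Real.exp (-(Real.log n) ^ (3 / 2 : ℝ)) →
      (n : ℝ) ^ A * (2 * τ + Real.sqrt V) < ε := by
  set B : ℝ := (A + 1) ^ 2 with hB
  obtain ⟨N₀, hN₀⟩ := exists_nat_ge (max (max (Real.exp B) 2) (4 / ε))
  refine ⟨N₀, max 1 (Real.exp (2 * (A + 1) / c')), ?_⟩
  intro n hn Λ0 hΛR V τ hV0 hV hτ
  have hnN : (N₀ : ℝ) ≤ n := by exact_mod_cast hn
  have hn1 : Real.exp B ≤ n := ((le_max_left _ _).trans (le_max_left _ _)).trans (hN₀.trans hnN)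
  have hn2 : (2 : ℝ) ≤ n := ((le_max_right _ _).trans (le_max_left _ _)).trans (hN₀.trans hnN)
  have hn3 : 4 / ε ≤ n := (le_max_right _ _).trans (hN₀.trans hnN)
  have hnpos : (0 : ℝ) < n := by linarith
  set l := Real.log n with hl
  have hlexp : Real.exp l = n := Real.exp_log hnpos
  have hlB : B ≤ l := by rw [hl]; exact (Real.le_log_iff_exp_le hnpos).mpr hn1
  have hB1 : 1 ≤ B := by
    rw [hB]; exact one_le_pow₀ (by linarith)
  have hl0 : 0 < l := by linarith
  have hΛpos : 0 < Λ0 := by linarith [(le_max_left (1:ℝ) (Real.exp (2 * (A + 1) / c'))).trans hΛR]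
  have hΛe : 2 * (A + 1) / c' ≤ Real.log Λ0 :=
    (Real.le_log_iff_exp_le hΛpos).mpr ((le_max_right _ _).trans hΛR)
  have h1 : 2 * (A + 1) ≤ c' * Real.log Λ0 := by
    rw [div_le_iff₀ hc'] at hΛe
    linarith
  have hrp : ∀ x : ℝ, (n : ℝ) ^ x = Real.exp (l * x) := fun x => by
    rw [Real.rpow_def_of_pos hnpos]
  rw [hrp] at hV ⊢
  have hexpn : Real.exp (-l) = 1 / n := by rw [Real.exp_neg, hlexp, one_div]
  have hsqV : Real.sqrt V ≤ Real.exp (-(l * (A + 1))) := by
    apply Real.sqrt_le_iff.mpr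
    refine ⟨(Real.exp_pos _).le, hV.trans ?_⟩
    rw [pow_two, ← Real.exp_add]
    apply Real.exp_le_exp.mpr
    have := mul_le_mul_of_nonneg_left h1 hl0.le
    linarith
  have hlq : A + 1 ≤ l ^ (1 / 2 : ℝ) := by
    have h6 : (B : ℝ) ^ (1 / 2 : ℝ) ≤ l ^ (1 / 2 : ℝ) :=
      Real.rpow_le_rpow (by linarith) hlB (by norm_num)
    have h7 : B ^ (1 / 2 : ℝ) = A + 1 := by
      rw [hB, ← Real.rpow_natCast, ← Real.rpow_mul (by linarith)]
      norm_num
    rw [← h7]; exact h6
  have hl32 : l ^ (3 / 2 : ℝ) = l * l ^ (1 / 2 : ℝ) := by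
    nth_rewrite 2 [← Real.rpow_one l]
    rw [← Real.rpow_add hl0]
    norm_num
  have hτ' : τ ≤ Real.exp (-(l * (A + 1))) := by
    refine hτ.trans (Real.exp_le_exp.mpr ?_)
    rw [hl32]
    have := mul_le_mul_of_nonneg_left hlq hl0.le
    linarith
  calc Real.exp (l * A) * (2 * τ + Real.sqrt V)
      ≤ Real.exp (l * A) * (3 * Real.exp (-(l * (A + 1)))) :=
        mul_le_mul_of_nonneg_left (by linarith) (Real.exp_pos _).le
    _ = 3 * Real.exp (-l) := by
        rw [mul_left_comm, ← Real.exp_add]; congr 2; ring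
    _ < ε := by
        rw [hexpn, mul_one_div, div_lt_iff₀ hnpos]
        rw [div_le_iff₀ hε] at hn3
        linarith

/-- final deduction for S0454 -/
theorem S0454_of_core (hcore : CoreStatement) (s : ℝ) (hs : 0 < s) (c : ℝ) (hc : 0 < c)
    (hc' : c < 1 / (4 * Real.log 2)) :
    ∃ (N₀ : ℕ) (R : ℝ), ∀ n ≥ N₀, ∀ q : ℝ, 0 < q → q < 1 → R ≤ q ^ 3 * Real.log n →
      ∀ m : ℕ, (m : ℝ) < (n : ℝ) ^ (c * Real.log (q ^ 3 * Real.log n)) →
        ∀ K : (Fin m → List Bool) → (Fin n → Bool) → ℝ, Crest.TraceRecon.IsRule K →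
          ∃ x : Fin n → Bool, Crest.TraceRecon.successProb (1 - q) K x < s := by
  have hlog2 : 0 < 4 * Real.log 2 := by have := Real.log_pos (by norm_num : (1:ℝ) < 2); linarith
  -- choose δ
  obtain ⟨δ, hδ0, hδ1, hδ⟩ : ∃ δ : ℝ, 0 < δ ∧ δ < 1 ∧ c < (1 - δ) / (4 * Real.log 2) := by
    have h1 : c * (4 * Real.log 2) < 1 := by
      rw [lt_div_iff₀ hlog2] at hc'; exact hc'
    refine ⟨(1 - c * (4 * Real.log 2)) / 2, by linarith, ?_, ?_⟩
    · have : 0 < c * (4 * Real.log 2) := by positivity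
      linarith
    · rw [lt_div_iff₀ hlog2]; linarith
  set c' := (1 - δ) / (4 * Real.log 2) with hc'def
  obtain ⟨T, hT⟩ := exists_nat_ge (max 1 (4 / s))
  have hT1 : 1 ≤ T := by exact_mod_cast (le_max_left _ _).trans hT
  have hTpos : (0 : ℝ) < T := by exact_mod_cast hT1
  have hTs : 1 / (T : ℝ) ≤ s / 4 := by
    have h1 : 4 / s ≤ T := (le_max_right _ _).trans hT
    rw [div_le_iff₀ hs] at h1
    rw [div_le_iff₀ hTpos]
    linarith
  obtain ⟨n₀, R₀, hcore'⟩ := hcore δ hδ0 hδ1 T hT1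
  obtain ⟨N₁, R₁, hR₁, hnum⟩ := num_samples hc hδ hs T
  refine ⟨max n₀ N₁, max R₁ (4096 * R₀), ?_⟩
  intro n hn q hq0 hq1 hR m hm K hK
  have hn0 : n₀ ≤ n := (le_max_left _ _).trans hn
  have hnN1 : N₁ ≤ n := (le_max_right _ _).trans hn
  set q0 := min q (1 / 16) with hq0def
  have hq0pos : 0 < q0 := lt_min hq0 (by norm_num)
  have hq0le : q0 ≤ q := min_le_left _ _
  have hq016 : q0 ≤ 1 / 16 := min_le_right _ _
  have hq0ge : q / 16 ≤ q0 := le_min (by linarith) (by linarith)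
  have hRpos : 0 < q ^ 3 * Real.log n := by
    have := (le_max_left R₁ (4096 * R₀)).trans hR
    linarith
  have hln : 0 < Real.log n := by
    have h3 : 0 < q ^ 3 := by positivity
    exact (mul_pos_iff_of_pos_left h3).mp hRpos
  have hΛ0 : q ^ 3 * Real.log n / 4096 ≤ q0 ^ 3 * Real.log n := by
    have : (q / 16) ^ 3 ≤ q0 ^ 3 := pow_le_pow_left₀ (by positivity) hq0ge 3
    calc q ^ 3 * Real.log n / 4096 = (q / 16) ^ 3 * Real.log n := by ring
      _ ≤ q0 ^ 3 * Real.log n := mul_le_mul_of_nonneg_right this hln.le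
  have hR0 : R₀ ≤ q0 ^ 3 * Real.log n := by
    have := (le_max_right R₁ (4096 * R₀)).trans hR
    linarith
  obtain ⟨x, y, a, b, V, τ, hxy, hne, hTn, pa, pb, ta, tb, hV, hd, hVn, hτn⟩ :=
    hcore' n hn0 q0 hq0pos hq016 hR0
  have hq01 : q0 < 1 := by linarith
  obtain ⟨z, π, ν, hz, hπ, hν0, hνd, hνp, hνt⟩ :=
    family hq0pos.le hq01 hq0le hq1.le hxy hne hTn pa pb hV ta tb hd
  have hτ0 : 0 ≤ τ := TVle.nonneg ta
  have hΛn : q ^ 3 * Real.log n ≤ Real.log n := by
    have : q ^ 3 ≤ 1 := pow_le_one₀ hq0.le hq1.le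
    nlinarith
  have hfin := hnum n hnN1 (q ^ 3 * Real.log n) (q0 ^ 3 * Real.log n)
    ((le_max_left _ _).trans hR) hΛn hΛ0 m hm V τ hV hVn hτ0 hτn
  obtain ⟨i, hi⟩ := exists_successProb_lt hq0.le hq1.le K hK (by omega) z hz π hπ ν hV hν0 hνd hνp hνt
    (s := s) (by linarith)
  exact ⟨z i, hi⟩

/-- final deduction for S0455 -/
theorem S0455_of_core (hcore : CoreStatement) (q : ℝ) (hq : 0 < q) (hq1 : q < 1) (A : ℝ)
    (hA : 0 < A) (ε : ℝ) (hε : 0 < ε) :
    ∃ N₀ : ℕ, ∀ n ≥ N₀, ∃ x y : Fin n → Bool, x ≠ y ∧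
      (n : ℝ) ^ A * Crest.TraceRecon.traceTV (1 - q) x y < ε := by
  have hlog2 : 0 < 4 * Real.log 2 := by have := Real.log_pos (by norm_num : (1:ℝ) < 2); linarith
  obtain ⟨n₀, R₀, hcore'⟩ := hcore (1 / 2) (by norm_num) (by norm_num) 2 (by norm_num)
  have hc' : 0 < (1 - 1 / 2) / (4 * Real.log 2) := by positivity
  obtain ⟨N₁, R₁, hnum⟩ := num_tv hc' hA hε
  set q0 := min q (1 / 16) with hq0def
  have hq0pos : 0 < q0 := lt_min hq (by norm_num)
  have hq0le : q0 ≤ q := min_le_left _ _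
  have hq016 : q0 ≤ 1 / 16 := min_le_right _ _
  have hq3 : 0 < q0 ^ 3 := by positivity
  obtain ⟨N₂, hN₂⟩ := exists_nat_ge (Real.exp (max R₀ R₁ / q0 ^ 3))
  refine ⟨max n₀ (max N₁ N₂), ?_⟩
  intro n hn
  have hn0 : n₀ ≤ n := (le_max_left _ _).trans hn
  have hnN1 : N₁ ≤ n := ((le_max_left _ _).trans (le_max_right _ _)).trans hn
  have hnN2 : N₂ ≤ n := ((le_max_right _ _).trans (le_max_right _ _)).trans hn
  have hnpos : (0 : ℝ) < n := by
    have h1 : (N₂ : ℝ) ≤ n := by exact_mod_cast hnN2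
    linarith [Real.exp_pos (max R₀ R₁ / q0 ^ 3)]
  have hlog : max R₀ R₁ / q0 ^ 3 ≤ Real.log n := by
    rw [Real.le_log_iff_exp_le hnpos]
    have h1 : (N₂ : ℝ) ≤ n := by exact_mod_cast hnN2
    linarith
  have hΛ : max R₀ R₁ ≤ q0 ^ 3 * Real.log n := by
    rw [div_le_iff₀ hq3] at hlog
    linarith
  obtain ⟨x, y, a, b, V, τ, hxy, hne, hTn, pa, pb, ta, tb, hV, hd, hVn, hτn⟩ :=
    hcore' n hn0 q0 hq0pos hq016 ((le_max_left _ _).trans hΛ)
  have hq01 : q0 < 1 := by linarith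
  obtain ⟨z, π, ν, hz, hπ, hν0, hνd, hνp, hνt⟩ :=
    family hq0pos.le hq01 hq0le hq1.le hxy hne hTn pa pb hV ta tb hd
  refine ⟨z 0, z 1, fun h => absurd (hz h) (by decide), ?_⟩
  have tv : TVle (2 * (2 * τ + Real.sqrt V)) (D q (List.ofFn (z 0)) - D q (List.ofFn (z 1))) := by
    have e : D q (List.ofFn (z 0)) - D q (List.ofFn (z 1)) =
        -(π + ν 0 - D q (List.ofFn (z 0))) + (π + ν 1 - D q (List.ofFn (z 1))) + (ν 0 + -ν 1) := by
      abel
    rw [e]
    have t0 := tv_of_dom (hνd 0) hπ hV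
    have t1 := tv_of_dom (hνd 1) hπ hV
    refine TVle.mono (TVle.add (TVle.add (TVle.neg (hνt 0)) (hνt 1)) (TVle.add t0 (TVle.neg t1))) ?_
    push_cast
    linarith
  have h1 := traceTV_le_of_TVle (z 0) (z 1) tv
  have h2 := hnum n hnN1 _ ((le_max_right _ _).trans hΛ) V τ hV hVn hτn
  have h3 : (0 : ℝ) ≤ (n : ℝ) ^ A := Real.rpow_nonneg hnpos.le _
  calc (n : ℝ) ^ A * Crest.TraceRecon.traceTV (1 - q) (z 0) (z 1)
      ≤ (n : ℝ) ^ A * (2 * τ + Real.sqrt V) := mul_le_mul_of_nonneg_left (by linarith) h3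
    _ < ε := h2

end Fnl

end

end Crest.Agent.R300LB
private theorem rz_1931fa40b3 : type_of% @_root_.Crest.Agent.R300LB.Fnl.rep.eq_def := @_root_.Crest.Agent.R300LB.Fnl.rep.eq_def -- L138
private theorem rz_5d21bae16c : type_of% @_root_.Crest.Agent.R300LB.Fnl.rep.eq_1 := @_root_.Crest.Agent.R300LB.Fnl.rep.eq_1 -- L138
end

-- ▼ part R300/LBBlock
section

/-!
# Row 300, lower bounds: E1 (Bessel families, shift-Bessel calculus, block and tensor statements)
-/

set_option autoImplicit false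
set_option linter.unusedSectionVars false

namespace Crest.Agent.R300LB

open Finset

noncomputable section

variable {G : Type*} [Monoid G] {ι κ : Type*}

/-! ### calculus of `Bes` -/

theorem Bes.mono {S : Finset ι} {p p' : ℝ} {π : MA G} {U : ι → MA G} (h : Bes S p π U)
    (hp : p ≤ p') (hπ : Pos π) : Bes S p' π U := fun f =>
  (h f).trans (mul_le_mul_of_nonneg_right hp (hπ.ev_sq f))

theorem Bes.subset {S S' : Finset ι} {p : ℝ} {π : MA G} {U : ι → MA G} (h : Bes S p π U)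
    (hS : S' ⊆ S) : Bes S' p π U := fun f =>
  (Finset.sum_le_sum_of_subset_of_nonneg hS fun _ _ _ => sq_nonneg _).trans (h f)

theorem Bes.congr {S : Finset ι} {p : ℝ} {π : MA G} {U U' : ι → MA G} (h : Bes S p π U)
    (hU : ∀ i ∈ S, U i = U' i) : Bes S p π U' := fun f => by
  refine le_trans (le_of_eq (Finset.sum_congr rfl fun i hi => ?_)) (h f)
  rw [hU i hi]

theorem Bes.congr_ref {S : Finset ι} {p : ℝ} {π π' : MA G} {U : ι → MA G} (h : Bes S p π U)
    (e : π = π') : Bes S p π' U := e ▸ h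

theorem Bes.zero {S : Finset ι} {p : ℝ} {π : MA G} (hp : 0 ≤ p) (hπ : Pos π) :
    Bes S p π (fun _ : ι => (0 : MA G)) := fun f => by
  simp only [ev_zero]
  simpa using mul_nonneg hp (hπ.ev_sq f)

theorem Bes.empty {p : ℝ} {π : MA G} {U : ι → MA G} (hp : 0 ≤ p) (hπ : Pos π) :
    Bes (∅ : Finset ι) p π U := fun f => by
  simpa using mul_nonneg hp (hπ.ev_sq f)

theorem Bes.smul {S : Finset ι} {p : ℝ} {π : MA G} {U : ι → MA G} (h : Bes S p π U) (c : ℝ) :
    Bes S (c ^ 2 * p) π (fun i => c • U i) := fun f => by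
  simp only [ev_smul, mul_pow]
  rw [← Finset.mul_sum, mul_assoc]
  exact mul_le_mul_of_nonneg_left (h f) (sq_nonneg c)

theorem Bes.neg {S : Finset ι} {p : ℝ} {π : MA G} {U : ι → MA G} (h : Bes S p π U) :
    Bes S p π (fun i => - U i) := fun f => by
  simp only [ev_neg, neg_sq]
  exact h f


/-- Minkowski for `√p` -/
theorem Bes.add {S : Finset ι} {x y : ℝ} {π : MA G} {U W : ι → MA G} (h1 : Bes S (x ^ 2) π U)
    (h2 : Bes S (y ^ 2) π W) (hx : 0 ≤ x) (hy : 0 ≤ y) (hπ : Pos π) :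
    Bes S ((x + y) ^ 2) π (fun i => U i + W i) := fun f => by
  have p := hπ.ev_sq f
  have a1 := h1 f
  have a2 := h2 f
  set X := ev π (fun w => f w ^ 2)
  obtain ⟨r, hr0, hr⟩ : ∃ r, 0 ≤ r ∧ r ^ 2 = X := ⟨Real.sqrt X, Real.sqrt_nonneg _, Real.sq_sqrt p⟩
  rw [← hr] at a1 a2 ⊢
  simp only [ev_add]
  set A : ι → ℝ := fun i => ev (U i) f
  set B : ι → ℝ := fun i => ev (W i) f
  have hA : ∑ i ∈ S, A i ^ 2 ≤ (x * r) ^ 2 := by rw [mul_pow]; exact a1
  have hB : ∑ i ∈ S, B i ^ 2 ≤ (y * r) ^ 2 := by rw [mul_pow]; exact a2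
  have hcs : (∑ i ∈ S, A i * B i) ^ 2 ≤ (∑ i ∈ S, A i ^ 2) * (∑ i ∈ S, B i ^ 2) :=
    Finset.sum_mul_sq_le_sq_mul_sq S A B
  have hAB : ∑ i ∈ S, A i * B i ≤ (x * r) * (y * r) := by
    refine le_of_abs_le (abs_le_of_sq_le_sq ?_ (by positivity))
    calc (∑ i ∈ S, A i * B i) ^ 2 ≤ (∑ i ∈ S, A i ^ 2) * (∑ i ∈ S, B i ^ 2) := hcs
      _ ≤ (x * r) ^ 2 * (y * r) ^ 2 :=
          mul_le_mul hA hB (Finset.sum_nonneg fun _ _ => sq_nonneg _) (sq_nonneg _)
      _ = ((x * r) * (y * r)) ^ 2 := by ring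
  have e : ∑ i ∈ S, (A i + B i) ^ 2
      = ∑ i ∈ S, A i ^ 2 + 2 * ∑ i ∈ S, A i * B i + ∑ i ∈ S, B i ^ 2 := by
    rw [Finset.mul_sum, ← Finset.sum_add_distrib, ← Finset.sum_add_distrib]
    exact Finset.sum_congr rfl fun i _ => by ring
  show ∑ i ∈ S, (A i + B i) ^ 2 ≤ _
  rw [e]
  nlinarith

theorem Bes.sub {S : Finset ι} {x y : ℝ} {π : MA G} {U W : ι → MA G} (h1 : Bes S (x ^ 2) π U)
    (h2 : Bes S (y ^ 2) π W) (hx : 0 ≤ x) (hy : 0 ≤ y) (hπ : Pos π) :
    Bes S ((x + y) ^ 2) π (fun i => U i - W i) := by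
  simp only [sub_eq_add_neg]
  exact h1.add h2.neg hx hy hπ

theorem Bes.sum {S : Finset ι} {K : Finset κ} {x : κ → ℝ} {π : MA G} {U : κ → ι → MA G}
    (h : ∀ j ∈ K, Bes S (x j ^ 2) π (U j)) (hx : ∀ j ∈ K, 0 ≤ x j) (hπ : Pos π) :
    Bes S ((∑ j ∈ K, x j) ^ 2) π (fun i => ∑ j ∈ K, U j i) := by
  classical
  induction K using Finset.induction_on with
  | empty => simpa using Bes.zero (S := S) (le_refl (0:ℝ)) hπ
  | insert j K hj ih =>
    simp only [Finset.sum_insert hj]
    exact (h j (Finset.mem_insert_self _ _)).add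
      (ih (fun i hi => h i (Finset.mem_insert_of_mem hi))
        (fun i hi => hx i (Finset.mem_insert_of_mem hi))) (hx j (Finset.mem_insert_self _ _))
      (Finset.sum_nonneg fun i hi => hx i (Finset.mem_insert_of_mem hi)) hπ










/-- pull back along an injective map of index sets -/
theorem Bes.comap {S : Finset ι} {T : Finset κ} {p : ℝ} {π : MA G} {U : ι → MA G}
    (h : Bes S p π U) (φ : κ → ι) (hφ : ∀ j ∈ T, φ j ∈ S)
    (hinj : ∀ j ∈ T, ∀ j' ∈ T, φ j = φ j' → j = j') : Bes T p π (fun j => U (φ j)) := fun f => by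
  classical
  refine le_trans (le_of_eq ?_) ((h.subset (S' := T.image φ) ?_) f)
  · rw [Finset.sum_image]
    intro j hj j' hj' e
    exact hinj j hj j' hj' e
  · intro i hi
    obtain ⟨j, hj, rfl⟩ := Finset.mem_image.1 hi
    exact hφ j hj

/-- push forward: every member of the family `U` on `T` occurs in the family `W` on `S`,
different members at different places -/
theorem Bes.of_comap {S : Finset ι} {T : Finset κ} {p : ℝ} {π : MA G} {U : ι → MA G}
    {W : κ → MA G} (h : Bes S p π U) (φ : κ → ι) (hφ : ∀ j ∈ T, φ j ∈ S)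
    (hinj : ∀ j ∈ T, ∀ j' ∈ T, φ j = φ j' → j = j') (hW : ∀ j ∈ T, W j = U (φ j)) :
    Bes T p π W :=
  (h.comap φ hφ hinj).congr fun j hj => (hW j hj).symm

/-! ### products -/

/-- Bessel is preserved under multiplication by `Pos` measures (the mass is lost) -/
theorem Bes.mulLeft_pos {S : Finset ι} {p : ℝ} {s π : MA G} {U : ι → MA G} (h : Bes S p π U)
    (hs : Pos s) : Bes S (mass s * p) (s * π) (fun i => s * U i) := fun f => by
  have h1 : ∀ i ∈ S, (ev (s * U i) f) ^ 2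
      ≤ mass s * ev s (fun u => (ev (U i) fun v => f (u * v)) ^ 2) := fun i _ => by
    rw [ev_mul]
    exact (Dom.self hs) fun u => ev (U i) fun v => f (u * v)
  refine (Finset.sum_le_sum h1).trans ?_
  rw [← Finset.mul_sum, ← ev_sum_fun, mul_assoc]
  refine mul_le_mul_of_nonneg_left ?_ hs.mass_nonneg
  rw [ev_mul, ← ev_mul_fun]
  exact hs.mono fun u => h fun v => f (u * v)

theorem Bes.mulLeft {S : Finset ι} {p : ℝ} {a π : MA G} {U : ι → MA G} (h : Bes S p π U)
    (ha : Prob a) : Bes S p (a * π) (fun i => a * U i) := by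
  have := h.mulLeft_pos ha.pos
  rwa [ha.mass, one_mul] at this

theorem ev_mul' (μ ν : MA G) (f : G → ℝ) :
    ev (μ * ν) f = ev ν (fun v => ev μ (fun u => f (u * v))) := by
  rw [ev_mul, ev_swap]

theorem Bes.mulRight_pos {S : Finset ι} {p : ℝ} {s π : MA G} {U : ι → MA G} (h : Bes S p π U)
    (hs : Pos s) : Bes S (p * mass s) (π * s) (fun i => U i * s) := fun f => by
  have h1 : ∀ i ∈ S, (ev (U i * s) f) ^ 2
      ≤ mass s * ev s (fun v => (ev (U i) fun u => f (u * v)) ^ 2) := fun i _ => by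
    rw [ev_mul']
    exact (Dom.self hs) fun v => ev (U i) fun u => f (u * v)
  refine (Finset.sum_le_sum h1).trans ?_
  rw [← Finset.mul_sum, ← ev_sum_fun, mul_comm p, mul_assoc]
  refine mul_le_mul_of_nonneg_left ?_ hs.mass_nonneg
  rw [ev_mul', ← ev_mul_fun]
  exact hs.mono fun v => h fun u => f (u * v)

theorem Bes.mulRight {S : Finset ι} {p : ℝ} {a π : MA G} {U : ι → MA G} (h : Bes S p π U)
    (ha : Prob a) : Bes S p (π * a) (fun i => U i * a) := by
  have := h.mulRight_pos ha.pos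
  rwa [ha.mass, mul_one] at this



/-- tensor product of two families -/
theorem Bes.prod {S : Finset ι} {T : Finset κ} {p q : ℝ} {π π' : MA G} {U : ι → MA G}
    {W : κ → MA G} (h1 : Bes S p π U) (h2 : Bes T q π' W) (hp : 0 ≤ p) (hπ : Pos π) :
    Bes (S ×ˢ T) (p * q) (π * π') (fun x => U x.1 * W x.2) := fun f => by
  rw [Finset.sum_product_right]
  have h3 : ∀ j ∈ T, ∑ i ∈ S, (ev (U i * W j) f) ^ 2
      ≤ p * ev π (fun u => (ev (W j) fun v => f (u * v)) ^ 2) := fun j _ => by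
    have := h1 fun u => ev (W j) fun v => f (u * v)
    simpa only [← ev_mul] using this
  refine (Finset.sum_le_sum h3).trans ?_
  rw [← Finset.mul_sum, ← ev_sum_fun, mul_assoc]
  refine mul_le_mul_of_nonneg_left ?_ hp
  rw [ev_mul, ← ev_mul_fun]
  exact hπ.mono fun u => h2 fun v => f (u * v)

/-- diagonal tensor product -/
theorem Bes.diag {S : Finset ι} {p q : ℝ} {π π' : MA G} {U W : ι → MA G}
    (h1 : Bes S p π U) (h2 : Bes S q π' W) (hp : 0 ≤ p) (hπ : Pos π) :
    Bes S (p * q) (π * π') (fun x => U x * W x) :=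
  (h1.prod h2 hp hπ).comap (fun i => (i, i)) (fun _ hi => Finset.mem_product.2 ⟨hi, hi⟩)
    fun _ _ _ _ e => (Prod.mk.inj e).1

/-! ### orthogonality of two slots -/

/-- variance form of Bessel for mean zero measures -/
theorem Bes.var {S : Finset ι} {p : ℝ} {a : MA G} {U : ι → MA G} (h : Bes S p a U) (ha : Prob a)
    (hU : ∀ i ∈ S, mass (U i) = 0) (f : G → ℝ) :
    ∑ i ∈ S, (ev (U i) f) ^ 2 ≤ p * (ev a (fun w => f w ^ 2) - (ev a f) ^ 2) := by
  have := h (fun w => f w - ev a f)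
  rw [ha.var] at this
  refine le_trans (le_of_eq (Finset.sum_congr rfl fun i hi => ?_)) this
  rw [ev_sub_const (hU i hi)]

/-- two slots: `U i` (mean zero) in the first slot, `W j` in the second one -/
theorem bes_two_slots {S : Finset ι} {T : Finset κ} {p : ℝ} {π π' : MA G} {U : ι → MA G}
    {W : κ → MA G} (h1 : Bes S p π U) (h2 : Bes T p π' W) (hπ : Prob π)
    (hπ' : Prob π') (hU : ∀ i ∈ S, mass (U i) = 0) (f : G → ℝ) :
    ∑ i ∈ S, (ev (U i * π') f) ^ 2 + ∑ j ∈ T, (ev (π * W j) f) ^ 2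
      ≤ p * ev (π * π') (fun w => f w ^ 2) := by
  have A : ∑ i ∈ S, (ev (U i * π') f) ^ 2
      ≤ p * ev π' (fun v => ev π (fun u => f (u * v) ^ 2) - (ev π fun u => f (u * v)) ^ 2) := by
    have e : ∀ i ∈ S, (ev (U i * π') f) ^ 2 ≤ ev π' (fun v => (ev (U i) fun u => f (u * v)) ^ 2) :=
      fun i _ => by
        rw [ev_mul']
        have := (Dom.self_prob hπ') fun v => ev (U i) fun u => f (u * v)
        rwa [one_mul] at this
    refine (Finset.sum_le_sum e).trans ?_
    rw [← ev_sum_fun, ← ev_mul_fun]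
    exact hπ'.pos.mono fun v => h1.var hπ hU fun u => f (u * v)
  have B : ∑ j ∈ T, (ev (π * W j) f) ^ 2
      ≤ p * ev π' (fun v => (ev π fun u => f (u * v)) ^ 2) := by
    have := h2 fun v => ev π fun u => f (u * v)
    simpa only [← ev_mul'] using this
  have e : ev (π * π') (fun w => f w ^ 2) = ev π' fun v => ev π fun u => f (u * v) ^ 2 := by
    rw [ev_mul']
  rw [ev_sub_fun] at A
  rw [e]
  linarith

/-! ### E1a -/

/-- disjoint blocks with spacing `c` -/
theorem bes_slots {S : Finset ι} {p : ℝ} {a : MA G} {B : ι → MA G} {b c : ℕ} (ha : Prob a)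
    (hB : Bes S p (a ^ b) B) (hm : ∀ i ∈ S, mass (B i) = 0) (hp : 0 ≤ p) (hbc : b ≤ c) (n : ℕ) :
    ∀ N : ℕ, (∀ t < n, c * t + b ≤ N) → ∀ f : G → ℝ,
      ∑ t ∈ range n, ∑ i ∈ S, (ev (a ^ (c * t) * B i * a ^ (N - (c * t + b))) f) ^ 2
        ≤ p * ev (a ^ N) (fun w => f w ^ 2) := by
  induction n with
  | zero => intro N _ f; simpa using mul_nonneg hp ((ha.pow N).pos.ev_sq f)
  | succ n ih =>
    intro N hN f
    rcases Nat.eq_zero_or_pos n with h0 | hpos
    · subst h0
      have h1 := hN 0 Nat.one_pos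
      have h2 := (hB.mulRight (ha.pow (N - b))) f
      have e : b + (N - b) = N := by omega
      rw [← pow_add, e] at h2
      simpa using h2
    · have h1 := hN n (Nat.lt_succ_self n)
      have hcN : c ≤ N := by
        have : c * 1 ≤ c * n := Nat.mul_le_mul_left c hpos
        omega
      rw [Finset.sum_range_succ']
      have ih' := ih (N - c) (fun t ht => by
        have := hN (t + 1) (Nat.succ_lt_succ ht)
        rw [Nat.mul_succ] at this
        omega)
      have h2 : Bes (range n ×ˢ S) p (a ^ (N - c))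
          (fun x => a ^ (c * x.1) * B x.2 * a ^ (N - c - (c * x.1 + b))) := fun g => by
        rw [Finset.sum_product]
        exact ih' g
      have h3 := bes_two_slots (hB.mulRight (ha.pow (c - b))) h2 ((ha.pow b).mul (ha.pow (c - b)))
        (ha.pow _) (fun i hi => by rw [mass_mul, hm i hi, zero_mul]) f
      have e1 : b + (c - b) = c := by omega
      have e2 : c + (N - c) = N := by omega
      rw [← pow_add, e1, ← pow_add, e2, Finset.sum_product] at h3
      refine le_trans (le_of_eq ?_) h3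
      rw [add_comm]
      congr 1
      · refine Finset.sum_congr rfl fun i _ => ?_
        rw [mul_zero, pow_zero, one_mul, zero_add, mul_assoc, ← pow_add]
        have : c - b + (N - c) = N - b := by omega
        rw [this]
      · refine Finset.sum_congr rfl fun t ht => Finset.sum_congr rfl fun i _ => ?_
        have hle := hN (t + 1) (Nat.succ_lt_succ (Finset.mem_range.1 ht))
        have : N - (c * (t + 1) + b) = N - c - (c * t + b) := by
          rw [Nat.mul_succ]; omega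
        rw [this, ← mul_assoc, ← mul_assoc, ← pow_add]
        have e : c * (t + 1) = c + c * t := by rw [Nat.mul_succ]; omega
        rw [e]

theorem block : BlockStatement := by
  intro G _ a Z z l l0 l1 C p ha hZ hp hl hl1 hC hB T
  rcases Nat.eq_zero_or_pos C with h0 | hCpos
  · -- degenerate case
    subst h0
    have hz : z = 0 := by omega
    have h00 : l0 = 0 := by omega
    have h11 : l1 = 0 := by omega
    subst hz; subst h00; subst h11
    have hev : ∀ f : G → ℝ, ev Z f = 0 := by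
      intro f
      have h := hB (fun w => f w - f 1)
      simp only [Nat.add_zero, pow_zero, ev_one, sub_self, zero_pow two_ne_zero, mul_zero] at h
      have h2 := (Finset.single_le_sum (f := fun x => (ev (a ^ (0 + x) * Z * a ^ (0 - x))
        fun w => f w - f 1) ^ 2) (fun _ _ => sq_nonneg _) (Finset.mem_range.2 hl)).trans h
      simp only [Nat.add_zero, Nat.sub_zero, pow_zero, one_mul, mul_one] at h2
      rw [ev_sub_const hZ] at h2
      exact pow_eq_zero_iff two_ne_zero |>.1 (le_antisymm h2 (sq_nonneg _))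
    intro f
    have e : ∀ x : ℕ, ev (a ^ x * Z * a ^ (T - x)) f = 0 := fun x => by
      rw [mul_assoc, ev_mul]
      have : ∀ u, ev (Z * a ^ (T - x)) (fun v => f (u * v)) = 0 := fun u => by
        rw [ev_mul]; exact hev _
      simp only [this]
      have h := ev_mul_fun (a ^ x) 0 (fun _ => 0)
      simpa using h
    simp only [e]
    simp
  -- main case
  have hc : 0 < C * l := Nat.mul_pos hCpos hl
  set b := l0 + l1 + z with hb
  -- one residue class
  have hclass : ∀ ρ ∈ range C, Bes ((Finset.Icc (l0 + l1) (T - (l0 + l1))).filter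
      (fun x => (x - l0) / l % C = ρ)) p (a ^ (T + z)) (fun x => a ^ x * Z * a ^ (T - x)) := by
    intro ρ _
    rcases ((Finset.Icc (l0 + l1) (T - (l0 + l1))).filter
      (fun x => (x - l0) / l % C = ρ)).eq_empty_or_nonempty with he | ⟨x0, hx0⟩
    · rw [he]; exact Bes.empty hp (ha.pow _).pos
    -- arithmetic of a member of the class
    have arith : ∀ x ∈ (Finset.Icc (l0 + l1) (T - (l0 + l1))).filter
        (fun x => (x - l0) / l % C = ρ),
        l0 + l1 ≤ x ∧ x + (l0 + l1) ≤ T ∧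
          ρ * l + C * l * ((x - l0) / l / C) + (x - l0) % l + l0 = x := by
      intro x hx
      rw [Finset.mem_filter, Finset.mem_Icc] at hx
      obtain ⟨⟨hx1, hx2⟩, hx3⟩ := hx
      refine ⟨hx1, ?_, ?_⟩
      · by_cases hT : l0 + l1 ≤ T
        · omega
        · have : T - (l0 + l1) = 0 := by omega
          omega
      · have e1 := Nat.div_add_mod (x - l0) l
        have e2 := Nat.div_add_mod ((x - l0) / l) C
        rw [hx3] at e2
        have e3 : l * ((x - l0) / l) = ρ * l + C * l * ((x - l0) / l / C) := by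
          calc l * ((x - l0) / l) = l * (C * ((x - l0) / l / C) + ρ) := by rw [e2]
            _ = _ := by ring
        omega
    obtain ⟨hx01, hx02, hx03⟩ := arith x0 hx0
    set N := T + z - ρ * l with hN
    set n := (N - b) / (C * l) + 1 with hn
    have hbN : b ≤ N := by omega
    have hfit : ∀ t < n, C * l * t + b ≤ N := by
      intro t ht
      have h1 : t ≤ (N - b) / (C * l) := Nat.lt_succ_iff.1 ht
      have h2 : C * l * t ≤ C * l * ((N - b) / (C * l)) := Nat.mul_le_mul_left _ h1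
      have h3 := Nat.mul_div_le (N - b) (C * l)
      omega
    have hmain : Bes (range n ×ˢ range l) p (a ^ N)
        (fun x => a ^ (C * l * x.1) * (a ^ (l0 + x.2) * Z * a ^ (l1 - x.2))
          * a ^ (N - (C * l * x.1 + b))) := fun g => by
      rw [Finset.sum_product]
      exact bes_slots ha hB (fun i _ => by rw [mass_mul, mass_mul, hZ]; ring) hp hC n N hfit g
    have hmain2 := (hmain.mulLeft (ha.pow (ρ * l))).congr_ref (π' := a ^ (T + z)) (by
      rw [← pow_add]; congr 1; omega)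
    refine hmain2.of_comap (fun x => ((x - l0) / l / C, (x - l0) % l)) ?_ ?_ ?_
    · intro x hx
      obtain ⟨h1, h2, h3⟩ := arith x hx
      rw [Finset.mem_product, Finset.mem_range, Finset.mem_range]
      refine ⟨?_, Nat.mod_lt _ hl⟩
      rw [hn, Nat.lt_succ_iff, Nat.le_div_iff_mul_le hc]
      have : (x - l0) / l / C * (C * l) = C * l * ((x - l0) / l / C) := Nat.mul_comm _ _
      show (x - l0) / l / C * (C * l) ≤ N - b
      omega
    · intro x hx x' hx' e
      obtain ⟨_, _, h3⟩ := arith x hx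
      obtain ⟨_, _, h3'⟩ := arith x' hx'
      obtain ⟨e1, e2⟩ := Prod.mk.inj e
      rw [e1, e2] at h3
      omega
    · intro x hx
      obtain ⟨h1, h2, h3⟩ := arith x hx
      have hlt : (x - l0) % l < l := Nat.mod_lt _ hl
      have hfit' : C * l * ((x - l0) / l / C) + b ≤ N := by omega
      show a ^ x * Z * a ^ (T - x) = a ^ (ρ * l) * (a ^ (C * l * ((x - l0) / l / C))
        * (a ^ (l0 + (x - l0) % l) * Z * a ^ (l1 - (x - l0) % l))
        * a ^ (N - (C * l * ((x - l0) / l / C) + b)))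
      have e1 : a ^ x = a ^ (ρ * l) * a ^ (C * l * ((x - l0) / l / C)) * a ^ (l0 + (x - l0) % l) := by
        rw [← pow_add, ← pow_add]; congr 1; omega
      have e2 : a ^ (T - x) = a ^ (l1 - (x - l0) % l)
          * a ^ (N - (C * l * ((x - l0) / l / C) + b)) := by
        rw [← pow_add]; congr 1; omega
      rw [e1, e2]
      simp only [mul_assoc]
  -- sum over the classes
  intro f
  have hsum := Finset.sum_fiberwise_of_maps_to (s := Finset.Icc (l0 + l1) (T - (l0 + l1)))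
    (t := range C) (g := fun x => (x - l0) / l % C)
    (fun x _ => Finset.mem_range.2 (Nat.mod_lt _ hCpos))
    (fun x => (ev (a ^ x * Z * a ^ (T - x)) f) ^ 2)
  rw [← hsum]
  refine (Finset.sum_le_sum fun ρ hρ => hclass ρ hρ f).trans ?_
  rw [Finset.sum_const, Finset.card_range, nsmul_eq_mul, mul_assoc]

theorem domSB : DomSBStatement := by
  intro G _ a Z z V ha hZ hV hz hd
  have h := block G a Z z 1 0 0 z V ha hZ hV le_rfl (by omega) (by omega) (fun f => by
    simpa using hd f)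
  simpa using h

theorem tensor : TensorStatement := by
  intro G _ a W w Pd D p ha hW hp hD hPd hw h
  have hl : 1 ≤ D - 2 * Pd := by omega
  have hbase : Bes (range (D - 2 * Pd)) p (a ^ (D + w))
      (fun x => a ^ (Pd + x) * W * a ^ (D - (Pd + x))) :=
    (h D).comap (fun x => Pd + x) (fun x hx => by
      have := Finset.mem_range.1 hx
      exact Finset.mem_Icc.2 ⟨by omega, by omega⟩) (fun x _ y _ e => by
      have : Pd + x = Pd + y := e
      omega)
  have h2 := hbase.diag hbase hp (ha.pow _).pos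
  have h3 := block G a (W * a ^ D * W) (2 * w + D) (D - 2 * Pd) Pd (D - Pd) 5 (p ^ 2) ha
    (by rw [mass_mul, hW, mul_zero]) (sq_nonneg p) hl (by omega) (by omega) (fun f => by
      have e : a ^ (Pd + (D - Pd) + (2 * w + D)) = a ^ (D + w) * a ^ (D + w) := by
        rw [← pow_add]; congr 1; omega
      have h4 := h2 f
      rw [e, sq p]
      refine le_trans (le_of_eq (Finset.sum_congr rfl fun x hx => ?_)) h4
      have hx' := Finset.mem_range.1 hx
      have e1 : a ^ D = a ^ (D - (Pd + x)) * a ^ (Pd + x) := by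
        rw [← pow_add]; congr 1; omega
      have e2 : D - Pd - x = D - (Pd + x) := by omega
      beta_reduce
      rw [e1, e2]
      simp only [mul_assoc])
  have e5 : Pd + (D - Pd) = D := by omega
  rw [e5] at h3
  simpa using h3

/-! ### calculus of `SB` -/

theorem SB.mono {p p' : ℝ} {a Z : MA G} {z Pd Pd' : ℕ} (h : SB p a Z z Pd) (ha : Pos a)
    (hp : p ≤ p') (hPd : Pd ≤ Pd') : SB p' a Z z Pd' := fun T =>
  ((h T).mono hp (ha.pow _)).subset fun x hx => by
    rw [Finset.mem_Icc] at hx ⊢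
    omega

theorem SB.zero {p : ℝ} {a : MA G} {z Pd : ℕ} (hp : 0 ≤ p) (ha : Pos a) : SB p a 0 z Pd :=
  fun T => by
    have := Bes.zero (S := Finset.Icc Pd (T - Pd)) hp (ha.pow (T + z))
    simpa using this

theorem SB.smul {p : ℝ} {a Z : MA G} {z Pd : ℕ} (h : SB p a Z z Pd) (c : ℝ) :
    SB (c ^ 2 * p) a (c • Z) z Pd := fun T =>
  ((h T).smul c).congr fun x _ => by
    rw [mul_smul_comm, smul_mul_assoc]

theorem SB.neg {p : ℝ} {a Z : MA G} {z Pd : ℕ} (h : SB p a Z z Pd) : SB p a (-Z) z Pd := fun T =>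
  (h T).neg.congr fun x _ => by rw [mul_neg, neg_mul]

theorem SB.add {x y : ℝ} {a Z Y : MA G} {z Pd : ℕ} (h1 : SB (x ^ 2) a Z z Pd)
    (h2 : SB (y ^ 2) a Y z Pd) (hx : 0 ≤ x) (hy : 0 ≤ y) (ha : Pos a) :
    SB ((x + y) ^ 2) a (Z + Y) z Pd := fun T =>
  ((h1 T).add (h2 T) hx hy (ha.pow _)).congr fun i _ => by rw [mul_add, add_mul]

theorem SB.sub {x y : ℝ} {a Z Y : MA G} {z Pd : ℕ} (h1 : SB (x ^ 2) a Z z Pd)
    (h2 : SB (y ^ 2) a Y z Pd) (hx : 0 ≤ x) (hy : 0 ≤ y) (ha : Pos a) :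
    SB ((x + y) ^ 2) a (Z - Y) z Pd := by
  rw [sub_eq_add_neg]; exact h1.add h2.neg hx hy ha

theorem SB.sum {K : Finset κ} {x : κ → ℝ} {a : MA G} {Z : κ → MA G} {z Pd : ℕ}
    (h : ∀ j ∈ K, SB (x j ^ 2) a (Z j) z Pd) (hx : ∀ j ∈ K, 0 ≤ x j) (ha : Pos a) :
    SB ((∑ j ∈ K, x j) ^ 2) a (∑ j ∈ K, Z j) z Pd := fun T =>
  (Bes.sum (fun j hj => h j hj T) hx (ha.pow _)).congr fun i _ => by
    rw [Finset.mul_sum, Finset.sum_mul]

/-- shift: `a ^ i * Z * a ^ j` -/
theorem SB.shift {p : ℝ} {a Z : MA G} {z Pd : ℕ} (h : SB p a Z z Pd) (i j : ℕ) :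
    SB p a (a ^ i * Z * a ^ j) (i + z + j) Pd := fun T => by
  have e : T + i + j + z = T + (i + z + j) := by omega
  refine ((h (T + i + j)).congr_ref (by rw [e])).of_comap (fun x => x + i) ?_ ?_ ?_
  · intro x hx
    rw [Finset.mem_Icc] at hx ⊢
    omega
  · intro x _ y _ e
    have : x + i = y + i := e
    omega
  · intro x hx
    rw [Finset.mem_Icc] at hx
    have e1 : a ^ (x + i) = a ^ x * a ^ i := pow_add _ _ _
    have e2 : a ^ (T + i + j - (x + i)) = a ^ j * a ^ (T - x) := by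
      rw [← pow_add]; congr 1; omega
    show _ = a ^ (x + i) * Z * a ^ (T + i + j - (x + i))
    rw [e1, e2]
    simp only [mul_assoc]




end

end Crest.Agent.R300LB
namespace Crest.Agent.R300LB.Dom
end Crest.Agent.R300LB.Dom
end

-- ▼ part R300/LBLocGain
section

/-!
# Row 300, lower bounds, piece L3: homogenized kernels and the location gain lemma
-/

set_option autoImplicit false

namespace Crest.Agent.R300LB

open Finset Polynomial

noncomputable section

variable {G : Type*} [Monoid G]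

/-- action of the polynomial `φ(L/R')` of degree `≤ N` homogenized to degree `N`:
`∑ φ_l a^l F a^(N-l)` -/
def homL (a : MA G) (N : ℕ) (F : MA G) : ℝ[X] →ₗ[ℝ] MA G where
  toFun φ := ∑ l ∈ range (N + 1), φ.coeff l • (a ^ l * F * a ^ (N - l))
  map_add' φ ψ := by
    simp only [coeff_add, add_smul, Finset.sum_add_distrib]
  map_smul' c φ := by
    simp only [coeff_smul, smul_eq_mul, mul_smul, Finset.smul_sum, RingHom.id_apply]

theorem homL_apply (a : MA G) (N : ℕ) (F : MA G) (φ : ℝ[X]) :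
    homL a N F φ = ∑ l ∈ range (N + 1), φ.coeff l • (a ^ l * F * a ^ (N - l)) := rfl

theorem homL_X_pow (a : MA G) {N i : ℕ} (hi : i ≤ N) (F : MA G) :
    homL a N F (X ^ i) = a ^ i * F * a ^ (N - i) := by
  rw [homL_apply, Finset.sum_eq_single i]
  · rw [coeff_X_pow_self, one_smul]
  · intro b _ hb
    rw [coeff_X_pow, if_neg hb, zero_smul]
  · intro h
    exact absurd (Finset.mem_range.mpr (by omega)) h

theorem homL_one (a : MA G) (N : ℕ) (F : MA G) : homL a N F 1 = F * a ^ N := by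
  have := homL_X_pow a (Nat.zero_le N) F
  rw [pow_zero, pow_zero, one_mul, Nat.sub_zero] at this
  exact this

/-- linearity in `F` -/
theorem homL_sum {ι : Type*} (a : MA G) (N : ℕ) (s : Finset ι) (F : ι → MA G) (φ : ℝ[X]) :
    homL a N (∑ i ∈ s, F i) φ = ∑ i ∈ s, homL a N (F i) φ := by
  simp only [homL_apply, Finset.mul_sum, Finset.sum_mul, Finset.smul_sum]
  rw [Finset.sum_comm]

theorem homL_smul_right (a : MA G) (N : ℕ) (c : ℝ) (F : MA G) (φ : ℝ[X]) :
    homL a N (c • F) φ = c • homL a N F φ := by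
  simp only [homL_apply, Finset.smul_sum, mul_smul_comm, smul_mul_assoc]
  refine Finset.sum_congr rfl (fun l _ => ?_)
  rw [smul_comm]

theorem homL_mul (a : MA G) {N K : ℕ} {φ ψ : ℝ[X]} (hφ : φ.natDegree ≤ N) (hψ : ψ.natDegree ≤ K)
    (F : MA G) : homL a (N + K) F (φ * ψ) = homL a N (homL a K F ψ) φ := by
  have e1 : φ * ψ = ∑ i ∈ range (N + 1), ∑ j ∈ range (K + 1),
      (φ.coeff i * ψ.coeff j) • (X ^ (i + j) : ℝ[X]) := by
    conv_lhs => rw [φ.as_sum_range' (N + 1) (by omega), ψ.as_sum_range' (K + 1) (by omega)]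
    rw [Finset.sum_mul_sum]
    refine Finset.sum_congr rfl (fun i _ => Finset.sum_congr rfl (fun j _ => ?_))
    rw [monomial_mul_monomial, ← C_mul_X_pow_eq_monomial, smul_eq_C_mul]
  rw [e1, map_sum]
  conv_rhs => rw [homL_apply]
  refine Finset.sum_congr rfl (fun i hi => ?_)
  rw [map_sum, homL_apply, Finset.mul_sum, Finset.sum_mul, Finset.smul_sum]
  refine Finset.sum_congr rfl (fun j hj => ?_)
  rw [Finset.mem_range] at hi hj
  rw [map_smul, homL_X_pow a (by omega)]
  rw [mul_smul_comm, smul_mul_assoc, smul_smul]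
  congr 1
  have e2 : N + K - (i + j) = (K - j) + (N - i) := by omega
  rw [e2, pow_add, pow_add]
  simp only [mul_assoc]


/-- `ℓ¹` bound for a homogenized kernel -/
theorem Dom.homL {a : MA G} (ha : Prob a) {N n : ℕ} {F : MA G} {x : ℝ} (hx : 0 ≤ x)
    (hF : Dom (x ^ 2) (a ^ n) F) (φ : ℝ[X]) :
    Dom (((∑ l ∈ range (N + 1), |φ.coeff l|) * x) ^ 2) (a ^ (n + N)) (homL a N F φ) := by
  rw [homL_apply, Finset.sum_mul]
  refine Dom.sum _ (fun l hl => ?_) (fun l _ => mul_nonneg (abs_nonneg _) hx) (ha.pos.pow _)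
  rw [mul_pow, sq_abs]
  refine Dom.smul ?_ _
  rw [Finset.mem_range] at hl
  have h1 : Dom (1 * x ^ 2 * 1) (a ^ l * a ^ n * a ^ (N - l)) (a ^ l * F * a ^ (N - l)) :=
    ((Dom.self_prob (ha.pow l)).mul hF zero_le_one (ha.pos.pow _)).mul
      (Dom.self_prob (ha.pow _)) (by positivity) ((ha.pos.pow _).mul (ha.pos.pow _))
  rw [one_mul, mul_one, ← pow_add, ← pow_add] at h1
  have e : l + n + (N - l) = n + N := by omega
  rwa [e] at h1





/-! ### Kernel polynomials -/

/-- `ℓ¹` norm of the coefficients -/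
def pn1 (φ : ℝ[X]) : ℝ := φ.sum (fun _ c => |c|)


theorem pn1_eq {φ : ℝ[X]} {S : ℕ} (h : φ.natDegree < S) : pn1 φ = ∑ l ∈ range S, |φ.coeff l| :=
  sum_over_range' φ (by simp) S h


theorem pn1_nonneg (φ : ℝ[X]) : 0 ≤ pn1 φ := by
  rw [pn1_eq (Nat.lt_succ_self _)]
  exact Finset.sum_nonneg (fun _ _ => abs_nonneg _)



















theorem kern_natDegree_one_sub_X_pow (r : ℕ) : ((1 - X : ℝ[X]) ^ r).natDegree ≤ r := by
  refine le_trans (natDegree_pow_le) ?_
  have : (1 - X : ℝ[X]).natDegree ≤ 1 := by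
    refine le_trans (natDegree_sub_le _ _) ?_
    simp
  calc r * (1 - X : ℝ[X]).natDegree ≤ r * 1 := Nat.mul_le_mul_left _ this
    _ = r := mul_one r














end

end Crest.Agent.R300LB
end

-- ▼ part R300/LBLocation
section

/-!
# Row 300, lower bounds, piece E2b: `LocationStatement`

Location gain through the coins lemma: binomial smoothing of the positions `X0 + n j`.
-/

set_option autoImplicit false

namespace Crest.Agent.R300LB

open Finset Polynomial

noncomputable section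

section bes

variable {G : Type*} [Monoid G]

theorem lo_bes_dom {ι : Type*} {S : Finset ι} {p : ℝ} {π : MA G} {U : ι → MA G}
    (h : Bes S p π U) (c : ι → ℝ) : Dom (p * ∑ i ∈ S, c i ^ 2) π (∑ i ∈ S, c i • U i) := by
  intro f
  rw [ev_sum]
  simp only [ev_smul]
  have h1 : (∑ i ∈ S, c i * ev (U i) f) ^ 2 ≤ (∑ i ∈ S, c i ^ 2) * ∑ i ∈ S, (ev (U i) f) ^ 2 :=
    Finset.sum_mul_sq_le_sq_mul_sq _ _ _
  have h2 := h f
  have h3 : 0 ≤ ∑ i ∈ S, c i ^ 2 := Finset.sum_nonneg (fun _ _ => sq_nonneg _)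
  calc _ ≤ _ := h1
    _ ≤ (∑ i ∈ S, c i ^ 2) * (p * ev π (fun w => f w ^ 2)) := mul_le_mul_of_nonneg_left h2 h3
    _ = _ := by ring

theorem lo_bes_of_dom {ι : Type*} {S : Finset ι} {p : ℝ} {π : MA G} {U : ι → MA G}
    (hp : 0 ≤ p) (hπ : Pos π)
    (h : ∀ c : ι → ℝ, Dom (p * ∑ i ∈ S, c i ^ 2) π (∑ i ∈ S, c i • U i)) : Bes S p π U := by
  intro f
  have h1 := h (fun i => ev (U i) f) f
  rw [ev_sum] at h1
  simp only [ev_smul] at h1
  set T := ∑ i ∈ S, (ev (U i) f) ^ 2 with hT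
  have e : ∑ i ∈ S, ev (U i) f * ev (U i) f = T := by
    rw [hT]; exact Finset.sum_congr rfl (fun i _ => by ring)
  rw [e] at h1
  have hT0 : 0 ≤ T := Finset.sum_nonneg (fun _ _ => sq_nonneg _)
  have hx : 0 ≤ ev π (fun w => f w ^ 2) := hπ _ (fun w => sq_nonneg _)
  rcases eq_or_lt_of_le hT0 with h0 | h0
  · rw [← h0]; positivity
  · nlinarith

end bes

/-! ### the binomial kernel -/

/-- binomial kernel `((1+X)/2)^i` -/
def binK (i : ℕ) : ℝ[X] := (C (1 / 2 : ℝ) * (1 + X)) ^ i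

theorem binK_coeff (i l : ℕ) : (binK i).coeff l = (i.choose l : ℝ) / 2 ^ i := by
  unfold binK
  rw [mul_pow, ← C_pow, coeff_C_mul, coeff_one_add_X_pow]
  rw [one_div, inv_pow]
  ring

theorem binK_natDegree (i : ℕ) : (binK i).natDegree ≤ i := by
  rw [natDegree_le_iff_coeff_eq_zero]
  intro l hl
  rw [binK_coeff, Nat.choose_eq_zero_of_lt hl]; simp

theorem binK_nonneg (i l : ℕ) : 0 ≤ (binK i).coeff l := by
  rw [binK_coeff]; positivity

theorem binK_sum (i : ℕ) : ∑ l ∈ range (i + 1), (binK i).coeff l = 1 := by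
  simp only [binK_coeff]
  rw [← Finset.sum_div]
  have : ∑ l ∈ range (i + 1), (i.choose l : ℝ) = 2 ^ i := by
    exact_mod_cast Nat.sum_range_choose i
  rw [this, div_self (by positivity)]

/-- second moment of the centered binomial distribution -/
theorem lo_binom_var (N : ℕ) :
    ∑ l ∈ range (N + 1), (N.choose l : ℝ) * ((N : ℝ) - 2 * (l : ℝ)) ^ 2 = (N : ℝ) * 2 ^ N := by
  have hs : ∀ N : ℕ, ∑ l ∈ range (N + 1), (N.choose l : ℝ) = 2 ^ N := by
    intro N; exact_mod_cast Nat.sum_range_choose N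
  induction N with
  | zero => simp
  | succ N ih =>
    have e1 : ∑ l ∈ range (N + 1 + 1), ((N + 1).choose l : ℝ) * (((N + 1 : ℕ) : ℝ) - 2 * (l : ℝ)) ^ 2 =
        ∑ l ∈ range (N + 1), (N.choose l : ℝ) * (((N + 1 : ℕ) : ℝ) - 2 * (l : ℝ)) ^ 2 +
        ∑ l ∈ range (N + 1), (N.choose l : ℝ) * (((N + 1 : ℕ) : ℝ) - 2 * ((l + 1 : ℕ) : ℝ)) ^ 2 := by
      rw [Finset.sum_range_succ']
      simp only [Nat.choose_succ_succ, Nat.cast_add, add_mul, Finset.sum_add_distrib]
      rw [Finset.sum_range_succ' (fun l => (N.choose l : ℝ) * (((N : ℝ) + (1 : ℕ)) - 2 * l) ^ 2)]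
      have e2 : ∑ l ∈ range (N + 1), (N.choose (l + 1) : ℝ) * (((N : ℝ) + (1 : ℕ)) - 2 * ((l : ℝ) + (1 : ℕ))) ^ 2
          = ∑ l ∈ range N, (N.choose (l + 1) : ℝ) * (((N : ℝ) + (1 : ℕ)) - 2 * ((l : ℝ) + (1 : ℕ))) ^ 2 := by
        rw [Finset.sum_range_succ, Nat.choose_succ_self]; simp
      rw [e2]
      simp
      ring
    rw [e1, ← Finset.sum_add_distrib]
    have e3 : ∀ l ∈ range (N + 1), (N.choose l : ℝ) * (((N + 1 : ℕ) : ℝ) - 2 * l) ^ 2 +
        (N.choose l : ℝ) * (((N + 1 : ℕ) : ℝ) - 2 * ((l + 1 : ℕ) : ℝ)) ^ 2 =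
        2 * ((N.choose l : ℝ) * ((N : ℝ) - 2 * l) ^ 2) + 2 * (N.choose l : ℝ) := by
      intro l _; push_cast; ring
    rw [Finset.sum_congr rfl e3, Finset.sum_add_distrib, ← Finset.mul_sum, ← Finset.mul_sum, ih, hs]
    push_cast; ring

/-- `‖(1-X) ((1+X)/2)^i‖₁ ≤ 2/√(i+1)` -/
theorem binK_deriv (i : ℕ) : pn1 ((1 - X) * binK i) ≤ 2 / √((i : ℝ) + 1) := by
  have hi : (0 : ℝ) < (i : ℝ) + 1 := by positivity
  have hdeg : ((1 - X) * binK i).natDegree < i + 2 := by
    have h1 := kern_natDegree_one_sub_X_pow 1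
    rw [pow_one] at h1
    have h2 := binK_natDegree i
    have := natDegree_mul_le (p := (1 - X : ℝ[X])) (q := binK i)
    omega
  rw [pn1_eq hdeg]
  have hc : ∀ l ∈ range (i + 2), ((1 - X) * binK i).coeff l =
      ((i + 1).choose l : ℝ) / 2 ^ (i + 1) * (2 * (((i + 1 : ℕ) : ℝ) - 2 * l) / ((i : ℝ) + 1)) := by
    intro l hl
    rw [Finset.mem_range] at hl
    rw [sub_mul, one_mul, coeff_sub, mul_comm X, binK_coeff]
    rcases l with _ | l
    · rw [coeff_mul_X_zero]
      simp only [Nat.choose_zero_right, Nat.cast_one, Nat.cast_zero, mul_zero, sub_zero, pow_succ]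
      push_cast
      field_simp
    · rw [coeff_mul_X, binK_coeff]
      have h1 : ((i + 1).choose (l + 1) : ℝ) * (l + 1) = (i + 1) * (i.choose l : ℝ) := by
        have := Nat.add_one_mul_choose_eq i l
        have h2 : ((i + 1 : ℕ) : ℝ) * (i.choose l : ℝ) = ((i + 1).choose (l + 1) : ℝ) * ((l + 1 : ℕ) : ℝ) := by
          exact_mod_cast this
        push_cast at h2
        linarith
      have h3 : ((i + 1).choose (l + 1) : ℝ) = (i.choose l : ℝ) + (i.choose (l + 1) : ℝ) := by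
        exact_mod_cast Nat.choose_succ_succ i l
      have h4 : (i.choose l : ℝ) = ((i + 1).choose (l + 1) : ℝ) * (l + 1) / (i + 1) := by
        rw [h1]; field_simp
      have h5 : (i.choose (l + 1) : ℝ) = ((i + 1).choose (l + 1) : ℝ) -
          ((i + 1).choose (l + 1) : ℝ) * (l + 1) / (i + 1) := by
        rw [← h4, h3]; ring
      rw [h5, h4, pow_succ]
      push_cast
      field_simp
      ring
  rw [Finset.sum_congr rfl (fun l hl => by rw [hc l hl])]
  have habs : ∀ l ∈ range (i + 2), |((i + 1).choose l : ℝ) / 2 ^ (i + 1) *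
      (2 * (((i + 1 : ℕ) : ℝ) - 2 * l) / ((i : ℝ) + 1))| =
      ((i + 1).choose l : ℝ) / 2 ^ (i + 1) * (2 * |((i + 1 : ℕ) : ℝ) - 2 * l| / ((i : ℝ) + 1)) := by
    intro l _
    rw [abs_mul, abs_of_nonneg (by positivity : (0:ℝ) ≤ ((i + 1).choose l : ℝ) / 2 ^ (i + 1)),
      abs_div, abs_mul, abs_of_pos hi, abs_of_pos (by norm_num : (0:ℝ) < 2)]
  rw [Finset.sum_congr rfl habs]
  set S := ∑ l ∈ range (i + 2), ((i + 1).choose l : ℝ) / 2 ^ (i + 1) *
      (2 * |((i + 1 : ℕ) : ℝ) - 2 * l| / ((i : ℝ) + 1)) with hS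
  have h6 : S ^ 2 ≤ (∑ l ∈ range (i + 2), ((i + 1).choose l : ℝ) / 2 ^ (i + 1)) *
      ∑ l ∈ range (i + 2), ((i + 1).choose l : ℝ) / 2 ^ (i + 1) *
        (2 * |((i + 1 : ℕ) : ℝ) - 2 * l| / ((i : ℝ) + 1)) ^ 2 := by
    rw [hS]
    refine Finset.sum_sq_le_sum_mul_sum_of_sq_le_mul _ (fun l _ => by positivity)
      (fun l _ => by positivity) (fun l _ => le_of_eq (by ring))
  have h7 : ∑ l ∈ range (i + 2), ((i + 1).choose l : ℝ) / 2 ^ (i + 1) = 1 := by
    rw [← Finset.sum_div]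
    have : ∑ l ∈ range (i + 1 + 1), ((i + 1).choose l : ℝ) = 2 ^ (i + 1) := by
      exact_mod_cast Nat.sum_range_choose (i + 1)
    rw [this, div_self (by positivity)]
  have h8 : ∑ l ∈ range (i + 2), ((i + 1).choose l : ℝ) / 2 ^ (i + 1) *
        (2 * |((i + 1 : ℕ) : ℝ) - 2 * l| / ((i : ℝ) + 1)) ^ 2 = 4 / ((i : ℝ) + 1) := by
    have e : ∀ l ∈ range (i + 2), ((i + 1).choose l : ℝ) / 2 ^ (i + 1) *
        (2 * |((i + 1 : ℕ) : ℝ) - 2 * l| / ((i : ℝ) + 1)) ^ 2 =
        (4 / (2 ^ (i + 1) * ((i : ℝ) + 1) ^ 2)) *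
          (((i + 1).choose l : ℝ) * (((i + 1 : ℕ) : ℝ) - 2 * l) ^ 2) := by
      intro l _
      rw [div_pow, mul_pow, sq_abs]
      field_simp
      ring
    rw [Finset.sum_congr rfl e, ← Finset.mul_sum, lo_binom_var (i + 1)]
    push_cast
    field_simp
  rw [h7, h8, one_mul] at h6
  have hS0 : 0 ≤ S := Finset.sum_nonneg (fun l _ => by positivity)
  rw [le_div_iff₀ (Real.sqrt_pos.mpr hi)]
  have h9 : (S * √((i : ℝ) + 1)) ^ 2 ≤ 2 ^ 2 := by
    rw [mul_pow, Real.sq_sqrt hi.le]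
    calc S ^ 2 * ((i : ℝ) + 1) ≤ 4 / ((i : ℝ) + 1) * ((i : ℝ) + 1) :=
          mul_le_mul_of_nonneg_right h6 hi.le
      _ = 2 ^ 2 := by field_simp; norm_num
  have := abs_le_of_sq_le_sq h9 (by norm_num)
  rwa [abs_of_nonneg (by positivity)] at this

/-! ### sums over a residue class -/

theorem lo_sum_blocks (F : ℕ → ℝ) (n J : ℕ) :
    ∑ j ∈ range J, ∑ v ∈ range n, F (n * j + v) = ∑ l ∈ range (n * J), F l := by
  induction J with
  | zero => simp
  | succ J ih =>
    rw [Finset.sum_range_succ, ih, Nat.mul_succ, Finset.sum_range_add]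

/-- sum of a kernel over an arithmetic progression with step `n` -/
theorem lo_residue {H : ℝ[X]} (hH : ∀ l, 0 ≤ H.coeff l) {i : ℕ} (hd : H.natDegree ≤ i)
    (h1 : ∑ l ∈ range (i + 1), H.coeff l = 1) {n : ℕ} (hn : 1 ≤ n) (M t : ℕ) :
    ∑ j ∈ range M, (if n * j ≤ t then H.coeff (t - n * j) else 0) ≤
      1 / n + pn1 ((1 - X) * H) := by
  have hn' : (0 : ℝ) < n := by exact_mod_cast (show 0 < n by omega)
  set D : ℝ[X] := (1 - X) * H with hD
  have hdiff : ∀ l, H.coeff l = H.coeff (l + 1) - D.coeff (l + 1) := by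
    intro l
    rw [hD, sub_mul, one_mul, coeff_sub, coeff_X_mul]
    ring
  -- step 1: one point against its window
  have hpt : ∀ t0 v : ℕ, H.coeff t0 ≤ H.coeff (t0 + v) + ∑ w ∈ range v, |D.coeff (t0 + w + 1)| := by
    intro t0 v
    induction v with
    | zero => simp
    | succ v ih =>
      rw [Finset.sum_range_succ]
      have h2 := hdiff (t0 + v)
      have h3 := neg_abs_le (D.coeff (t0 + v + 1))
      have e : t0 + (v + 1) = t0 + v + 1 := by ring
      rw [e]
      linarith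
  have hwin : ∀ t0 : ℕ, (n : ℝ) * H.coeff t0 ≤ ∑ v ∈ range n, H.coeff (t0 + v) +
      n * ∑ w ∈ range n, |D.coeff (t0 + w + 1)| := by
    intro t0
    have : ∑ v ∈ range n, H.coeff t0 ≤ ∑ v ∈ range n, (H.coeff (t0 + v) +
        ∑ w ∈ range n, |D.coeff (t0 + w + 1)|) := by
      refine Finset.sum_le_sum (fun v hv => le_trans (hpt t0 v) ?_)
      rw [Finset.mem_range] at hv
      have : ∑ w ∈ range v, |D.coeff (t0 + w + 1)| ≤ ∑ w ∈ range n, |D.coeff (t0 + w + 1)| :=
        Finset.sum_le_sum_of_subset_of_nonneg (fun x hx => by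
          rw [Finset.mem_range] at hx ⊢; omega) (fun _ _ _ => abs_nonneg _)
      linarith
    rw [Finset.sum_const, card_range, nsmul_eq_mul, Finset.sum_add_distrib, Finset.sum_const,
      card_range, nsmul_eq_mul] at this
    exact this
  -- step 2: rewrite the sum
  set J := t / n with hJ
  set ρ := t % n with hρ
  have ht : t = n * J + ρ := (Nat.div_add_mod t n).symm
  have hρn : ρ < n := Nat.mod_lt _ (by omega)
  have hle : ∑ j ∈ range M, (if n * j ≤ t then H.coeff (t - n * j) else 0) ≤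
      ∑ j ∈ range (J + 1), H.coeff (ρ + n * j) := by
    have e1 : ∑ j ∈ range (J + 1), H.coeff (ρ + n * j) =
        ∑ j ∈ range (J + 1), (if n * j ≤ t then H.coeff (t - n * j) else 0) := by
      rw [← Finset.sum_range_reflect]
      refine Finset.sum_congr rfl (fun j hj => ?_)
      rw [Finset.mem_range] at hj
      have h3 : n * j ≤ n * J := Nat.mul_le_mul_left _ (by omega)
      rw [if_pos (by omega)]
      congr 1
      have h4 : n * (J + 1 - 1 - j) = n * J - n * j := by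
        rw [Nat.add_sub_cancel, Nat.mul_sub]
      omega
    rw [e1]
    have e2 : ∑ j ∈ range M, (if n * j ≤ t then H.coeff (t - n * j) else 0) ≤
        ∑ j ∈ range (M + (J + 1)), (if n * j ≤ t then H.coeff (t - n * j) else 0) :=
      Finset.sum_le_sum_of_subset_of_nonneg (fun x hx => by
          rw [Finset.mem_range] at hx ⊢
          exact lt_of_lt_of_le hx (Nat.le_add_right _ _)) (fun _ _ _ => by
          split_ifs
          · exact hH _
          · exact le_refl _)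
    refine le_trans e2 (le_of_eq ?_)
    symm
    refine Finset.sum_subset (fun x hx => by rw [Finset.mem_range] at hx ⊢; omega)
      (fun x _ hx => ?_)
    rw [Finset.mem_range] at hx
    rw [if_neg]
    intro hc
    have h5 : n * (J + 1) ≤ n * x := Nat.mul_le_mul_left _ (by omega)
    have h6 : n * (J + 1) = n * J + n := by ring
    omega
  refine le_trans hle ?_
  have hsum : (n : ℝ) * ∑ j ∈ range (J + 1), H.coeff (ρ + n * j) ≤ 1 + n * pn1 D := by
    rw [Finset.mul_sum]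
    calc ∑ j ∈ range (J + 1), (n : ℝ) * H.coeff (ρ + n * j)
        ≤ ∑ j ∈ range (J + 1), (∑ v ∈ range n, H.coeff (ρ + n * j + v) +
          n * ∑ w ∈ range n, |D.coeff (ρ + n * j + w + 1)|) :=
          Finset.sum_le_sum (fun j _ => hwin _)
      _ = ∑ l ∈ range (n * (J + 1)), H.coeff (ρ + l) +
          n * ∑ l ∈ range (n * (J + 1)), |D.coeff (ρ + l + 1)| := by
          rw [Finset.sum_add_distrib, ← Finset.mul_sum]
          rw [← lo_sum_blocks (fun l => H.coeff (ρ + l)), ← lo_sum_blocks (fun l => |D.coeff (ρ + l + 1)|)]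
          simp only [add_assoc]
      _ ≤ 1 + n * pn1 D := by
          have hA : ∑ l ∈ range (n * (J + 1)), H.coeff (ρ + l) ≤ 1 := by
            rw [← h1]
            have e3 : ∑ l ∈ range (n * (J + 1)), H.coeff (ρ + l) ≤
                ∑ l ∈ range (ρ + n * (J + 1) + (i + 1)), H.coeff l := by
              rw [Finset.sum_range_add _ (ρ + n * (J + 1)), Finset.sum_range_add _ ρ]
              have p1 : 0 ≤ ∑ x ∈ range ρ, H.coeff x := Finset.sum_nonneg (fun _ _ => hH _)
              have p2 : 0 ≤ ∑ x ∈ range (i + 1), H.coeff (ρ + n * (J + 1) + x) :=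
                Finset.sum_nonneg (fun _ _ => hH _)
              linarith
            refine le_trans e3 (le_of_eq ?_)
            symm
            refine Finset.sum_subset (fun x hx => by rw [Finset.mem_range] at hx ⊢; omega)
              (fun x _ hx => ?_)
            rw [Finset.mem_range] at hx
            exact coeff_eq_zero_of_natDegree_lt (by omega)
          have hB : ∑ l ∈ range (n * (J + 1)), |D.coeff (ρ + l + 1)| ≤ pn1 D := by
            rw [pn1_eq (S := (ρ + 1) + n * (J + 1) + (D.natDegree + 1)) (by omega)]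
            rw [Finset.sum_range_add _ ((ρ + 1) + n * (J + 1)), Finset.sum_range_add _ (ρ + 1)]
            have p1 : 0 ≤ ∑ x ∈ range (ρ + 1), |D.coeff x| :=
              Finset.sum_nonneg (fun _ _ => abs_nonneg _)
            have p2 : 0 ≤ ∑ x ∈ range (D.natDegree + 1), |D.coeff (ρ + 1 + n * (J + 1) + x)| :=
              Finset.sum_nonneg (fun _ _ => abs_nonneg _)
            have e4 : ∀ l ∈ range (n * (J + 1)), |D.coeff (ρ + l + 1)| = |D.coeff (ρ + 1 + l)| := by
              intro l _; congr 2; ring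
            rw [Finset.sum_congr rfl e4]
            linarith
          have := mul_le_mul_of_nonneg_left hB hn'.le
          linarith
  have : ∑ j ∈ range (J + 1), H.coeff (ρ + n * j) ≤ (1 + n * pn1 D) / n := by
    rw [le_div_iff₀ hn']; linarith
  refine le_trans this (le_of_eq ?_)
  field_simp

/-! ### averages -/

theorem lo_avg_inv {h : ℝ} (h0 : 0 < h) (h1 : h ≤ 1) (k : ℕ) :
    avg h k (fun i => 1 / ((i : ℝ) + 1)) ≤ 1 / (h * ((k : ℝ) + 1)) := by
  rw [avg_eq]
  have hk : (0 : ℝ) < (k : ℝ) + 1 := by positivity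
  have e : ∀ i ∈ range (k + 1), (k.choose i : ℝ) * h ^ i * (1 - h) ^ (k - i) * (1 / ((i : ℝ) + 1)) =
      1 / (h * ((k : ℝ) + 1)) * (h ^ (i + 1) * (1 - h) ^ (k + 1 - (i + 1)) *
        ((k + 1).choose (i + 1) : ℝ)) := by
    intro i _
    have h2 : ((k + 1 : ℕ) : ℝ) * (k.choose i : ℝ) = ((k + 1).choose (i + 1) : ℝ) * ((i + 1 : ℕ) : ℝ) := by
      exact_mod_cast Nat.add_one_mul_choose_eq k i
    push_cast at h2
    have h3 : (k.choose i : ℝ) = ((k + 1).choose (i + 1) : ℝ) * ((i : ℝ) + 1) / ((k : ℝ) + 1) := by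
      rw [← h2]; field_simp
    rw [h3, Nat.add_sub_add_right, pow_succ]
    field_simp
  rw [Finset.sum_congr rfl e, ← Finset.mul_sum]
  have h4 : ∑ i ∈ range (k + 1), h ^ (i + 1) * (1 - h) ^ (k + 1 - (i + 1)) *
        ((k + 1).choose (i + 1) : ℝ) ≤ 1 := by
    have h5 := add_pow h (1 - h) (k + 1)
    rw [add_sub_cancel, one_pow, Finset.sum_range_succ'] at h5
    have h6 : 0 ≤ h ^ 0 * (1 - h) ^ (k + 1 - 0) * ((k + 1).choose 0 : ℝ) := by
      have : 0 ≤ 1 - h := by linarith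
      positivity
    linarith
  calc _ ≤ 1 / (h * ((k : ℝ) + 1)) * 1 := mul_le_mul_of_nonneg_left h4 (by positivity)
    _ = _ := mul_one _

theorem lo_avg_add (h : ℝ) : ∀ (k : ℕ) (V W : ℕ → ℝ),
    avg h k (fun i => V i + W i) = avg h k V + avg h k W
  | 0, V, W => rfl
  | (k + 1), V, W => by
      unfold avg
      rw [lo_avg_add h k (fun i => V (i + 1)) (fun i => W (i + 1)), lo_avg_add h k V W]
      ring

theorem lo_avg_const (h c : ℝ) : ∀ (k : ℕ), avg h k (fun _ => c) = c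
  | 0 => rfl
  | (k + 1) => by
      unfold avg
      rw [lo_avg_const h c k]
      ring

theorem lo_avg_sqrt {h : ℝ} (h0 : 0 < h) (h1 : h ≤ 1) (k : ℕ) :
    avg h k (fun i => 1 / √((i : ℝ) + 1)) ≤ 1 / √(h * ((k : ℝ) + 1)) := by
  have hτ : 0 < √(h * ((k : ℝ) + 1)) := Real.sqrt_pos.mpr (by positivity)
  set τ := √(h * ((k : ℝ) + 1)) with hτd
  have hτ2 : τ ^ 2 = h * ((k : ℝ) + 1) := Real.sq_sqrt (by positivity)
  have h2 : ∀ i, i ≤ k → 1 / √((i : ℝ) + 1) ≤ τ / 2 * (1 / ((i : ℝ) + 1)) + 1 / (2 * τ) := by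
    intro i _
    have hi : (0 : ℝ) < (i : ℝ) + 1 := by positivity
    set y := √((i : ℝ) + 1) with hy
    have hy0 : 0 < y := Real.sqrt_pos.mpr hi
    have hy2 : (i : ℝ) + 1 = y ^ 2 := (Real.sq_sqrt hi.le).symm
    rw [hy2]
    have : 1 / y = (2 * τ * y) / (2 * τ * y ^ 2) := by field_simp
    have h3 : τ / 2 * (1 / y ^ 2) + 1 / (2 * τ) = (τ ^ 2 + y ^ 2) / (2 * τ * y ^ 2) := by
      field_simp
    rw [this, h3]
    refine div_le_div_of_nonneg_right ?_ (by positivity)
    nlinarith [sq_nonneg (τ - y)]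
  refine le_trans (avg_mono h0.le h1 k _ _ h2) ?_
  rw [lo_avg_add, avg_mul, lo_avg_const]
  have h3 := lo_avg_inv h0 h1 k
  rw [← hτ2] at h3
  have h4 : τ / 2 * avg h k (fun i => 1 / ((i : ℝ) + 1)) ≤ τ / 2 * (1 / τ ^ 2) :=
    mul_le_mul_of_nonneg_left h3 (by positivity)
  have h5 : τ / 2 * (1 / τ ^ 2) + 1 / (2 * τ) = 1 / τ := by field_simp; ring
  linarith

/-! ### the main computation -/

section main

variable {G : Type*} [Monoid G]

theorem lo_Qa_iter (a F : MA G) (i : ℕ) : (Qa a)^[i] F = homL a i F (binK i) := by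
  induction i with
  | zero =>
    rw [Function.iterate_zero, id, homL_apply]
    simp [binK]
  | succ i ih =>
    rw [Function.iterate_succ_apply', ih]
    have e1 : binK (i + 1) = (C (1 / 2 : ℝ) * (1 + X)) * binK i := by
      unfold binK; rw [pow_succ']
    have hd : (C (1 / 2 : ℝ) * (1 + X) : ℝ[X]).natDegree ≤ 1 := by
      refine le_trans (natDegree_C_mul_le _ _) ?_
      refine le_trans (natDegree_add_le _ _) ?_
      simp
    rw [e1, add_comm i 1, homL_mul a hd (binK_natDegree i)]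
    set Y := homL a i F (binK i)
    have e2 : homL a 1 Y (C (1 / 2 : ℝ) * (1 + X)) = (1 / 2 : ℝ) • (Y * a ^ 1 + a ^ 1 * Y * a ^ 0) := by
      have : (C (1 / 2 : ℝ) * (1 + X) : ℝ[X]) = (1 / 2 : ℝ) • (1 + X ^ 1) := by
        rw [smul_eq_C_mul, pow_one]
      rw [this, map_smul, map_add, homL_one, homL_X_pow a (le_refl 1)]
    rw [e2]
    unfold Qa
    rw [pow_one, pow_zero, mul_one, add_comm]

/-- binomial smoothing of the positions -/
theorem lo_smooth (a Z : MA G) {i x0 n M T0 P0 : ℕ} (c : ℕ → ℝ) (H : ℝ[X])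
    (hd : H.natDegree ≤ i) (hM : 1 ≤ M) (hP : P0 ≤ x0) (hT : x0 + n * (M - 1) + P0 ≤ T0) :
    homL a i (∑ j ∈ range M, c j • (a ^ (x0 + n * j) * Z * a ^ (T0 - (x0 + n * j)))) H =
      ∑ y ∈ Finset.Icc P0 (T0 + i - P0), (∑ j ∈ range M, c j *
        (if x0 + n * j ≤ y then H.coeff (y - (x0 + n * j)) else 0)) •
          (a ^ y * Z * a ^ (T0 + i - y)) := by
  have hjm : ∀ j ∈ range M, n * j ≤ n * (M - 1) := by
    intro j hj
    rw [Finset.mem_range] at hj
    exact Nat.mul_le_mul_left _ (by omega)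
  rw [homL_sum]
  simp only [Finset.sum_smul]
  rw [Finset.sum_comm]
  refine Finset.sum_congr rfl (fun j hj => ?_)
  have hj' := hjm j hj
  rw [homL_smul_right, homL_apply, Finset.smul_sum]
  have hsub : Finset.Ico (x0 + n * j) (x0 + n * j + (i + 1)) ⊆ Finset.Icc P0 (T0 + i - P0) := by
    intro y hy
    rw [Finset.mem_Ico] at hy
    rw [Finset.mem_Icc]
    omega
  rw [← Finset.sum_subset hsub]
  · rw [Finset.sum_Ico_eq_sum_range]
    have e0 : x0 + n * j + (i + 1) - (x0 + n * j) = i + 1 := by omega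
    rw [e0]
    refine Finset.sum_congr rfl (fun l hl => ?_)
    rw [Finset.mem_range] at hl
    rw [if_pos (by omega), smul_smul]
    have e1 : x0 + n * j + l - (x0 + n * j) = l := by omega
    rw [e1]
    congr 1
    have e2 : T0 + i - (x0 + n * j + l) = T0 - (x0 + n * j) + (i - l) := by omega
    rw [e2, pow_add a (T0 - (x0 + n * j)), add_comm (x0 + n * j) l, pow_add a l]
    simp only [mul_assoc]
  · intro y _ hy
    rw [Finset.mem_Ico] at hy
    by_cases h1 : x0 + n * j ≤ y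
    · rw [if_pos h1, coeff_eq_zero_of_natDegree_lt (by omega), mul_zero, zero_smul]
    · rw [if_neg h1, mul_zero, zero_smul]

/-- `ℓ²` bound of the smoothed coefficients -/
theorem lo_smooth_norm {i x0 n M : ℕ} (S : Finset ℕ) (c : ℕ → ℝ) {H : ℝ[X]}
    (hH : ∀ l, 0 ≤ H.coeff l) (hd : H.natDegree ≤ i) (h1 : ∑ l ∈ range (i + 1), H.coeff l = 1)
    (hn : 1 ≤ n) :
    ∑ y ∈ S, (∑ j ∈ range M, c j *
        (if x0 + n * j ≤ y then H.coeff (y - (x0 + n * j)) else 0)) ^ 2 ≤
      (1 / n + pn1 ((1 - X) * H)) * ∑ j ∈ range M, c j ^ 2 := by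
  set hh : ℕ → ℕ → ℝ := fun y j => if x0 + n * j ≤ y then H.coeff (y - (x0 + n * j)) else 0 with hhd
  have hh0 : ∀ y j, 0 ≤ hh y j := by
    intro y j; simp only [hhd]; split_ifs
    · exact hH _
    · exact le_refl _
  set B := 1 / (n : ℝ) + pn1 ((1 - X) * H) with hB
  have hrow : ∀ y, ∑ j ∈ range M, hh y j ≤ B := by
    intro y
    by_cases hy : x0 ≤ y
    · have h2 := lo_residue hH hd h1 hn M (y - x0)
      refine le_trans (le_of_eq ?_) h2
      refine Finset.sum_congr rfl (fun j _ => ?_)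
      simp only [hhd]
      by_cases h3 : x0 + n * j ≤ y
      · rw [if_pos h3, if_pos (by omega), Nat.sub_sub]
      · rw [if_neg h3, if_neg (by omega)]
    · have : ∑ j ∈ range M, hh y j = 0 := by
        refine Finset.sum_eq_zero (fun j _ => ?_)
        simp only [hhd]
        rw [if_neg (by omega)]
      rw [this, hB]
      have := pn1_nonneg ((1 - X) * H)
      positivity
  have hcol : ∀ j, ∑ y ∈ S, hh y j ≤ 1 := by
    intro j
    rw [← h1]
    have e1 : ∑ y ∈ S, hh y j ≤ ∑ y ∈ S ∪ Finset.Ico (x0 + n * j) (x0 + n * j + (i + 1)), hh y j :=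
      Finset.sum_le_sum_of_subset_of_nonneg Finset.subset_union_left (fun y _ _ => hh0 y j)
    refine le_trans e1 (le_of_eq ?_)
    rw [← Finset.sum_subset (Finset.subset_union_right (s₁ := S)
      (s₂ := Finset.Ico (x0 + n * j) (x0 + n * j + (i + 1))))]
    · rw [Finset.sum_Ico_eq_sum_range]
      have e0 : x0 + n * j + (i + 1) - (x0 + n * j) = i + 1 := by omega
      rw [e0]
      refine Finset.sum_congr rfl (fun l _ => ?_)
      simp only [hhd]
      rw [if_pos (by omega)]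
      congr 1; omega
    · intro y _ hy
      rw [Finset.mem_Ico] at hy
      simp only [hhd]
      by_cases h3 : x0 + n * j ≤ y
      · rw [if_pos h3]; exact coeff_eq_zero_of_natDegree_lt (by omega)
      · rw [if_neg h3]
  have hcs : ∀ y ∈ S, (∑ j ∈ range M, c j * hh y j) ^ 2 ≤ B * ∑ j ∈ range M, hh y j * c j ^ 2 := by
    intro y _
    have h2 : (∑ j ∈ range M, c j * hh y j) ^ 2 ≤
        (∑ j ∈ range M, hh y j) * ∑ j ∈ range M, hh y j * c j ^ 2 :=
      Finset.sum_sq_le_sum_mul_sum_of_sq_le_mul _ (fun j _ => hh0 y j)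
        (fun j _ => mul_nonneg (hh0 y j) (sq_nonneg _)) (fun j _ => le_of_eq (by ring))
    refine le_trans h2 (mul_le_mul_of_nonneg_right (hrow y) ?_)
    exact Finset.sum_nonneg (fun j _ => mul_nonneg (hh0 y j) (sq_nonneg _))
  refine le_trans (Finset.sum_le_sum hcs) ?_
  rw [← Finset.mul_sum]
  have hB0 : 0 ≤ B := le_trans (Finset.sum_nonneg (fun j _ => hh0 0 j)) (hrow 0)
  refine mul_le_mul_of_nonneg_left ?_ hB0
  rw [Finset.sum_comm]
  refine Finset.sum_le_sum (fun j _ => ?_)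
  rw [← Finset.sum_mul]
  calc (∑ y ∈ S, hh y j) * c j ^ 2 ≤ 1 * c j ^ 2 := mul_le_mul_of_nonneg_right (hcol j) (sq_nonneg _)
    _ = c j ^ 2 := one_mul _

end main

/-- **E2b** -/
theorem locationStatement : LocationStatement := by
  intro G _ a s Z R k z Pd n X0 M T p ha hs hp hSB hn hM hX0 hT
  have hs1 := hs.mass_le_one ha
  have hs0 := hs.mpos
  refine lo_bes_of_dom ?_ (ha.pos.pow _) (fun c => ?_)
  · have : 0 ≤ 1 / (n : ℝ) + 2 / (mass s * √((k : ℝ) + 1)) := by positivity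
    positivity
  set K := (R + 1) * k with hK
  set x0 := X0 - K with hx0
  set T0 := T - 2 * K with hT0
  set F : MA G := ∑ j ∈ range M, c j • (a ^ (x0 + n * j) * Z * a ^ (T0 - (x0 + n * j))) with hF
  have hTT : x0 + n * (M - 1) + Pd ≤ T0 := by omega
  set c2 := ∑ j ∈ range M, c j ^ 2 with hc2
  have hc20 : 0 ≤ c2 := Finset.sum_nonneg (fun _ _ => sq_nonneg _)
  have key := coins ha hs hs1 k (fun i => p * c2 * (1 / (n : ℝ) + 2 * (1 / √((i : ℝ) + 1))))
    (a ^ (T0 + z)) F (fun i _ => by positivity) (ha.pos.pow _) (fun i _ => by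
      rw [Qa_iter_pow, lo_Qa_iter, hF,
        lo_smooth a Z c (binK i) (binK_natDegree i) hM (show Pd ≤ x0 by omega) hTT]
      have h1 := lo_bes_dom (hSB (T0 + i)) (fun y => ∑ j ∈ range M, c j *
        (if x0 + n * j ≤ y then (binK i).coeff (y - (x0 + n * j)) else 0))
      have e1 : T0 + i + z = T0 + z + i := by ring
      rw [e1] at h1
      refine h1.mono ?_ (ha.pos.pow _)
      rw [mul_assoc p c2]
      refine mul_le_mul_of_nonneg_left ?_ hp
      refine le_trans (lo_smooth_norm _ c (binK_nonneg i) (binK_natDegree i) (binK_sum i) hn) ?_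
      rw [mul_comm]
      refine mul_le_mul_of_nonneg_left ?_ hc20
      have := binK_deriv i
      have e2 : 2 / √((i : ℝ) + 1) = 2 * (1 / √((i : ℝ) + 1)) := by ring
      rw [e2] at this
      linarith)
  have eF : a ^ K * F * a ^ K = ∑ j ∈ range M, c j • (a ^ (X0 + n * j) * Z * a ^ (T - (X0 + n * j))) := by
    rw [hF, Finset.mul_sum, Finset.sum_mul]
    refine Finset.sum_congr rfl (fun j hj => ?_)
    rw [Finset.mem_range] at hj
    have hj' : n * j ≤ n * (M - 1) := Nat.mul_le_mul_left _ (by omega)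
    rw [mul_smul_comm, smul_mul_assoc]
    congr 1
    have e1 : X0 + n * j = K + (x0 + n * j) := by omega
    have e2 : T - (X0 + n * j) = T0 - (x0 + n * j) + K := by omega
    rw [e2, e1, pow_add a K (x0 + n * j), pow_add a (T0 - (x0 + n * j)) K]
    simp only [mul_assoc]
  have eπ : a ^ K * a ^ (T0 + z) * a ^ K = a ^ (T + z) := by
    rw [← pow_add, ← pow_add]; congr 1; omega
  rw [eF, eπ] at key
  refine key.mono ?_ (ha.pos.pow _)
  have hh0 : 0 < (mass s) ^ 2 := by positivity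
  have hh1 : (mass s) ^ 2 ≤ 1 := by nlinarith
  rw [avg_mul]
  have e3 : avg ((mass s) ^ 2) k (fun i => 1 / (n : ℝ) + 2 * (1 / √((i : ℝ) + 1))) =
      1 / (n : ℝ) + 2 * avg ((mass s) ^ 2) k (fun i => 1 / √((i : ℝ) + 1)) := by
    rw [lo_avg_add, lo_avg_const, avg_mul]
  rw [e3]
  have h4 := lo_avg_sqrt hh0 hh1 k
  have e5 : √((mass s) ^ 2 * ((k : ℝ) + 1)) = mass s * √((k : ℝ) + 1) := by
    rw [Real.sqrt_mul (by positivity), Real.sqrt_sq hs0.le]
  rw [e5] at h4
  have e6 : p * (1 / (n : ℝ) + 2 / (mass s * √((k : ℝ) + 1))) * c2 =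
      p * c2 * (1 / (n : ℝ) + 2 * (1 / (mass s * √((k : ℝ) + 1)))) := by ring
  rw [e6]
  refine mul_le_mul_of_nonneg_left ?_ (by positivity)
  linarith

end

end Crest.Agent.R300LB
end

-- ▼ part R300/LBSlipTV
section

/-!
# Row 300, lower bounds, piece L6 (first part): common part from total variation, slip of `a'`
from closeness to the pure power.
-/

set_option autoImplicit false

namespace Crest.Agent.R300LB

open Finset

noncomputable section

variable {G : Type*} [Monoid G]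

/-- positive part of a signed measure -/
def posPart (ν : MA G) : MA G :=
  MonoidAlgebra.ofCoeff (ν.coeff.mapRange (fun x => max x 0) (max_self 0))

theorem ev_posPart (ν : MA G) (f : G → ℝ) :
    ev (posPart ν) f = ev ν (fun w => (if 0 < ν.coeff w then 1 else 0) * f w) := by
  classical
  unfold ev posPart
  rw [Finsupp.sum_mapRange_index (by simp)]
  refine Finsupp.sum_congr (fun w hw => ?_)
  show max (ν.coeff w) 0 * f w = ν.coeff w * ((if 0 < ν.coeff w then 1 else 0) * f w)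
  split_ifs with h
  · rw [max_eq_left h.le]; ring
  · rw [max_eq_right (not_lt.mp h)]; ring

theorem Pos.coeff_nonneg {ν : MA G} (h : Pos ν) (w : G) : 0 ≤ ν.coeff w := by
  classical
  have h1 := h (fun v => if v = w then 1 else 0) (fun v => by split_ifs <;> norm_num)
  have h2 : ev ν (fun v => if v = w then 1 else 0) = ν.coeff w := by
    unfold ev
    rw [Finsupp.sum_eq_single w]
    · simp
    · intro b _ hb; simp [hb]
    · intro _; simp
  rwa [h2] at h1

theorem Pos.of_coeff_nonneg {ν : MA G} (h : ∀ w, 0 ≤ ν.coeff w) : Pos ν := fun f hf => by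
  unfold ev
  exact Finsupp.sum_nonneg (fun w _ => mul_nonneg (h w) (hf w))

theorem posPart_coeff (ν : MA G) (w : G) : (posPart ν).coeff w = max (ν.coeff w) 0 := by
  unfold posPart
  simp

/-- common part of two probability measures from a total variation bound -/
theorem exists_common {τ : ℝ} {P Q : MA G} (hP : Prob P) (hQ : Prob Q) (h : TVle τ (P - Q)) :
    ∃ s : MA G, Pos s ∧ Le s P ∧ Le s Q ∧ 1 - τ / 2 ≤ mass s := by
  classical
  refine ⟨P - posPart (P - Q), ?_, ?_, ?_, ?_⟩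
  · refine Pos.of_coeff_nonneg (fun w => ?_)
    rw [MonoidAlgebra.coeff_sub, Finsupp.sub_apply, posPart_coeff, MonoidAlgebra.coeff_sub,
      Finsupp.sub_apply]
    have h1 := hP.pos.coeff_nonneg w
    have h2 := hQ.pos.coeff_nonneg w
    rcases max_cases (P.coeff w - Q.coeff w) 0 with h3 | h3 <;> rw [h3.1] <;> linarith
  · unfold Le
    rw [sub_sub_cancel]
    refine Pos.of_coeff_nonneg (fun w => ?_)
    rw [posPart_coeff]; exact le_max_right _ _
  · unfold Le
    refine Pos.of_coeff_nonneg (fun w => ?_)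
    rw [MonoidAlgebra.coeff_sub, Finsupp.sub_apply, MonoidAlgebra.coeff_sub, Finsupp.sub_apply,
      posPart_coeff, MonoidAlgebra.coeff_sub, Finsupp.sub_apply]
    rcases max_cases (P.coeff w - Q.coeff w) 0 with h3 | h3 <;> rw [h3.1] <;> linarith [h3.2]
  · rw [mass_sub, hP.one]
    have h1 : mass (posPart (P - Q)) ≤ τ / 2 := by
      unfold mass
      rw [ev_posPart]
      have h2 := h (fun w => 2 * ((if 0 < (P - Q).coeff w then (1:ℝ) else 0) * 1) - 1)
        (fun w => by split_ifs <;> norm_num)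
      rw [ev_sub_fun, ev_mul_fun] at h2
      have h3 : ev (P - Q) (fun _ => (1:ℝ)) = 0 := by
        have := mass_sub P Q
        unfold mass at this
        rw [this]
        have e1 := hP.one
        have e2 := hQ.one
        unfold mass at e1 e2
        rw [e1, e2]; ring
      rw [h3, sub_zero] at h2
      have := (abs_le.mp h2).2
      linarith
    linarith

end

end Crest.Agent.R300LB
end

-- ▼ part R300/LBSlipStep

/-!
# Row 300, lower bounds: E2c (one sided coins in `ℓ¹`) and E5b (slip of the next level)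
-/

set_option autoImplicit false

namespace Crest.Agent.R300LB.SlipStep

open Finset Crest.Agent.R300LB

noncomputable section

/-! ### the walk bound -/

/-- second moment of the simple random walk -/
theorem walk_var (m : ℕ) :
    ∑ j ∈ range (m + 1), (m.choose j : ℝ) * ((m : ℝ) - 2 * j) ^ 2 = (m : ℝ) * 2 ^ m := by
  have h := congrArg (Polynomial.eval (1 / 2 : ℝ)) (bernsteinPolynomial.variance ℝ m)
  rw [Polynomial.eval_finsetSum] at h
  simp only [bernsteinPolynomial, Polynomial.eval_mul, Polynomial.eval_pow, Polynomial.eval_sub,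
    Polynomial.eval_X, Polynomial.eval_natCast, Polynomial.eval_one,
    nsmul_eq_mul] at h
  have h2 : ∀ j ∈ range (m + 1), (m.choose j : ℝ) * ((m : ℝ) - 2 * j) ^ 2
      = 4 * 2 ^ m * (((m : ℝ) * (1 / 2) - j) ^ 2 *
        ((m.choose j : ℝ) * (1 / 2) ^ j * (1 - 1 / 2) ^ (m - j))) := by
    intro j hj
    have hj' : j ≤ m := Nat.lt_succ_iff.1 (mem_range.1 hj)
    have e1 : ((1 : ℝ) / 2) ^ j * (1 - 1 / 2) ^ (m - j) = (1 / 2) ^ m := by
      rw [show (1 : ℝ) - 1 / 2 = 1 / 2 by norm_num, ← pow_add, Nat.add_sub_cancel' hj']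
    have e2 : (2 : ℝ) ^ m * (1 / 2) ^ m = 1 := by rw [← mul_pow]; norm_num
    calc (m.choose j : ℝ) * ((m : ℝ) - 2 * j) ^ 2
        = (2 ^ m * (1 / 2) ^ m) * ((m.choose j : ℝ) * ((m : ℝ) - 2 * j) ^ 2) := by rw [e2, one_mul]
      _ = _ := by rw [← e1]; ring
  rw [Finset.sum_congr rfl h2, ← Finset.mul_sum]
  have h3 : ∑ j ∈ range (m + 1), (((m : ℝ) * (1 / 2) - j) ^ 2 *
        ((m.choose j : ℝ) * (1 / 2) ^ j * (1 - 1 / 2) ^ (m - j))) = (m : ℝ) * (1 / 2) * (1 - 1 / 2) := by
    simpa using h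
  rw [h3]
  ring

/-- first absolute moment -/
theorem walk_abs (m : ℕ) :
    ∑ j ∈ range (m + 1), (m.choose j : ℝ) * |(m : ℝ) - 2 * j| ≤ √m * 2 ^ m := by
  have hc := Finset.sum_mul_sq_le_sq_mul_sq (range (m + 1)) (fun j => √(m.choose j : ℝ))
    (fun j => √(m.choose j : ℝ) * |(m : ℝ) - 2 * j|)
  have e1 : ∑ j ∈ range (m + 1), √(m.choose j : ℝ) * (√(m.choose j : ℝ) * |(m : ℝ) - 2 * j|)
      = ∑ j ∈ range (m + 1), (m.choose j : ℝ) * |(m : ℝ) - 2 * j| :=
    Finset.sum_congr rfl fun j _ => by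
      rw [← mul_assoc, Real.mul_self_sqrt (Nat.cast_nonneg _)]
  have e2 : ∑ j ∈ range (m + 1), √(m.choose j : ℝ) ^ 2 = 2 ^ m := by
    have : ∑ j ∈ range (m + 1), √(m.choose j : ℝ) ^ 2 = ∑ j ∈ range (m + 1), (m.choose j : ℝ) :=
      Finset.sum_congr rfl fun j _ => Real.sq_sqrt (Nat.cast_nonneg _)
    rw [this]
    exact_mod_cast Nat.sum_range_choose m
  have e3 : ∑ j ∈ range (m + 1), (√(m.choose j : ℝ) * |(m : ℝ) - 2 * j|) ^ 2
      = (m : ℝ) * 2 ^ m := by
    rw [← walk_var]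
    exact Finset.sum_congr rfl fun j _ => by
      rw [mul_pow, Real.sq_sqrt (Nat.cast_nonneg _), sq_abs]
  rw [e1, e2, e3] at hc
  have h0 : 0 ≤ √(m : ℝ) * 2 ^ m := by positivity
  have h1 : (∑ j ∈ range (m + 1), (m.choose j : ℝ) * |(m : ℝ) - 2 * j|) ^ 2 ≤ (√(m : ℝ) * 2 ^ m) ^ 2 := by
    refine hc.trans (le_of_eq ?_)
    rw [mul_pow, Real.sq_sqrt (Nat.cast_nonneg _)]
    ring
  exact (abs_le_of_sq_le_sq' h1 h0).2

variable {G : Type} [Monoid G]

/-- `ℓ¹` bound for a polynomial in a probability measure -/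
theorem tv_poly {a : MA G} (ha : Prob a) (m : ℕ) (c : ℕ → ℝ) :
    TVle (∑ j ∈ range m, |c j|) (∑ j ∈ range m, c j • a ^ j) := by
  refine TVle.sum fun j _ => ?_
  have := (TVle.of_prob (ha.pow j)).smul (c j)
  rwa [mul_one] at this

/-- coefficients of `2 ^ i * C ^ i * (1 - a)` -/
theorem half_poly (a : MA G) (i : ℕ) :
    ((2 : ℝ)⁻¹ • (1 + a)) ^ i * (1 - a) =
      ∑ j ∈ range (i + 2), ((2 : ℝ)⁻¹ ^ i * ((((i + 1).choose j : ℕ) : ℝ) *
        (((i + 1 : ℕ) : ℝ) - 2 * j) / ((i + 1 : ℕ) : ℝ))) • a ^ j := by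
  have hc : Commute (1 : MA G) a := Commute.one_left a
  have h1 : (1 + a) ^ i = ∑ j ∈ range (i + 1), ((i.choose j : ℕ) : ℝ) • a ^ j := by
    rw [add_comm, hc.symm.add_pow]
    refine Finset.sum_congr rfl fun j _ => ?_
    rw [one_pow, mul_one, ← nsmul_eq_mul', Nat.cast_smul_eq_nsmul]
  have h2 : (1 + a) ^ i * (1 - a) = ∑ j ∈ range (i + 2),
      ((((i + 1).choose j : ℕ) : ℝ) * (((i + 1 : ℕ) : ℝ) - 2 * j) / ((i + 1 : ℕ) : ℝ)) • a ^ j := by
    have h3 : (1 + a) ^ i = ∑ j ∈ range (i + 2), ((i.choose j : ℕ) : ℝ) • a ^ j := by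
      rw [h1, Finset.sum_range_succ _ (i + 1), Nat.choose_succ_self, Nat.cast_zero, zero_smul,
        add_zero]
    have h4 : (1 + a) ^ i * a = ∑ j ∈ range (i + 2), ((if j = 0 then 0 else (i.choose (j - 1) : ℕ)
        : ℕ) : ℝ) • a ^ j := by
      rw [Finset.sum_range_succ' _ (i + 1)]
      simp only [if_true, Nat.cast_zero, zero_smul, add_zero, Nat.succ_ne_zero, if_false,
        Nat.add_sub_cancel]
      rw [h1, Finset.sum_mul]
      exact Finset.sum_congr rfl fun j _ => by rw [smul_mul_assoc, pow_succ]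
    rw [mul_sub, mul_one, h4, h3, ← Finset.sum_sub_distrib]
    refine Finset.sum_congr rfl fun j hj => ?_
    rw [← sub_smul]
    congr 1
    have hi : ((i + 1 : ℕ) : ℝ) ≠ 0 := by positivity
    rw [eq_div_iff hi]
    rcases Nat.eq_zero_or_pos j with h0 | h0
    · subst h0
      simp
    · obtain ⟨k, rfl⟩ : ∃ k, j = k + 1 := ⟨j - 1, by omega⟩
      have hk : k ≤ i := by have := mem_range.1 hj; omega
      simp only [Nat.succ_ne_zero, if_false, Nat.add_sub_cancel]
      have e1 : ((i + 1 : ℕ) : ℝ) * (i.choose k : ℕ) = ((i + 1).choose (k + 1) : ℕ) * ((k + 1 : ℕ) : ℝ) := by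
        exact_mod_cast Nat.add_one_mul_choose_eq i k
      have e2 : (((i + 1).choose (k + 1) : ℕ) : ℝ) = (i.choose k : ℕ) + (i.choose (k + 1) : ℕ) := by
        exact_mod_cast Nat.choose_succ_succ i k
      have e3 : ((i.choose (k + 1) : ℕ) : ℝ) = ((i + 1).choose (k + 1) : ℕ) - (i.choose k : ℕ) := by
        linarith
      rw [e3]
      push_cast at e1 ⊢
      nlinarith [e1]
  rw [smul_pow, smul_mul_assoc, h2, Finset.smul_sum]
  exact Finset.sum_congr rfl fun j _ => by rw [smul_smul]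

theorem tv_half {a : MA G} (ha : Prob a) (i : ℕ) :
    TVle (2 / √((i : ℝ) + 1)) (((2 : ℝ)⁻¹ • (1 + a)) ^ i * (1 - a)) := by
  rw [half_poly]
  refine (tv_poly ha (i + 2) _).mono ?_
  have h := walk_abs (i + 1)
  have hpos : (0 : ℝ) < ((i + 1 : ℕ) : ℝ) := by positivity
  have e : ∀ j ∈ range (i + 2), |(2 : ℝ)⁻¹ ^ i * ((((i + 1).choose j : ℕ) : ℝ) *
        (((i + 1 : ℕ) : ℝ) - 2 * j) / ((i + 1 : ℕ) : ℝ))|
      = ((2 : ℝ)⁻¹ ^ i / ((i + 1 : ℕ) : ℝ)) * ((((i + 1).choose j : ℕ) : ℝ) *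
        |((i + 1 : ℕ) : ℝ) - 2 * j|) := by
    intro j _
    rw [abs_mul, abs_div, abs_mul, abs_of_pos hpos, abs_of_nonneg (by positivity : (0:ℝ) ≤ 2⁻¹ ^ i),
      abs_of_nonneg (by positivity : (0:ℝ) ≤ (((i + 1).choose j : ℕ) : ℝ))]
    ring
  rw [Finset.sum_congr rfl e, ← Finset.mul_sum]
  calc ((2 : ℝ)⁻¹ ^ i / ((i + 1 : ℕ) : ℝ)) * ∑ j ∈ range (i + 2), ((((i + 1).choose j : ℕ) : ℝ) *
        |((i + 1 : ℕ) : ℝ) - 2 * j|)
      ≤ ((2 : ℝ)⁻¹ ^ i / ((i + 1 : ℕ) : ℝ)) * (√((i + 1 : ℕ) : ℝ) * 2 ^ (i + 1)) :=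
        mul_le_mul_of_nonneg_left h (by positivity)
    _ = 2 / √((i : ℝ) + 1) := by
        have e2 : (2 : ℝ)⁻¹ ^ i * 2 ^ (i + 1) = 2 := by
          rw [pow_succ, ← mul_assoc, ← mul_pow]; norm_num
        have hs : √((i + 1 : ℕ) : ℝ) * √((i + 1 : ℕ) : ℝ) = ((i + 1 : ℕ) : ℝ) :=
          Real.mul_self_sqrt hpos.le
        have hs0 : √((i + 1 : ℕ) : ℝ) ≠ 0 := (Real.sqrt_pos.2 hpos).ne'
        have e3 : ((i : ℝ) + 1) = ((i + 1 : ℕ) : ℝ) := by push_cast; ring
        rw [e3, div_mul_eq_mul_div, div_eq_div_iff hpos.ne' hs0]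
        calc (2 : ℝ)⁻¹ ^ i * (√((i + 1 : ℕ) : ℝ) * 2 ^ (i + 1)) * √((i + 1 : ℕ) : ℝ)
            = (2⁻¹ ^ i * 2 ^ (i + 1)) * (√((i + 1 : ℕ) : ℝ) * √((i + 1 : ℕ) : ℝ)) := by ring
          _ = 2 * ((i + 1 : ℕ) : ℝ) := by rw [e2, hs]

/-! ### the coin recursion -/

/-- average of `c` over a binomial variable -/
def bavg (η : ℝ) (k : ℕ) (c : ℕ → ℝ) : ℝ :=
  ∑ j ∈ range (k + 1), (k.choose j : ℝ) * η ^ j * (1 - η) ^ (k - j) * c j

theorem bavg_succ (η : ℝ) (k : ℕ) (c : ℕ → ℝ) :
    bavg η (k + 1) c = η * bavg η k (fun j => c (j + 1)) + (1 - η) * bavg η k c := by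
  unfold bavg
  rw [Finset.sum_range_succ' _ (k + 1)]
  have h1 : ∀ j ∈ range (k + 1), ((k + 1).choose (j + 1) : ℝ) * η ^ (j + 1) *
      (1 - η) ^ (k + 1 - (j + 1)) * c (j + 1)
      = η * ((k.choose j : ℝ) * η ^ j * (1 - η) ^ (k - j) * c (j + 1)) +
        (k.choose (j + 1) : ℝ) * η ^ (j + 1) * (1 - η) ^ (k - j) * c (j + 1) := by
    intro j _
    rw [Nat.choose_succ_succ, Nat.add_sub_add_right]
    push_cast
    ring
  rw [Finset.sum_congr rfl h1, Finset.sum_add_distrib, ← Finset.mul_sum, add_assoc]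
  congr 1
  rw [Finset.sum_range_succ' (fun j => (k.choose j : ℝ) * η ^ j * (1 - η) ^ (k - j) * c j) k,
    Finset.sum_range_succ, Nat.choose_succ_self, mul_add, Finset.mul_sum]
  congr 1
  · simp only [Nat.cast_zero, zero_mul, add_zero]
    refine Finset.sum_congr rfl fun j hj => ?_
    have : k - j = k - (j + 1) + 1 := by have := mem_range.1 hj; omega
    rw [this, pow_succ]
    ring
  · simp only [Nat.choose_zero_right, Nat.cast_one, pow_zero, Nat.sub_zero, pow_succ]
    ring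

theorem bavg_one (η : ℝ) (k : ℕ) : bavg η k (fun _ => 1) = 1 := by
  unfold bavg
  have := add_pow η (1 - η) k
  rw [add_sub_cancel, one_pow] at this
  refine Eq.trans (Finset.sum_congr rfl fun j _ => ?_) this.symm
  ring


theorem bavg_sqrt {η : ℝ} (h0 : 0 < η) (h1 : η ≤ 1) (k : ℕ) :
    bavg η k (fun j => 2 / √((j : ℝ) + 1)) ≤ 2 / √(η * (k + 1)) := by
  have hη : 0 ≤ 1 - η := by linarith
  -- Cauchy
  have hC := Finset.sum_mul_sq_le_sq_mul_sq (range (k + 1))
    (fun j => √((k.choose j : ℝ) * η ^ j * (1 - η) ^ (k - j)))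
    (fun j => √((k.choose j : ℝ) * η ^ j * (1 - η) ^ (k - j)) * (2 / √((j : ℝ) + 1)))
  have hw : ∀ j, 0 ≤ (k.choose j : ℝ) * η ^ j * (1 - η) ^ (k - j) := fun j => by positivity
  have e1 : ∑ j ∈ range (k + 1), √((k.choose j : ℝ) * η ^ j * (1 - η) ^ (k - j)) *
      (√((k.choose j : ℝ) * η ^ j * (1 - η) ^ (k - j)) * (2 / √((j : ℝ) + 1)))
      = bavg η k (fun j => 2 / √((j : ℝ) + 1)) :=
    Finset.sum_congr rfl fun j _ => by rw [← mul_assoc, Real.mul_self_sqrt (hw j)]
  have e2 : ∑ j ∈ range (k + 1), √((k.choose j : ℝ) * η ^ j * (1 - η) ^ (k - j)) ^ 2 = 1 := by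
    refine Eq.trans (Finset.sum_congr rfl fun j _ => ?_) (bavg_one η k)
    rw [Real.sq_sqrt (hw j), mul_one]
  have e3 : ∑ j ∈ range (k + 1), (√((k.choose j : ℝ) * η ^ j * (1 - η) ^ (k - j)) *
      (2 / √((j : ℝ) + 1))) ^ 2 ≤ 4 / (η * (k + 1)) := by
    have h3 : ∀ j ∈ range (k + 1), (√((k.choose j : ℝ) * η ^ j * (1 - η) ^ (k - j)) *
      (2 / √((j : ℝ) + 1))) ^ 2 = (4 / (η * (k + 1))) *
        (((k + 1).choose (j + 1) : ℝ) * η ^ (j + 1) * (1 - η) ^ (k + 1 - (j + 1))) := by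
      intro j _
      rw [mul_pow, Real.sq_sqrt (hw j), div_pow, Real.sq_sqrt (by positivity),
        Nat.add_sub_add_right]
      have e4 : ((k : ℝ) + 1) * (k.choose j : ℕ) = ((k + 1).choose (j + 1) : ℕ) * ((j : ℝ) + 1) := by
        exact_mod_cast Nat.add_one_mul_choose_eq k j
      field_simp
      linear_combination (4 * η * η ^ j * (1 - η) ^ (k - j)) * e4
    rw [Finset.sum_congr rfl h3, ← Finset.mul_sum]
    have h4 : ∑ j ∈ range (k + 1), (((k + 1).choose (j + 1) : ℝ) * η ^ (j + 1) *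
        (1 - η) ^ (k + 1 - (j + 1))) ≤ 1 := by
      have h5 := bavg_one η (k + 1)
      unfold bavg at h5
      rw [Finset.sum_range_succ' _ (k + 1)] at h5
      simp only [mul_one] at h5
      have h6 : 0 ≤ ((k + 1).choose 0 : ℝ) * η ^ 0 * (1 - η) ^ (k + 1 - 0) := by positivity
      linarith
    calc (4 / (η * (k + 1))) * ∑ j ∈ range (k + 1), (((k + 1).choose (j + 1) : ℝ) * η ^ (j + 1) *
        (1 - η) ^ (k + 1 - (j + 1))) ≤ (4 / (η * (k + 1))) * 1 :=
          mul_le_mul_of_nonneg_left h4 (by positivity)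
      _ = _ := mul_one _
  rw [e1, e2, one_mul] at hC
  have h7 : (bavg η k (fun j => 2 / √((j : ℝ) + 1))) ^ 2 ≤ (2 / √(η * (k + 1))) ^ 2 := by
    refine (hC.trans e3).trans (le_of_eq ?_)
    rw [div_pow, Real.sq_sqrt (by positivity)]
    norm_num
  exact (abs_le_of_sq_le_sq' h7 (by positivity)).2

theorem tv_coins {a s : MA G} {R : ℕ} (ha : Prob a) (hs : Slip a R s) (c : ℕ → ℝ) (X : MA G)
    (hX : ∀ i, TVle (c i) (((2 : ℝ)⁻¹ • (1 + a)) ^ i * X)) (hcomm : Commute a X) (k : ℕ) :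
    TVle (bavg (mass s) k c) (a ^ ((R + 1) * k) * X) := by
  induction k generalizing X c with
  | zero =>
    have h := hX 0
    rw [pow_zero, one_mul] at h
    simpa [bavg] using h
  | succ k ih =>
    set C : MA G := (2 : ℝ)⁻¹ • (1 + a) with hC
    have hCa : Commute C a := by
      rw [hC]
      exact ((Commute.one_left a).add_left (Commute.refl a)).smul_left _
    have ih1 := ih (fun j => c (j + 1)) (C * X) (fun i => by
      have := hX (i + 1)
      rw [pow_succ, mul_assoc] at this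
      exact this) (hCa.symm.mul_right hcomm)
    have ih2 := ih c X hX hcomm
    -- decomposition `a ^ (R+1) = s * C + U`
    set U : MA G := a ^ (R + 1) - s * C with hU
    have hUpos : Pos U := by
      have h1 : Le (s * a) (a ^ (R + 1)) := by
        have := hs.le0.mul_right ha.pos
        rwa [← pow_succ] at this
      have h2 : Le s (a ^ (R + 1)) := hs.le1
      have h3 : U = (2 : ℝ)⁻¹ • (a ^ (R + 1) - s * a) + (2 : ℝ)⁻¹ • (a ^ (R + 1) - s) := by
        have e : a ^ (R + 1) = (2 : ℝ)⁻¹ • a ^ (R + 1) + (2 : ℝ)⁻¹ • a ^ (R + 1) := by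
          rw [← add_smul]; norm_num
        rw [hU, hC, mul_smul_comm, mul_add, mul_one, smul_sub, smul_sub, smul_add]
        nth_rewrite 1 [e]
        abel
      rw [h3]
      exact (Pos.smul h1 (by norm_num)).add (Pos.smul h2 (by norm_num))
    have hCmass : mass C = 1 := by
      rw [hC, mass_smul, mass_add, mass_one, ha.one]; norm_num
    have hUmass : mass U = 1 - mass s := by
      rw [hU, mass_sub, mass_mul, hCmass, mass_pow, ha.one, one_pow, mul_one]
    have key : a ^ ((R + 1) * (k + 1)) * X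
        = s * (a ^ ((R + 1) * k) * (C * X)) + U * (a ^ ((R + 1) * k) * X) := by
      have hCA : C * a ^ ((R + 1) * k) = a ^ ((R + 1) * k) * C := (hCa.pow_right _).eq
      rw [hU, sub_mul, mul_add, mul_one, add_comm ((R + 1) * k), pow_add]
      have : s * C * (a ^ ((R + 1) * k) * X) = s * (a ^ ((R + 1) * k) * (C * X)) := by
        rw [mul_assoc, ← mul_assoc C, hCA, mul_assoc]
      rw [this, mul_assoc]
      abel
    rw [key, bavg_succ, ← hUmass]
    exact ((TVle.of_pos hs.pos).mul ih1).add ((TVle.of_pos hUpos).mul ih2)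

theorem slip_mass_le_one {a s : MA G} {R : ℕ} (ha : Prob a) (hs : Slip a R s) : mass s ≤ 1 := by
  have := hs.le0.mass_le
  rwa [mass_pow, ha.one, one_pow] at this

/-- E2c -/
theorem tvSlip : TVSlipStatement := by
  intro G _ a s R k ha hs
  have h1 := tv_coins ha hs (fun i => 2 / √((i : ℝ) + 1)) (1 - a) (fun i => tv_half ha i)
    ((Commute.one_right a).sub_right (Commute.refl a)) k
  have h2 := h1.mono (bavg_sqrt hs.mpos (slip_mass_le_one ha hs) k)
  rwa [mul_sub, mul_one, ← pow_succ] at h2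

/-- E5b -/
theorem slipStep : SlipStepStatement := by
  intro G _ a P s R R' n ha hP hs hn hR hdom
  have hη := hs.mpos
  set k := n * R' / (R + 1) with hk
  have hk1 : (R + 1) * k ≤ n * R' := Nat.mul_div_le _ _
  have hk2 : n * R' < (R + 1) * (k + 1) := by
    rw [hk]
    exact Nat.lt_mul_div_succ _ (Nat.succ_pos R)
  have hk3 : (n : ℝ) * R' ≤ (R + 1) * (k + 1) := by exact_mod_cast hk2.le
  have hn0 : (1 : ℝ) ≤ n := by exact_mod_cast hn
  -- `η (k+1) ≥ 64 n ^ 2`
  have h64 : 64 * (n : ℝ) ^ 2 ≤ mass s * (k + 1) := by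
    have h1 : 64 * (n : ℝ) ^ 2 * (R + 1) ≤ mass s * (k + 1) * (R + 1) := by
      calc 64 * (n : ℝ) ^ 2 * (R + 1) = n * (64 * n * (R + 1)) := by ring
        _ ≤ n * (mass s * R') := mul_le_mul_of_nonneg_left hR (by linarith)
        _ = mass s * (n * R') := by ring
        _ ≤ mass s * ((R + 1) * (k + 1)) := mul_le_mul_of_nonneg_left hk3 hη.le
        _ = _ := by ring
    exact le_of_mul_le_mul_right h1 (by positivity)
  have hstep : ∀ i : ℕ, TVle (1 / (4 * n)) (a ^ (n * R' + i) - a ^ (n * R' + i + 1)) := by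
    intro i
    have h1 := tvSlip G a s R k ha hs
    have h2 := h1.mulRight (TVle.of_prob (ha.pow (n * R' + i - (R + 1) * k)))
    rw [sub_mul, ← pow_add, ← pow_add] at h2
    have e1 : (R + 1) * k + (n * R' + i - (R + 1) * k) = n * R' + i := by omega
    have e2 : (R + 1) * k + 1 + (n * R' + i - (R + 1) * k) = n * R' + i + 1 := by omega
    rw [e1, e2] at h2
    refine h2.mono ?_
    have h3 : 8 * (n : ℝ) ≤ √(mass s * (k + 1)) := by
      apply Real.le_sqrt_of_sq_le
      nlinarith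
    rw [div_le_div_iff₀ (by linarith) (by linarith)]
    linarith
  have hmid : ∀ i : ℕ, TVle (i * (1 / (4 * n))) (a ^ (n * R') - a ^ (n * R' + i)) := by
    intro i
    induction i with
    | zero => simpa using TVle.zero
    | succ i ih =>
      have h := ih.add (hstep i)
      have e : a ^ (n * R') - a ^ (n * R' + i) + (a ^ (n * R' + i) - a ^ (n * R' + i + 1))
          = a ^ (n * R') - a ^ (n * R' + (i + 1)) := by
        rw [← add_assoc]; abel
      rw [e] at h
      refine h.mono (le_of_eq ?_)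
      push_cast; ring
  have hm := hmid n
  have e0 : (n : ℝ) * (1 / (4 * n)) = 1 / 4 := by field_simp
  rw [e0] at hm
  have e1 : n * R' + n = n * (R' + 1) := by ring
  rw [e1] at hm
  have hq : Real.sqrt (1 / 16) = 1 / 4 := by
    rw [show (1 / 16 : ℝ) = (1 / 4) ^ 2 by norm_num, Real.sqrt_sq (by norm_num)]
  have hA := TVle.of_dom (hdom R' (Nat.le_succ _)) (by norm_num) (ha.pow _)
  have hB := TVle.of_dom (hdom (R' + 1) le_rfl) (by norm_num) (ha.pow _)
  rw [hq] at hA hB
  have htot := (hA.add hm).add hB.neg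
  have e2 : P ^ R' - a ^ (n * R') + (a ^ (n * R') - a ^ (n * (R' + 1))) +
      -(P ^ (R' + 1) - a ^ (n * (R' + 1))) = P ^ R' - P ^ (R' + 1) := by abel
  rw [e2] at htot
  obtain ⟨s', h1, h2, h3, h4⟩ := exists_common (hP.pow R') (hP.pow (R' + 1)) htot
  refine ⟨s', ⟨h1, h2, h3, ?_⟩, ?_⟩
  · linarith
  · linarith

end

end Crest.Agent.R300LB.SlipStep
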